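import Crest.Agent.Tal.Count

/-!
Fractional covers of small cost give integral covers of small cost at a constant fraction of the
density.
-/

set_option autoImplicit false
set_option linter.unusedSectionVars false

namespace Crest.Agent.Tal

open Finset

section Main

variable {α : Type*} [Fintype α] [DecidableEq α]

lemma exists_levels (p : ℝ) (hp : 0 < p) : ∃ (m : ℕ) (π : Fin (m + 1) → ℝ),
    (∀ i, 0 ≤ π i) ∧ ∑ i, π i = 1 ∧ (∀ i, π i ≤ 4096 ^ ((i : ℕ) + 1) * p) ∧
    ∀ i : Fin (m + 1), (i : ℕ) < m → 4096 ^ ((i : ℕ) + 1) * p ≤ π i := by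
  classical
  have hex : ∃ m : ℕ, 1 ≤ ∑ i ∈ range (m + 1), (4096 : ℝ) ^ (i + 1) * p := by
    obtain ⟨n, hn⟩ := pow_unbounded_of_one_lt (1 / p) (by norm_num : (1 : ℝ) < 4096)
    refine ⟨n, le_trans ?_ (single_le_sum (f := fun i => (4096 : ℝ) ^ (i + 1) * p)
      (fun i _ => by positivity) (self_mem_range_succ n))⟩
    rw [div_lt_iff₀ hp] at hn
    have : (0 : ℝ) < 4096 ^ n * p := by positivity
    rw [pow_succ]; nlinarith
  set m := Nat.find hex with hm
  have h1 : 1 ≤ ∑ i ∈ range (m + 1), (4096 : ℝ) ^ (i + 1) * p := Nat.find_spec hex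
  have h2 : ∑ i ∈ range m, (4096 : ℝ) ^ (i + 1) * p ≤ 1 := by
    rcases Nat.eq_zero_or_eq_succ_pred m with h | h
    · rw [h]; simp
    · have := Nat.find_min hex (m := m - 1) (by omega)
      rw [h]; push Not at this; exact this.le
  refine ⟨m, fun i => if (i : ℕ) < m then 4096 ^ ((i : ℕ) + 1) * p
    else 1 - ∑ i ∈ range m, (4096 : ℝ) ^ (i + 1) * p, fun i => ?_, ?_, fun i => ?_, fun i hi => ?_⟩
  · dsimp only; split_ifs
    · positivity
    · linarith
  · rw [Fin.sum_univ_castSucc]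
    simp only [Fin.val_castSucc, Fin.is_lt, if_true, Fin.val_last, lt_irrefl, if_false]
    rw [Fin.sum_univ_eq_sum_range (fun i => (4096 : ℝ) ^ (i + 1) * p)]
    ring
  · dsimp only; split_ifs with hi
    · exact le_rfl
    · have : (i : ℕ) = m := by have := i.2; omega
      rw [this]
      rw [sum_range_succ] at h1
      linarith
  · simp [hi]

lemma one_sub_avg_le {m : ℕ} (τ : α → Fin (m + 1)) (S : Finset α) (hS : S.Nonempty) :
    1 - (∑ x ∈ S, ((τ x : ℕ) : ℝ)) / S.card ≤ ∏ x ∈ S, (8192 * (1 / 8192 : ℝ) ^ (τ x : ℕ)) := by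
  have hc : (0 : ℝ) < S.card := by exact_mod_cast hS.card_pos
  have h0 : 0 ≤ (∑ x ∈ S, ((τ x : ℕ) : ℝ)) / S.card := by positivity
  rw [prod_mul_distrib, prod_const, prod_pow_eq_pow_sum]
  by_cases h : ∑ x ∈ S, (τ x : ℕ) ≤ S.card
  · have h1 : (1 / 8192 : ℝ) ^ S.card ≤ (1 / 8192 : ℝ) ^ (∑ x ∈ S, (τ x : ℕ)) :=
      pow_le_pow_of_le_one (by norm_num) (by norm_num) h
    have h2 : (8192 : ℝ) ^ S.card * (1 / 8192 : ℝ) ^ S.card = 1 := by
      rw [← mul_pow]; norm_num
    have h3 : (0 : ℝ) < 8192 ^ S.card := by positivity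
    nlinarith
  · push Not at h
    have h1 : (S.card : ℝ) ≤ ∑ x ∈ S, ((τ x : ℕ) : ℝ) := by exact_mod_cast h.le
    have h2 : 1 ≤ (∑ x ∈ S, ((τ x : ℕ) : ℝ)) / S.card := by rw [le_div_iff₀ hc]; linarith
    have h3 : (0 : ℝ) ≤ 8192 ^ S.card * (1 / 8192 : ℝ) ^ (∑ x ∈ S, (τ x : ℕ)) := by positivity
    linarith

theorem frac_to_int (F : Finset (Finset α)) (p : ℝ) (hp : 0 < p) (g : Finset α → ℝ)
    (hg : ∀ S, 0 ≤ g S) (hcov : ∀ H ∈ F, 1 ≤ ∑ S ∈ H.powerset, g S)
    (hcost : ∑ S, g S * (2 ^ 28 * p) ^ S.card ≤ 1 / 2) :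
    ∃ G : Finset (Finset α), (∀ H ∈ F, ∃ S ∈ G, S ⊆ H) ∧ ∑ S ∈ G, p ^ S.card ≤ 1 / 2 := by
  classical
  by_contra hcon
  push Not at hcon
  obtain ⟨m, π, hπ0, hπ1, hπu, hπl⟩ := exists_levels p hp
  let μ : F → α → ℝ := fun H x => ∑ S ∈ (H : Finset α).powerset with x ∈ S, g S / S.card
  have hμ0 : ∀ j x, 0 ≤ μ j x := fun j x => sum_nonneg fun S _ => by have := hg S; positivity
  have hsupp : ∀ j x, 0 < μ j x → x ∈ (j : Finset α) := by
    intro j x hx
    by_contra hx'
    have : μ j x = 0 := sum_eq_zero fun S hS => by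
      obtain ⟨h1, h2⟩ := mem_filter.mp hS
      exact absurd (mem_powerset.mp h1 h2) hx'
    linarith
  obtain ⟨Fc, hF1, hF2⟩ := exists_canon (m := m) μ
  let Bad : (α → Fin (m + 1)) → Prop := fun τ => ∀ j, ∃ i : Fin m,
      (1 / 2 : ℝ) ^ ((i : ℕ) + 2) * ∑ x, μ j x < ∑ x with (i : ℕ) < τ x, μ j x
  have hw : ∀ τ : α → Fin (m + 1), 0 ≤ ∏ x, π (τ x) := fun τ => prod_nonneg fun x _ => hπ0 _
  have hsum1 : ∑ τ : α → Fin (m + 1), ∏ x, π (τ x) = 1 := by
    have := prod_univ_sum (fun _ : α => (univ : Finset (Fin (m + 1)))) (fun _ k => π k)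
    rw [Fintype.piFinset_univ] at this
    rw [← this]; simp [hπ1]
  -- bad level functions are rare
  have hbad : ∑ τ with Bad τ, ∏ x, π (τ x) ≤ 1 / 4 := by
    have h1 := expected_cost_le Fc hF1 p hp.le π hπ0 hπ1 hπl
    have h2 : ∑ τ with Bad τ, (∏ x, π (τ x)) * (1 / 2) ≤ 1 / 8 := by
      refine le_trans ?_ h1
      rw [sum_filter]
      refine sum_le_sum fun τ _ => ?_
      split_ifs with hb
      · refine mul_le_mul_of_nonneg_left (hcon _ fun H hH => ?_).le (hw τ)
        obtain ⟨U, hU, h⟩ := exists_fragment (fun j : F => (j : Finset α)) μ hμ0 hsupp Fc hF1 hF2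
          τ hb ⟨H, hH⟩
        exact ⟨U, mem_filter.mpr ⟨mem_univ _, h⟩, hU⟩
      · exact mul_nonneg (hw τ) (sum_nonneg fun U _ => by positivity)
    rw [← sum_mul] at h2
    linarith
  -- good level functions are rare
  set a := g ∅ with ha
  have hcost' : ∑ S with S.Nonempty, g S * (2 ^ 28 * p) ^ S.card ≤ 1 / 2 - a := by
    rw [← sum_filter_add_sum_filter_not univ (fun S : Finset α => S.Nonempty)] at hcost
    have : (univ.filter fun S : Finset α => ¬ S.Nonempty) = {∅} := by
      ext S; simp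
    rw [this] at hcost
    simp only [sum_singleton, card_empty, pow_zero, mul_one] at hcost
    linarith
  have ha2 : a ≤ 1 / 2 := by
    have := le_trans (sum_nonneg fun S _ => by have := hg S; positivity) hcost'
    linarith
  let Y : (α → Fin (m + 1)) → ℝ := fun τ =>
    ∑ S : Finset α with S.Nonempty, g S * ∏ x ∈ S, (8192 * (1 / 8192 : ℝ) ^ (τ x : ℕ))
  have hY0 : ∀ τ, 0 ≤ Y τ := fun τ => sum_nonneg fun S _ =>
    mul_nonneg (hg S) (prod_nonneg fun x _ => by positivity)
  have hYgood : ∀ τ, ¬ Bad τ → (1 - a) / 2 ≤ Y τ := by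
    intro τ hτ
    simp only [Bad] at hτ
    push Not at hτ
    obtain ⟨H, hH⟩ := hτ
    set T := ∑ S ∈ (H : Finset α).powerset with S.Nonempty, g S with hT
    have hT1 : 1 - a ≤ T := by
      have := hcov H H.2
      rw [← sum_filter_add_sum_filter_not _ (fun S : Finset α => S.Nonempty)] at this
      have h2 : ((H : Finset α).powerset.filter fun S : Finset α => ¬ S.Nonempty) = {∅} := by
        ext S
        simp only [mem_filter, mem_powerset, not_nonempty_iff_eq_empty, mem_singleton]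
        exact ⟨fun h => h.2, fun h => by simp [h]⟩
      rw [h2, sum_singleton] at this
      linarith
    -- weighted sums
    have hwt : ∀ φ : α → ℝ, ∑ x, μ H x * φ x =
        ∑ S ∈ (H : Finset α).powerset with S.Nonempty, g S * ((∑ x ∈ S, φ x) / S.card) := by
      intro φ
      simp only [μ]
      simp_rw [sum_mul, sum_filter]
      rw [sum_comm]
      refine sum_congr rfl fun S _ => ?_
      rw [← sum_filter]
      have : (univ.filter fun x => x ∈ S) = S := by ext; simp
      rw [this, ← mul_sum]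
      split_ifs with hS
      · ring
      · rw [not_nonempty_iff_eq_empty.mp hS]; simp
    have hμT : ∑ x, μ H x = T := by
      have := hwt (fun _ => 1)
      simp only [mul_one] at this
      rw [this]
      refine sum_congr rfl fun S hS => ?_
      have hc : (S.card : ℝ) ≠ 0 := by
        exact_mod_cast (mem_filter.mp hS).2.card_pos.ne'
      simp [hc]
    have hτs : ∑ x, μ H x * ((τ x : ℕ) : ℝ) ≤ T / 2 := by
      have h1 : ∀ x, ((τ x : ℕ) : ℝ) = ∑ i : Fin m, if (i : ℕ) < τ x then 1 else 0 := by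
        intro x
        rw [Fin.sum_univ_eq_sum_range (fun i => if i < (τ x : ℕ) then (1 : ℝ) else 0),
          ← sum_filter]
        have : (range m).filter (fun i => i < (τ x : ℕ)) = range (τ x) := by
          ext i
          have := (τ x).2
          simp only [mem_filter, mem_range]; omega
        rw [this]; simp
      calc ∑ x, μ H x * ((τ x : ℕ) : ℝ) = ∑ i : Fin m, ∑ x with (i : ℕ) < τ x, μ H x := by
            simp_rw [h1, mul_sum, sum_filter]
            rw [sum_comm]
            simp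
        _ ≤ ∑ i : Fin m, (1 / 2 : ℝ) ^ ((i : ℕ) + 1) * (T / 2) := by
            refine sum_le_sum fun i _ => (hH i).trans (le_of_eq ?_)
            rw [hμT]; ring
        _ ≤ T / 2 := by
            rw [← sum_mul]
            have := sum_half_pow_le m
            nlinarith
    have h3 : T - ∑ x, μ H x * ((τ x : ℕ) : ℝ) ≤ Y τ := by
      rw [hwt, hT, ← sum_sub_distrib]
      calc _ ≤ ∑ S ∈ (H : Finset α).powerset with S.Nonempty,
            g S * ∏ x ∈ S, (8192 * (1 / 8192 : ℝ) ^ (τ x : ℕ)) := by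
            refine sum_le_sum fun S hS => ?_
            have := mul_le_mul_of_nonneg_left (one_sub_avg_le τ S (mem_filter.mp hS).2) (hg S)
            linarith
        _ ≤ Y τ := by
            refine sum_le_sum_of_subset_of_nonneg (fun S hS => ?_) (fun S _ _ => ?_)
            · exact mem_filter.mpr ⟨mem_univ _, (mem_filter.mp hS).2⟩
            · exact mul_nonneg (hg S) (prod_nonneg fun x _ => by positivity)
    linarith
  have hEY : ∑ τ : α → Fin (m + 1), (∏ x, π (τ x)) * Y τ ≤ (1 / 4) * (1 / 2 - a) := by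
    have hlev : ∑ k : Fin (m + 1), π k * (8192 * (1 / 8192 : ℝ) ^ (k : ℕ)) ≤ 2 ^ 26 * p := by
      calc _ ≤ ∑ k : Fin (m + 1), (1 / 2 : ℝ) ^ ((k : ℕ) + 1) * (2 ^ 26 * p) := by
            refine sum_le_sum fun k _ => ?_
            refine (mul_le_mul_of_nonneg_right (hπu k) (by positivity)).trans (le_of_eq ?_)
            have : (1 / 2 : ℝ) ^ (k : ℕ) = 4096 ^ (k : ℕ) * (1 / 8192) ^ (k : ℕ) := by
              rw [← mul_pow]; norm_num
            rw [pow_succ, pow_succ, this]; ring
        _ ≤ _ := by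
            rw [← sum_mul]
            have := sum_half_pow_le (m + 1)
            have h2 : (0 : ℝ) < 2 ^ 26 * p := by positivity
            nlinarith
    have hlev0 : 0 ≤ ∑ k : Fin (m + 1), π k * (8192 * (1 / 8192 : ℝ) ^ (k : ℕ)) :=
      sum_nonneg fun k _ => mul_nonneg (hπ0 k) (by positivity)
    simp only [Y, mul_sum]
    rw [sum_comm]
    refine le_trans ?_ (mul_le_mul_of_nonneg_left hcost' (by norm_num))
    rw [mul_sum]
    refine sum_le_sum fun S hS => ?_
    have hS' := (mem_filter.mp hS).2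
    have h1 : ∑ τ : α → Fin (m + 1), (∏ x, π (τ x)) *
        (g S * ∏ x ∈ S, (8192 * (1 / 8192 : ℝ) ^ (τ x : ℕ))) =
        g S * (∑ k : Fin (m + 1), π k * (8192 * (1 / 8192 : ℝ) ^ (k : ℕ))) ^ S.card := by
      have h2 := prod_univ_sum (fun _ : α => (univ : Finset (Fin (m + 1))))
        (fun x k => π k * if x ∈ S then (8192 * (1 / 8192 : ℝ) ^ (k : ℕ)) else 1)
      rw [Fintype.piFinset_univ] at h2
      have h3 : ∀ τ : α → Fin (m + 1), (∏ x, π (τ x)) *
          (g S * ∏ x ∈ S, (8192 * (1 / 8192 : ℝ) ^ (τ x : ℕ))) =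
          g S * ∏ x, (π (τ x) * if x ∈ S then (8192 * (1 / 8192 : ℝ) ^ (τ x : ℕ)) else 1) := by
        intro τ
        rw [prod_mul_distrib (s := univ), ← prod_filter]
        have : (univ.filter fun x => x ∈ S) = S := by ext; simp
        rw [this]; ring
      simp_rw [h3]
      rw [← mul_sum, ← h2]
      congr 1
      have h4 : ∀ x, ∑ k : Fin (m + 1), (π k * if x ∈ S then (8192 * (1 / 8192 : ℝ) ^ (k : ℕ))
          else 1) = if x ∈ S then
            ∑ k : Fin (m + 1), π k * (8192 * (1 / 8192 : ℝ) ^ (k : ℕ)) else 1 := by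
        intro x
        split_ifs
        · rfl
        · simp [hπ1]
      simp_rw [h4]
      rw [← prod_filter, prod_const]
      simp
    rw [h1]
    have h5 := pow_le_pow_left₀ hlev0 hlev S.card
    have h6 : (2 ^ 26 * p) ^ S.card ≤ (1 / 4) * (2 ^ 28 * p) ^ S.card := by
      have : (2 ^ 26 * p) = (1 / 4) * (2 ^ 28 * p) := by ring
      rw [this, mul_pow]
      refine mul_le_mul_of_nonneg_right ?_ (by positivity)
      exact pow_le_of_le_one (by norm_num) (by norm_num) hS'.card_pos.ne'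
    have := mul_le_mul_of_nonneg_left (h5.trans h6) (hg S)
    linarith
  have hgood : (∑ τ with ¬ Bad τ, ∏ x, π (τ x)) * ((1 - a) / 2) ≤ (1 / 4) * (1 / 2 - a) := by
    refine le_trans ?_ hEY
    rw [sum_mul, sum_filter]
    refine sum_le_sum fun τ _ => ?_
    split_ifs with hb
    · exact mul_nonneg (hw τ) (hY0 τ)
    · exact mul_le_mul_of_nonneg_left (hYgood τ hb) (hw τ)
  rw [← sum_filter_add_sum_filter_not univ Bad] at hsum1
  have ha0 : 0 ≤ a := hg _
  nlinarith

end Main

end Crest.Agent.Tal
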