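import Crest.Agent.Tal.Fourier
import Crest.Agent.Tal.FracInt

/-!
Discrete convexity: sets not covered by boundedly many members of a large family are small.
-/

set_option autoImplicit false
set_option linter.unusedSectionVars false

namespace Crest.Agent.Tal

open Finset

section Convex

variable {X : Type*} [Fintype X] [DecidableEq X]

/-- The set of heads of an outcome. -/
def heads (b : X → Bool) : Finset X := univ.filter (fun x => b x = true)

@[simp] lemma mem_heads {b : X → Bool} {x : X} : x ∈ heads b ↔ b x = true := by simp [heads]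

/-- Outcomes and sets. -/
def headsEquiv : (X → Bool) ≃ Finset X where
  toFun := heads
  invFun S := fun x => decide (x ∈ S)
  left_inv b := by funext x; simp
  right_inv S := by ext x; simp

lemma weight_eq (p : ℝ) (b : X → Bool) :
    (∏ x, if b x then p else 1 - p) =
      p ^ (heads b).card * (1 - p) ^ (Fintype.card X - (heads b).card) := by
  rw [prod_ite, prod_const, prod_const]
  congr 2
  have := card_filter_add_card_filter_not (s := (univ : Finset X)) (fun x => b x = true)
  rw [card_univ] at this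
  unfold heads
  omega

lemma sum_heads (p : ℝ) (f : Finset X → ℝ) :
    ∑ b : X → Bool, f (heads b) * ∏ x, (if b x then p else 1 - p) =
      ∑ S : Finset X, f S * (p ^ S.card * (1 - p) ^ (Fintype.card X - S.card)) := by
  refine Fintype.sum_equiv headsEquiv _ _ fun b => ?_
  rw [weight_eq]; rfl

theorem convex_frac (p : ℝ) (hp0 : 0 < p) (hp1 : p < 1) (t : ℕ) (ht : 1 ≤ t)
    (D : Finset (Finset X)) (η : ℝ) (hη : t * η ≤ 1 / 3)
    (hD : 1 - η ≤ ∑ S ∈ D, p ^ S.card * (1 - p) ^ (Fintype.card X - S.card)) :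
    ∃ w : Finset X → ℝ, (∀ T, 0 ≤ w T) ∧ ∑ T, w T * (t * p) ^ T.card ≤ 1 / 2 ∧
      ∀ S : Finset X, (∀ A B : Fin t → Finset X, (∀ i, A i ∈ D) → (∀ i, B i ∈ D) →
        ∃ x ∈ S, (∀ i, x ∉ A i) ∧ ∀ i, x ∉ B i) → 1 ≤ ∑ T ∈ S.powerset, w T := by
  classical
  let π : (Fin t → Bool) → ℝ := fun ω => ∏ i, if ω i then p else 1 - p
  have h1p : 0 < 1 - p := by linarith
  have hπ0 : ∀ ω, 0 ≤ π ω := fun ω => prod_nonneg fun i _ => by split_ifs <;> linarith
  have hπ1 : ∑ ω, π ω = 1 := by
    simp only [π]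
    rw [sum_prod_eq (fun (_ : Fin t) (c : Bool) => if c then p else 1 - p)]
    simp
  let Z : (Fin t → Bool) → Prop := fun ω => ∀ i, ω i = false
  have hz : ∑ ω with Z ω, π ω = (1 - p) ^ t := by
    have : (univ.filter Z) = {fun _ => false} := by
      ext ω; simp [Z, funext_iff]
    rw [this]; simp [π]
  have hz0 : 0 < (1 - p) ^ t := by positivity
  have hz1 : (1 - p) ^ t < 1 := pow_lt_one₀ h1p.le (by linarith) (by omega)
  let G : (X → Fin t → Bool) → Prop := fun a => ∀ i, heads (fun x => a x i) ∈ D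
  set ν := ∑ S ∈ D, p ^ S.card * (1 - p) ^ (Fintype.card X - S.card) with hν
  have hμ : ∑ a : X → Fin t → Bool with G a, ∏ x, π (a x) = ν ^ t := by
    have h1 : ν = ∑ b : X → Bool, (if heads b ∈ D then 1 else 0) *
        ∏ x, (if b x then p else 1 - p) := by
      rw [sum_heads p (fun S => if S ∈ D then 1 else 0)]
      simp [hν]
    have h2 : ν ^ t = ∏ _i : Fin t, ν := by simp
    rw [h2, h1, ← sum_prod_eq (fun (_ : Fin t) (b : X → Bool) => (if heads b ∈ D then 1 else 0) *
        ∏ x, (if b x then p else 1 - p)), sum_filter]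
    refine Fintype.sum_equiv (Equiv.piComm _) _ _ fun a => ?_
    rw [prod_mul_distrib]
    simp only [π]
    rw [prod_comm]
    split_ifs with h
    · rw [prod_eq_one (f := fun i => if heads ((Equiv.piComm _) a i) ∈ D then (1 : ℝ) else 0),
        one_mul]
      · rfl
      · intro i _
        exact if_pos (h i)
    · simp only [G] at h
      push Not at h
      obtain ⟨i, hi⟩ := h
      rw [prod_eq_zero (mem_univ i) (if_neg hi), zero_mul]
  have hη' : η ≤ 1 / 3 := by
    have : (1 : ℝ) ≤ t := by exact_mod_cast ht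
    by_cases h : 0 ≤ η
    · nlinarith
    · linarith
  have hνt : 2 / 3 ≤ ν ^ t := by
    have h1 : 1 + (t : ℝ) * (-η) ≤ (1 + -η) ^ t := one_add_mul_le_pow (by linarith) t
    have h2 : (1 + -η) ^ t ≤ ν ^ t := pow_le_pow_left₀ (by linarith) (by linarith) t
    linarith
  obtain ⟨w, hw0, -, hwc, hwS⟩ := fourier_cover (X := X) π hπ0 hπ1 Z _ (by convert hz) hz0 hz1 G _
    (by convert hμ) (by linarith)
  refine ⟨w, hw0, le_trans ?_ (hwc.trans ?_), fun S hS => hwS S fun a b ha hb => ?_⟩
  · refine sum_le_sum fun T _ => mul_le_mul_of_nonneg_left ?_ (hw0 T)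
    refine pow_le_pow_left₀ (by positivity) ?_ _
    rw [le_div_iff₀ hz0]
    have h1 : 1 + (t : ℝ) * p ≤ (1 + p) ^ t := one_add_mul_le_pow (by linarith) t
    have h2 : (1 + p) ^ t * (1 - p) ^ t ≤ 1 := by
      rw [← mul_pow]
      exact pow_le_one₀ (by positivity) (by nlinarith)
    nlinarith
  · rw [div_le_iff₀ (by linarith)]
    linarith
  · obtain ⟨x, hx, h1, h2⟩ := hS _ _ ha hb
    exact ⟨x, hx, fun i => by simpa using h1 i, fun i => by simpa using h2 i⟩

theorem convex_small (p : ℝ) (hp0 : 0 < p) (hp1 : p < 1) (t k : ℕ) (ht : (t : ℝ) = 2 ^ 28)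
    (hk : 3 * t ≤ k) (D : Finset (Finset X))
    (hD : 1 - 1 / k ≤ ∑ S ∈ D, p ^ S.card * (1 - p) ^ (Fintype.card X - S.card)) :
    ∃ G : Finset (Finset X),
      (∀ S : Finset X, (∀ f : Fin k → Finset X, (∀ i, f i ∈ D) → ¬ S ⊆ univ.biUnion f) →
        ∃ I ∈ G, I ⊆ S) ∧ ∑ I ∈ G, p ^ I.card ≤ 1 / 2 := by
  classical
  have ht1 : 1 ≤ t := by
    have : (1 : ℝ) ≤ t := by rw [ht]; norm_num
    exact_mod_cast this
  have hk' : (3 * t : ℝ) ≤ k := by exact_mod_cast hk
  have ht0 : (0 : ℝ) < t := by exact_mod_cast ht1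
  obtain ⟨w, hw0, hwc, hwS⟩ := convex_frac p hp0 hp1 t ht1 D (1 / k) (by
    rw [mul_one_div, div_le_iff₀ (by linarith)]; linarith) hD
  rw [ht] at hwc
  obtain ⟨G, hG1, hG2⟩ := frac_to_int (univ.filter fun S : Finset X =>
    ∀ f : Fin k → Finset X, (∀ i, f i ∈ D) → ¬ S ⊆ univ.biUnion f) p hp0 w hw0 (by
      intro S hS
      refine hwS S fun A B hA hB => ?_
      have h := (mem_filter.mp hS).2 (fun i => if h : (i : ℕ) < t then A ⟨i, h⟩ else
        if h' : (i : ℕ) - t < t then B ⟨i - t, h'⟩ else A ⟨0, ht1⟩) (by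
          intro i
          split_ifs
          · exact hA _
          · exact hB _
          · exact hA _)
      rw [not_subset] at h
      obtain ⟨x, hx, hx'⟩ := h
      simp only [mem_biUnion, mem_univ, true_and, not_exists] at hx'
      refine ⟨x, hx, fun i => ?_, fun i => ?_⟩
      · have := hx' ⟨i, by omega⟩
        simpa using this
      · have := hx' ⟨t + i, by omega⟩
        simpa using this) hwc
  exact ⟨G, fun S hS => hG1 S (mem_filter.mpr ⟨mem_univ _, hS⟩), hG2⟩

end Convex

end Crest.Agent.Tal
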