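import Crest.Prelude.Def_FinProb
import Crest.Agent.Tal.Convex

/-!
A small toolkit for independent coins: expectation, resampling, independence, marginals and a
lower-tail bound.
-/

set_option autoImplicit false
set_option linter.unusedSectionVars false

namespace Crest.Agent.Tal

open Finset Crest.FinProb

/-- Real indicator of a proposition. -/
noncomputable def ind (P : Prop) : ℝ := by classical exact if P then 1 else 0

lemma ind_pos {P : Prop} (h : P) : ind P = 1 := by simp [ind, h]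
lemma ind_neg {P : Prop} (h : ¬ P) : ind P = 0 := by simp [ind, h]
lemma ind_nonneg (P : Prop) : 0 ≤ ind P := by unfold ind; split_ifs <;> norm_num
lemma ind_le_one (P : Prop) : ind P ≤ 1 := by unfold ind; split_ifs <;> norm_num
lemma ind_mono {P Q : Prop} (h : P → Q) : ind P ≤ ind Q := by
  by_cases hP : P
  · rw [ind_pos hP, ind_pos (h hP)]
  · rw [ind_neg hP]; exact ind_nonneg _
lemma ind_congr {P Q : Prop} (h : P ↔ Q) : ind P = ind Q := by rw [propext h]
lemma ind_not (P : Prop) : ind (¬ P) = 1 - ind P := by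
  by_cases hP : P <;> simp [ind, hP]
lemma ind_and (P Q : Prop) : ind (P ∧ Q) = ind P * ind Q := by
  by_cases hP : P <;> by_cases hQ : Q <;> simp [ind, hP, hQ]
lemma ind_eq_ite (P : Prop) [Decidable P] : ind P = if P then 1 else 0 := by
  by_cases hP : P <;> simp [ind, hP]

section Prob

variable {ι : Type*} [Fintype ι] [DecidableEq ι]

/-- Expectation under independent coins of bias `q`. -/
noncomputable def Ex (q : ℝ) (f : (ι → Bool) → ℝ) : ℝ := ∑ ω, bernoulliWeight q ω * f ω

/-- Probability under independent coins of bias `q`. -/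
noncomputable def Pr (q : ℝ) (E : (ι → Bool) → Prop) : ℝ := Ex q (fun ω => ind (E ω))

lemma bernoulliProb_eq (q : ℝ) (E : (ι → Bool) → Prop) :
    bernoulliProb q {ω | E ω} = Pr q E := by
  classical
  unfold bernoulliProb Pr Ex
  rw [sum_filter]
  refine sum_congr rfl fun ω _ => ?_
  by_cases h : E ω <;> simp [ind, h]

lemma bw_nonneg {q : ℝ} (h0 : 0 ≤ q) (h1 : q ≤ 1) (ω : ι → Bool) : 0 ≤ bernoulliWeight q ω :=
  prod_nonneg fun i _ => by split_ifs <;> linarith

lemma sum_bw (q : ℝ) : ∑ ω : ι → Bool, bernoulliWeight q ω = 1 := by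
  unfold bernoulliWeight
  rw [sum_prod_eq (fun (_ : ι) (c : Bool) => if c then q else 1 - q)]
  simp

lemma Ex_const (q c : ℝ) : Ex q (fun _ : ι → Bool => c) = c := by
  unfold Ex; rw [← sum_mul, sum_bw, one_mul]

lemma Ex_mono {q : ℝ} (h0 : 0 ≤ q) (h1 : q ≤ 1) {f g : (ι → Bool) → ℝ} (h : ∀ ω, f ω ≤ g ω) :
    Ex q f ≤ Ex q g :=
  sum_le_sum fun ω _ => mul_le_mul_of_nonneg_left (h ω) (bw_nonneg h0 h1 ω)

lemma Ex_nonneg {q : ℝ} (h0 : 0 ≤ q) (h1 : q ≤ 1) {f : (ι → Bool) → ℝ} (h : ∀ ω, 0 ≤ f ω) :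
    0 ≤ Ex q f := by
  have := Ex_mono h0 h1 (f := fun _ => 0) h
  rwa [Ex_const] at this

lemma Ex_add (q : ℝ) (f g : (ι → Bool) → ℝ) :
    Ex q (fun ω => f ω + g ω) = Ex q f + Ex q g := by
  unfold Ex; rw [← sum_add_distrib]; exact sum_congr rfl fun ω _ => by ring

lemma Ex_sub (q : ℝ) (f g : (ι → Bool) → ℝ) :
    Ex q (fun ω => f ω - g ω) = Ex q f - Ex q g := by
  unfold Ex; rw [← sum_sub_distrib]; exact sum_congr rfl fun ω _ => by ring

lemma Ex_const_mul (q c : ℝ) (f : (ι → Bool) → ℝ) :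
    Ex q (fun ω => c * f ω) = c * Ex q f := by
  unfold Ex; rw [mul_sum]; exact sum_congr rfl fun ω _ => by ring

lemma Ex_mul_const (q c : ℝ) (f : (ι → Bool) → ℝ) :
    Ex q (fun ω => f ω * c) = Ex q f * c := by
  unfold Ex; rw [sum_mul]; exact sum_congr rfl fun ω _ => by ring

lemma Ex_sum {κ : Type*} (q : ℝ) (s : Finset κ) (f : κ → (ι → Bool) → ℝ) :
    Ex q (fun ω => ∑ k ∈ s, f k ω) = ∑ k ∈ s, Ex q (f k) := by
  unfold Ex; simp_rw [mul_sum]; rw [sum_comm]

lemma Pr_nonneg {q : ℝ} (h0 : 0 ≤ q) (h1 : q ≤ 1) (E : (ι → Bool) → Prop) : 0 ≤ Pr q E :=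
  Ex_nonneg h0 h1 fun _ => ind_nonneg _

lemma Pr_le_one {q : ℝ} (h0 : 0 ≤ q) (h1 : q ≤ 1) (E : (ι → Bool) → Prop) : Pr q E ≤ 1 := by
  have := Ex_mono h0 h1 (f := fun ω => ind (E ω)) (g := fun _ => 1) fun _ => ind_le_one _
  rwa [Ex_const] at this

lemma Pr_mono {q : ℝ} (h0 : 0 ≤ q) (h1 : q ≤ 1) {E F : (ι → Bool) → Prop}
    (h : ∀ ω, E ω → F ω) : Pr q E ≤ Pr q F :=
  Ex_mono h0 h1 fun ω => ind_mono (h ω)

lemma Pr_congr (q : ℝ) {E F : (ι → Bool) → Prop} (h : ∀ ω, E ω ↔ F ω) : Pr q E = Pr q F := by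
  have : E = F := funext fun ω => propext (h ω)
  rw [this]

lemma Pr_not (q : ℝ) (E : (ι → Bool) → Prop) : Pr q (fun ω => ¬ E ω) = 1 - Pr q E := by
  unfold Pr
  simp_rw [ind_not]
  rw [Ex_sub, Ex_const]

lemma Pr_true (q : ℝ) {E : (ι → Bool) → Prop} (h : ∀ ω, E ω) : Pr q E = 1 := by
  unfold Pr
  simp_rw [fun ω => ind_pos (h ω)]
  exact Ex_const _ _

lemma Pr_false (q : ℝ) {E : (ι → Bool) → Prop} (h : ∀ ω, ¬ E ω) : Pr q E = 0 := by
  unfold Pr
  simp_rw [fun ω => ind_neg (h ω)]
  exact Ex_const _ _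

lemma Pr_union_le {κ : Type*} {q : ℝ} (h0 : 0 ≤ q) (h1 : q ≤ 1) (s : Finset κ)
    (E : κ → (ι → Bool) → Prop) :
    Pr q (fun ω => ∃ k ∈ s, E k ω) ≤ ∑ k ∈ s, Pr q (E k) := by
  unfold Pr
  rw [← Ex_sum]
  refine Ex_mono h0 h1 fun ω => ?_
  by_cases h : ∃ k ∈ s, E k ω
  · obtain ⟨k, hk, hE⟩ := h
    refine le_trans (ind_le_one _) ?_
    refine le_trans ?_ (single_le_sum (f := fun k => ind (E k ω)) (fun _ _ => ind_nonneg _) hk)
    rw [ind_pos hE]
  · rw [ind_neg h]; exact sum_nonneg fun _ _ => ind_nonneg _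

/-- Resampling the coins outside `D`. -/
lemma Ex_resample (q : ℝ) (D : Finset ι) (f : (ι → Bool) → ℝ) :
    Ex q f = Ex q (fun ω => Ex q (fun ω' => f (D.piecewise ω ω'))) := by
  have hinv : Function.Involutive (fun x : (ι → Bool) × (ι → Bool) =>
      (D.piecewise x.1 x.2, D.piecewise x.2 x.1)) := by
    rintro ⟨a, b⟩
    ext i <;> by_cases hi : i ∈ D <;> simp [Finset.piecewise, hi]
  have h1 : Ex q f = ∑ x : (ι → Bool) × (ι → Bool),
      bernoulliWeight q x.1 * bernoulliWeight q x.2 * f x.1 := by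
    rw [Fintype.sum_prod_type]
    unfold Ex
    refine sum_congr rfl fun a _ => ?_
    simp only
    rw [← sum_mul, ← mul_sum, sum_bw, mul_one]
  have h2 : Ex q (fun ω => Ex q (fun ω' => f (D.piecewise ω ω'))) = ∑ x : (ι → Bool) × (ι → Bool),
      bernoulliWeight q x.1 * bernoulliWeight q x.2 * f (D.piecewise x.1 x.2) := by
    rw [Fintype.sum_prod_type]
    unfold Ex
    refine sum_congr rfl fun a _ => ?_
    rw [mul_sum]
    exact sum_congr rfl fun b _ => by ring
  rw [h1, h2]
  symm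
  refine Fintype.sum_bijective _ hinv.bijective _ _ fun x => ?_
  congr 1
  unfold bernoulliWeight
  rw [← prod_mul_distrib, ← prod_mul_distrib]
  refine prod_congr rfl fun i _ => ?_
  by_cases hi : i ∈ D <;> simp [Finset.piecewise, hi, mul_comm]

/-- `f` depends only on the coins in `D`. -/
def DepOn {β : Type*} (D : Finset ι) (f : (ι → Bool) → β) : Prop :=
  ∀ ω ω', (∀ i ∈ D, ω i = ω' i) → f ω = f ω'

lemma DepOn.mono {β : Type*} {D D' : Finset ι} {f : (ι → Bool) → β} (h : DepOn D f)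
    (hD : D ⊆ D') : DepOn D' f := fun ω ω' h' => h ω ω' fun i hi => h' i (hD hi)

lemma Ex_mul_indep (q : ℝ) (D : Finset ι) (f g : (ι → Bool) → ℝ) (hf : DepOn D f)
    (hg : DepOn Dᶜ g) : Ex q (fun ω => f ω * g ω) = Ex q f * Ex q g := by
  rw [Ex_resample q D, ← Ex_mul_const]
  congr 1
  funext ω
  rw [← Ex_const_mul]
  congr 1
  funext ω'
  rw [hf _ ω fun i hi => piecewise_eq_of_mem _ _ _ hi,
    hg _ ω' fun i hi => piecewise_eq_of_notMem _ _ _ (mem_compl.mp hi)]

lemma Ex_prod_indep {κ : Type*} [DecidableEq κ] (q : ℝ) (s : Finset κ) (D : κ → Finset ι)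
    (f : κ → (ι → Bool) → ℝ) (hf : ∀ k ∈ s, DepOn (D k) (f k))
    (hD : ∀ k ∈ s, ∀ k' ∈ s, k ≠ k' → Disjoint (D k) (D k')) :
    Ex q (fun ω => ∏ k ∈ s, f k ω) = ∏ k ∈ s, Ex q (f k) := by
  induction s using Finset.induction_on with
  | empty => simp [Ex_const]
  | insert a s ha ih =>
    simp_rw [prod_insert ha]
    rw [Ex_mul_indep q (D a) _ _ (hf a (mem_insert_self _ _)),
      ih (fun k hk => hf k (mem_insert_of_mem hk))
        (fun k hk k' hk' => hD k (mem_insert_of_mem hk) k' (mem_insert_of_mem hk'))]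
    intro ω ω' h
    refine prod_congr rfl fun k hk => hf k (mem_insert_of_mem hk) _ _ fun i hi => h i ?_
    rw [mem_compl]
    exact fun hi' => disjoint_left.mp (hD k (mem_insert_of_mem hk) a (mem_insert_self _ _)
      (fun h => ha (h ▸ hk))) hi hi'

/-- Marginals along an injection. -/
lemma Ex_comp_inj {A : Type*} [Fintype A] [DecidableEq A] (q : ℝ) (e : A → ι)
    (he : Function.Injective e) (f : (A → Bool) → ℝ) :
    Ex q (fun ω : ι → Bool => f (fun a => ω (e a))) = Ex q f := by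
  classical
  have key : ∀ b : A → Bool, ∑ ω : ι → Bool with (fun a => ω (e a)) = b, bernoulliWeight q ω =
      bernoulliWeight q b := by
    intro b
    have h1 : (univ.filter fun ω : ι → Bool => (fun a => ω (e a)) = b) =
        Fintype.piFinset (fun i => if h : ∃ a, e a = i then {b h.choose} else univ) := by
      ext ω
      simp only [mem_filter, mem_univ, true_and, Fintype.mem_piFinset]
      constructor
      · intro h i
        split_ifs with hi
        · rw [mem_singleton, ← h]; simp [hi.choose_spec]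
        · exact mem_univ _
      · intro h
        funext a
        have h2 := h (e a)
        have h3 : ∃ a', e a' = e a := ⟨a, rfl⟩
        rw [dif_pos h3, mem_singleton, he h3.choose_spec] at h2
        exact h2
    unfold bernoulliWeight
    rw [h1, ← prod_univ_sum _ (fun _ (c : Bool) => if c then q else 1 - q)]
    rw [← prod_subset (subset_univ (univ.image e)), prod_image (fun a _ b _ h => he h)]
    · refine prod_congr rfl fun a _ => ?_
      have h3 : ∃ a', e a' = e a := ⟨a, rfl⟩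
      rw [dif_pos h3, he h3.choose_spec, sum_singleton]
    · intro i _ hi
      have : ¬ ∃ a, e a = i := by simpa using hi
      rw [dif_neg this]; simp
  unfold Ex
  rw [← sum_fiberwise univ (fun ω : ι → Bool => fun a => ω (e a))]
  refine sum_congr rfl fun b _ => ?_
  rw [← key b, sum_mul]
  exact sum_congr rfl fun ω hω => by simp only [(mem_filter.mp hω).2]

lemma Pr_all (q : ℝ) (S : Finset ι) : Pr q (fun ω => ∀ x ∈ S, ω x = true) = q ^ S.card := by
  have h1 : ∀ ω : ι → Bool, ind (∀ x ∈ S, ω x = true) = ∏ x ∈ S, ind (ω x = true) := by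
    intro ω
    by_cases h : ∀ x ∈ S, ω x = true
    · rw [ind_pos h, prod_eq_one fun x hx => ind_pos (h x hx)]
    · rw [ind_neg h]
      push Not at h
      obtain ⟨x, hx, h⟩ := h
      exact (prod_eq_zero hx (ind_neg h)).symm
  unfold Pr
  simp_rw [h1]
  rw [Ex_prod_indep q S (fun x => {x}) _ (fun k _ ω ω' h => by rw [h k (mem_singleton_self _)])
    (fun k _ k' _ h => disjoint_singleton.mpr h), ← prod_const]
  refine prod_congr rfl fun x _ => ?_
  have := Ex_comp_inj q (fun _ : Unit => x) (fun _ _ _ => rfl) (fun b => ind (b () = true))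
  rw [this]
  unfold Ex bernoulliWeight
  rw [sum_prod_eq_unit]
  where
  sum_prod_eq_unit : ∑ ω : Unit → Bool, (∏ i, if ω i = true then q else 1 - q) *
      ind (ω () = true) = q := by
    rw [← (Equiv.funUnique Unit Bool).symm.sum_comp]
    simp [ind]

/-- Lower tail for independent events. -/
lemma lower_tail {κ : Type*} [DecidableEq κ] {q : ℝ} (h0 : 0 ≤ q) (h1 : q ≤ 1) (s : Finset κ)
    (D : κ → Finset ι) (E : κ → (ι → Bool) → Prop) (hE : ∀ k ∈ s, DepOn (D k) (E k))
    (hD : ∀ k ∈ s, ∀ k' ∈ s, k ≠ k' → Disjoint (D k) (D k')) (μ : ℝ)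
    (hμ : ∀ k ∈ s, μ ≤ Pr q (E k)) :
    Pr q (fun ω => ∑ k ∈ s, ind (E k ω) < s.card * μ / 2) ≤ Real.exp (-(s.card * μ / 8)) := by
  have he : Real.exp (-1) ≤ 3 / 8 := by
    have h2 := Real.exp_one_gt_d9
    rw [Real.exp_neg, inv_le_comm₀ (Real.exp_pos 1) (by norm_num)]
    linarith
  calc _ ≤ Ex q (fun ω => Real.exp (s.card * μ / 2) * ∏ k ∈ s, Real.exp (-ind (E k ω))) := by
        refine Ex_mono h0 h1 fun ω => ?_
        rw [← Real.exp_sum, ← Real.exp_add]
        by_cases h : ∑ k ∈ s, ind (E k ω) < s.card * μ / 2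
        · rw [ind_pos h, sum_neg_distrib]
          exact Real.one_le_exp (by linarith)
        · rw [ind_neg h]; exact (Real.exp_pos _).le
    _ = Real.exp (s.card * μ / 2) * ∏ k ∈ s, Ex q (fun ω => Real.exp (-ind (E k ω))) := by
        rw [Ex_const_mul, Ex_prod_indep q s D _ _ hD]
        intro k hk ω ω' h
        simp only [hE k hk ω ω' h]
    _ ≤ Real.exp (s.card * μ / 2) * ∏ _k ∈ s, Real.exp (-(5 / 8 * μ)) := by
        refine mul_le_mul_of_nonneg_left (prod_le_prod (fun k _ => ?_) (fun k hk => ?_))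
          (Real.exp_pos _).le
        · exact Ex_nonneg h0 h1 fun _ => (Real.exp_pos _).le
        · calc Ex q (fun ω => Real.exp (-ind (E k ω)))
              ≤ Ex q (fun ω => 1 - 5 / 8 * ind (E k ω)) := by
                refine Ex_mono h0 h1 fun ω => ?_
                by_cases h : E k ω
                · rw [ind_pos h]; linarith
                · rw [ind_neg h]; simp
            _ = 1 - 5 / 8 * Pr q (E k) := by rw [Ex_sub, Ex_const, Ex_const_mul]; rfl
            _ ≤ _ := by
                have := hμ k hk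
                have := Real.add_one_le_exp (-(5 / 8 * μ))
                linarith
    _ = _ := by
        rw [prod_const, ← Real.exp_nat_mul, ← Real.exp_add]
        congr 1; ring

/-- The law of the union of two independent samples. -/
lemma Ex_or (q₁ q : ℝ) (hq : (1 - q₁) ^ 2 = 1 - q) (f : (ι → Bool) → ℝ) :
    Ex q₁ (fun b => Ex q₁ (fun b' => f (fun x => b x || b' x))) = Ex q f := by
  have key : ∀ c : ι → Bool, ∑ a : ι → Bool × Bool with (fun x => (a x).1 || (a x).2) = c,
      ∏ x, (if (a x).1 then q₁ else 1 - q₁) * (if (a x).2 then q₁ else 1 - q₁) =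
      bernoulliWeight q c := by
    intro c
    have h1 : (univ.filter fun a : ι → Bool × Bool => (fun x => (a x).1 || (a x).2) = c) =
        Fintype.piFinset (fun x => univ.filter (fun u : Bool × Bool => (u.1 || u.2) = c x)) := by
      ext a; simp [funext_iff]
    rw [h1, ← prod_univ_sum _ (fun _ (u : Bool × Bool) =>
      (if u.1 then q₁ else 1 - q₁) * (if u.2 then q₁ else 1 - q₁))]
    refine prod_congr rfl fun x _ => ?_
    rw [sum_filter, Fintype.sum_prod_type]
    cases c x <;> simp <;> nlinarith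
  have h2 : Ex q₁ (fun b => Ex q₁ (fun b' => f (fun x => b x || b' x))) =
      ∑ a : ι → Bool × Bool, (∏ x, (if (a x).1 then q₁ else 1 - q₁) *
        (if (a x).2 then q₁ else 1 - q₁)) * f (fun x => (a x).1 || (a x).2) := by
    rw [← (Equiv.arrowProdEquivProdArrow ι (fun _ => Bool) (fun _ => Bool)).symm.sum_comp,
      Fintype.sum_prod_type]
    unfold Ex bernoulliWeight
    refine sum_congr rfl fun b _ => ?_
    rw [mul_sum]
    refine sum_congr rfl fun b' _ => ?_
    rw [prod_mul_distrib, mul_assoc]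
    rfl
  rw [h2]
  unfold Ex
  rw [← sum_fiberwise univ (fun a : ι → Bool × Bool => fun x => (a x).1 || (a x).2)]
  refine sum_congr rfl fun c _ => ?_
  rw [← key c, sum_mul]
  exact sum_congr rfl fun a ha => by rw [(mem_filter.mp ha).2]

end Prob

end Crest.Agent.Tal
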