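import Crest.Prelude.Def_CopyThreshold
import Crest.Agent.Tal.Prob

/-!
Consequences of the absence of a cheap fractional cover of the copies of a graph.
-/

set_option autoImplicit false
set_option linter.unusedSectionVars false

namespace Crest.Agent.Tal

open Finset Crest.FinProb Crest.CombinatoricsR.RandomGraph

section NF

variable {W : Type} [Fintype W] [DecidableEq W] {n : ℕ}

/-- No indexed fractional cover of the copies of `H` has `r`-cost at most `1/2`. -/
def NF (H : SimpleGraph W) (n : ℕ) (r : ℝ) : Prop :=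
  ∀ (K : Type) (I : Finset K) (S : K → Finset (Sym2 (Fin n))) (g : K → ℝ),
    (∀ κ ∈ I, 0 ≤ g κ) → (∀ κ ∈ I, ∀ e ∈ S κ, ¬ e.IsDiag) →
    (∀ ψ : W ↪ Fin n, 1 ≤ ∑ κ ∈ I, g κ * ind (∀ e ∈ S κ, ∃ u v, H.Adj u v ∧ e = s(ψ u, ψ v))) →
    1 / 2 < ∑ κ ∈ I, g κ * r ^ (S κ).card

lemma nf_of_not_small (H : SimpleGraph W) (p : ℝ) (hp : 0 < p)
    (h : ¬ ∃ C : Finset (Finset (EdgeSlot n)),
      (∀ A : Finset (EdgeSlot n), H.IsContained (edgeGraph A) → ∃ S ∈ C, S ⊆ A) ∧
        ∑ S ∈ C, p ^ S.card ≤ 1 / 2) : NF H n (2 ^ 28 * p) := by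
  classical
  intro K I S g hg hS hcov
  by_contra hc
  push Not at hc
  apply h
  let S' : K → Finset (EdgeSlot n) := fun κ => (S κ).subtype (fun e => ¬ e.IsDiag)
  have hcard : ∀ κ ∈ I, (S' κ).card = (S κ).card := by
    intro κ hκ
    simp only [S']
    rw [card_subtype, filter_true_of_mem (hS κ hκ)]
  obtain ⟨C, hC1, hC2⟩ := frac_to_int
    (univ.filter fun A : Finset (EdgeSlot n) => H.IsContained (edgeGraph A)) p hp
    (fun A => ∑ κ ∈ I with S' κ = A, g κ)
    (fun A => sum_nonneg fun κ hκ => hg κ (mem_filter.mp hκ).1) (by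
      intro A hA
      obtain ⟨f⟩ := (mem_filter.mp hA).2
      refine (hcov ⟨f, f.injective⟩).trans ?_
      rw [sum_fiberwise_eq_sum_filter, sum_filter]
      refine sum_le_sum fun κ hκ => ?_
      split_ifs with h1
      · have := mul_le_mul_of_nonneg_left (ind_le_one (∀ e ∈ S κ, ∃ u v, H.Adj u v ∧
          e = s((⟨f, f.injective⟩ : W ↪ Fin n) u, (⟨f, f.injective⟩ : W ↪ Fin n) v))) (hg κ hκ)
        linarith
      · rw [ind_neg, mul_zero]
        intro h2
        apply h1
        rw [mem_powerset]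
        intro e he
        obtain ⟨u, v, huv, h3⟩ := h2 e.1 (mem_subtype.mp he)
        have h4 : (edgeGraph A).Adj (f u) (f v) := f.toHom.map_rel huv
        unfold edgeGraph at h4
        rw [SimpleGraph.fromEdgeSet_adj] at h4
        obtain ⟨⟨h5, h6⟩, _⟩ := h4
        have : e = ⟨s(f u, f v), h5⟩ := Subtype.ext h3
        rwa [this]) (by
      refine le_trans (le_of_eq ?_) hc
      rw [← sum_fiberwise_of_maps_to (s := I) (t := univ) (g := S') (fun _ _ => mem_univ _)]
      refine sum_congr rfl fun A _ => ?_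
      rw [sum_mul]
      refine sum_congr rfl fun κ hκ => ?_
      rw [← (mem_filter.mp hκ).2, hcard κ (mem_filter.mp hκ).1])
  exact ⟨C, fun A hA => hC1 A (mem_filter.mpr ⟨mem_univ _, hA⟩), hC2⟩

/-- Density bound. -/
lemma NF.density {H : SimpleGraph W} {r : ℝ} (h : NF H n r) (hr0 : 0 ≤ r) (hn : 1 ≤ n)
    (V : Finset W) (E : Finset (Sym2 W)) (hE : ∀ e ∈ E, ∃ u ∈ V, ∃ v ∈ V, H.Adj u v ∧ e = s(u, v)) :
    1 / 2 < (n : ℝ) ^ V.card * r ^ E.card := by
  classical
  let I : Finset (W → Fin n) := (Fintype.piFinset (fun x => if x ∈ V then univ else {⟨0, hn⟩})).filter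
    (fun φ => Set.InjOn φ V)
  have h1 := h (W → Fin n) I (fun φ => E.image (Sym2.map φ)) (fun _ => 1) (by simp) (by
    intro φ hφ e he
    obtain ⟨e', he', rfl⟩ := mem_image.mp he
    obtain ⟨u, hu, v, hv, huv, rfl⟩ := hE e' he'
    simp only [Sym2.map_mk, Sym2.mk_isDiag_iff]
    exact fun h' => huv.ne ((mem_filter.mp hφ).2 hu hv h')) (by
    intro ψ
    have hmem : V.piecewise ψ (fun _ => ⟨0, hn⟩) ∈ I := by
      refine mem_filter.mpr ⟨Fintype.mem_piFinset.mpr fun x => ?_, fun a ha b hb hab => ?_⟩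
      · by_cases hx : x ∈ V <;> simp [hx]
      · rw [piecewise_eq_of_mem _ _ _ (mem_coe.mp ha),
          piecewise_eq_of_mem _ _ _ (mem_coe.mp hb)] at hab
        exact ψ.injective hab
    refine le_trans ?_ (single_le_sum (f := fun φ => 1 * ind (∀ e ∈ E.image (Sym2.map φ),
      ∃ u v, H.Adj u v ∧ e = s(ψ u, ψ v))) (fun _ _ => by simpa using ind_nonneg _) hmem)
    rw [one_mul, ind_pos]
    intro e he
    obtain ⟨e', he', rfl⟩ := mem_image.mp he
    obtain ⟨u, hu, v, hv, huv, rfl⟩ := hE e' he'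
    exact ⟨u, v, huv, by simp [piecewise_eq_of_mem _ _ _ hu, piecewise_eq_of_mem _ _ _ hv]⟩)
  refine h1.trans_le ?_
  have h2 : ∀ φ ∈ I, 1 * r ^ (E.image (Sym2.map φ)).card = r ^ E.card := by
    intro φ hφ
    rw [one_mul, card_image_of_injOn]
    intro e he e' he' hee
    obtain ⟨u, hu, v, hv, -, rfl⟩ := hE e he
    obtain ⟨u', hu', v', hv', -, rfl⟩ := hE e' he'
    have hinj := (mem_filter.mp hφ).2
    simp only [Sym2.map_mk, Sym2.eq_iff] at hee ⊢
    rcases hee with ⟨h3, h4⟩ | ⟨h3, h4⟩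
    · exact Or.inl ⟨hinj hu hu' h3, hinj hv hv' h4⟩
    · exact Or.inr ⟨hinj hu hv' h3, hinj hv hu' h4⟩
  rw [sum_congr rfl h2, sum_const, nsmul_eq_mul]
  refine mul_le_mul_of_nonneg_right ?_ (pow_nonneg hr0 _)
  have h3 : I.card ≤ n ^ V.card := by
    refine (card_le_card (filter_subset _ _)).trans (le_of_eq ?_)
    rw [Fintype.card_piFinset, ← prod_const, prod_mem_eq V]
    refine prod_congr rfl fun x _ => ?_
    split_ifs <;> simp
  exact_mod_cast h3

/-- Covers built row by row. -/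
lemma NF.rows {H : SimpleGraph W} {r : ℝ} (h : NF H n r) (hr0 : 0 ≤ r) (B : Finset W)
    (N : W → Finset W) (hN : ∀ b ∈ B, ∀ u ∈ N b, H.Adj u b ∧ u ∉ B) (Φ : Type) (Φs : Finset Φ)
    (g : Φ → Finset (Fin n) → ℝ) (hg : ∀ φ T, 0 ≤ g φ T) (w : ℝ)
    (hw : ∀ φ ∈ Φs, ∑ T, g φ T * r ^ T.card ≤ w)
    (hcov : ∀ ψ : W ↪ Fin n, ∃ φ ∈ Φs, ∀ b ∈ B, 1 ≤ ∑ T ∈ ((N b).map ψ).powerset, g φ T) :
    1 / 2 < Φs.card * (n.choose B.card * w ^ B.card) := by
  classical
  let I : Finset (Φ × Finset (Fin n) × (Fin n → Finset (Fin n))) :=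
    (Φs ×ˢ (powersetCard B.card univ ×ˢ univ)).filter
      (fun κ => (∀ y, y ∉ κ.2.1 → κ.2.2 y = ∅) ∧ ∀ y, Disjoint (κ.2.2 y) κ.2.1)
  let S : Φ × Finset (Fin n) × (Fin n → Finset (Fin n)) → Finset (Sym2 (Fin n)) :=
    fun κ => κ.2.1.biUnion (fun y => (κ.2.2 y).image (fun z => s(z, y)))
  let G : Φ × Finset (Fin n) × (Fin n → Finset (Fin n)) → ℝ :=
    fun κ => ∏ y ∈ κ.2.1, g κ.1 (κ.2.2 y)
  have hG : ∀ κ, 0 ≤ G κ := fun κ => prod_nonneg fun y _ => hg _ _
  have h1 := h _ I S G (fun κ _ => hG κ) (by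
    intro κ hκ e he
    obtain ⟨y, hy, he⟩ := mem_biUnion.mp he
    obtain ⟨z, hz, rfl⟩ := mem_image.mp he
    simp only [Sym2.mk_isDiag_iff]
    rintro rfl
    exact disjoint_left.mp ((mem_filter.mp hκ).2.2 z) hz hy) (by
    intro ψ
    obtain ⟨φ, hφ, hφc⟩ := hcov ψ
    let Nb : Fin n → Finset (Fin n) := fun y =>
      (B.filter (fun b => ψ b = y)).biUnion (fun b => (N b).map ψ)
    have hNb : ∀ b ∈ B, Nb (ψ b) = (N b).map ψ := by
      intro b hb
      have : B.filter (fun b' => ψ b' = ψ b) = {b} := by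
        ext b'
        simp only [mem_filter, mem_singleton, EmbeddingLike.apply_eq_iff_eq]
        exact ⟨fun h => h.2, fun h => ⟨h ▸ hb, h⟩⟩
      simp only [Nb, this, singleton_biUnion]
    let J := Fintype.piFinset (fun y => (Nb y).powerset)
    have hJ : ∀ T ∈ J, ∀ y, ∀ z ∈ T y, ∃ b ∈ B, ψ b = y ∧ ∃ u ∈ N b, ψ u = z := by
      intro T hT y z hz
      have := mem_powerset.mp (Fintype.mem_piFinset.mp hT y) hz
      obtain ⟨b, hb, hz'⟩ := mem_biUnion.mp this
      obtain ⟨u, hu, rfl⟩ := mem_map.mp hz'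
      exact ⟨b, (mem_filter.mp hb).1, (mem_filter.mp hb).2, u, hu, rfl⟩
    calc (1 : ℝ) ≤ ∏ b ∈ B, ∑ T ∈ ((N b).map ψ).powerset, g φ T :=
          (prod_const_one (s := B)).ge.trans (prod_le_prod (fun _ _ => zero_le_one) hφc)
      _ = ∏ y, ∑ T ∈ (Nb y).powerset, if y ∈ B.map ψ then g φ T else 1 := by
          rw [← prod_subset (subset_univ (B.map ψ)), prod_map]
          · refine prod_congr rfl fun b hb => ?_
            rw [hNb b hb]
            simp only [mem_map_of_mem ψ hb, if_true]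
          · intro y _ hy
            have : Nb y = ∅ := by
              have h2 : B.filter (fun b => ψ b = y) = ∅ :=
                filter_eq_empty_iff.mpr fun b hb h => hy (h ▸ mem_map_of_mem ψ hb)
              simp only [Nb, h2, biUnion_empty]
            simp [this, hy]
      _ = ∑ T ∈ J, G (φ, B.map ψ, T) := by
          rw [prod_univ_sum]
          refine sum_congr rfl fun T _ => ?_
          simp only [G]
          rw [prod_mem_eq (B.map ψ)]
      _ = ∑ κ ∈ J.image (fun T => (φ, B.map ψ, T)), G κ *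
          ind (∀ e ∈ S κ, ∃ u v, H.Adj u v ∧ e = s(ψ u, ψ v)) := by
          rw [sum_image (fun T _ T' _ h => by simpa using h)]
          refine sum_congr rfl fun T hT => ?_
          rw [ind_pos, mul_one]
          intro e he
          obtain ⟨y, hy, he⟩ := mem_biUnion.mp he
          obtain ⟨z, hz, rfl⟩ := mem_image.mp he
          obtain ⟨b, hb, rfl, u, hu, rfl⟩ := hJ T hT y z hz
          exact ⟨u, b, (hN b hb u hu).1, rfl⟩
      _ ≤ _ := by
          refine sum_le_sum_of_subset_of_nonneg ?_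
            (fun κ _ _ => mul_nonneg (hG κ) (ind_nonneg _))
          intro κ hκ
          obtain ⟨T, hT, rfl⟩ := mem_image.mp hκ
          refine mem_filter.mpr ⟨?_, fun y hy => ?_, fun y => ?_⟩
          · simp [hφ]
          · rw [eq_empty_iff_forall_notMem]
            intro z hz
            obtain ⟨b, hb, rfl, -⟩ := hJ T hT y z hz
            exact hy (mem_map_of_mem ψ hb)
          · rw [disjoint_left]
            intro z hz hz'
            obtain ⟨b, hb, -, u, hu, rfl⟩ := hJ T hT y z hz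
            exact (hN b hb u hu).2 ((mem_map' ψ).mp hz'))
  refine h1.trans_le ?_
  have h2 : ∀ κ ∈ I, G κ * r ^ (S κ).card =
      ∏ y ∈ κ.2.1, g κ.1 (κ.2.2 y) * r ^ (κ.2.2 y).card := by
    intro κ hκ
    have hd := (mem_filter.mp hκ).2.2
    rw [prod_mul_distrib, prod_pow_eq_pow_sum]
    simp only [S]
    rw [card_biUnion]
    · congr 2
      refine sum_congr rfl fun y _ => card_image_of_injective _ fun a b hab => ?_
      exact Sym2.congr_left.mp hab
    · intro y hy y' hy' hyy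
      rw [Function.onFun, disjoint_left]
      intro e he he'
      obtain ⟨z, hz, rfl⟩ := mem_image.mp he
      obtain ⟨z', hz', h3⟩ := mem_image.mp he'
      rw [Sym2.eq_iff] at h3
      rcases h3 with ⟨_, h3⟩ | ⟨h3, _⟩
      · exact hyy h3.symm
      · exact disjoint_left.mp (hd y') hz' (h3 ▸ hy)
  rw [sum_congr rfl h2]
  have hnn : ∀ κ : Φ × Finset (Fin n) × (Fin n → Finset (Fin n)),
      0 ≤ ∏ y ∈ κ.2.1, g κ.1 (κ.2.2 y) * r ^ (κ.2.2 y).card :=
    fun κ => prod_nonneg fun y _ => mul_nonneg (hg _ _) (pow_nonneg hr0 _)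
  calc _ ≤ ∑ κ ∈ (Φs ×ˢ (powersetCard B.card univ ×ˢ univ)).filter
        (fun κ : Φ × Finset (Fin n) × (Fin n → Finset (Fin n)) => ∀ y, y ∉ κ.2.1 → κ.2.2 y = ∅),
        ∏ y ∈ κ.2.1, g κ.1 (κ.2.2 y) * r ^ (κ.2.2 y).card :=
        sum_le_sum_of_subset_of_nonneg (fun κ hκ => mem_filter.mpr
          ⟨(mem_filter.mp hκ).1, (mem_filter.mp hκ).2.1⟩) (fun κ _ _ => hnn κ)
    _ ≤ ∑ φ ∈ Φs, ∑ Y ∈ powersetCard B.card (univ : Finset (Fin n)), w ^ B.card := by
        rw [sum_filter, sum_product]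
        refine sum_le_sum fun φ hφ => ?_
        rw [sum_product]
        refine sum_le_sum fun Y hY => ?_
        rw [← sum_filter]
        have h3 : (univ.filter fun T : Fin n → Finset (Fin n) => ∀ y, y ∉ Y → T y = ∅) =
            Fintype.piFinset (fun y => if y ∈ Y then univ else {∅}) := by
          ext T
          simp only [mem_filter, mem_univ, true_and, Fintype.mem_piFinset]
          refine forall_congr' fun y => ?_
          by_cases hy : y ∈ Y <;> simp [hy]
        simp only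
        rw [h3]
        simp_rw [prod_mem_eq Y]
        rw [← prod_univ_sum (fun y => if y ∈ Y then univ else {∅})
          (fun y T => if y ∈ Y then g φ T * r ^ T.card else 1),
          ← (mem_powersetCard.mp hY).2, ← prod_const, prod_mem_eq Y]
        refine prod_le_prod (fun y _ => sum_nonneg fun T _ => ?_) (fun y _ => ?_)
        · split_ifs
          · exact mul_nonneg (hg _ _) (pow_nonneg hr0 _)
          · norm_num
        · by_cases hy : y ∈ Y
          · simpa [hy] using hw φ hφ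
          · simp [hy]
    _ = _ := by simp

lemma choose_le_exp (n s : ℕ) (hs : 0 < s) : (n.choose s : ℝ) ≤ (3 * n / s) ^ s := by
  have h1 : (n.choose s : ℝ) ≤ (n : ℝ) ^ s / s.factorial := Nat.choose_le_pow_div s n
  have h2 := Real.pow_div_factorial_le_exp (s : ℝ) (Nat.cast_nonneg _) s
  have h3 : Real.exp s ≤ 3 ^ s := by
    rw [← Real.exp_one_pow]
    exact pow_le_pow_left₀ (Real.exp_pos _).le
      ((Real.exp_one_lt_d9.le).trans (by norm_num)) _
  have hs' : (0 : ℝ) < s := by exact_mod_cast hs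
  have hf : (0 : ℝ) < s.factorial := by exact_mod_cast s.factorial_pos
  refine h1.trans ?_
  rw [div_pow, mul_pow, div_le_div_iff₀ hf (by positivity)]
  rw [div_le_iff₀ hf] at h2
  have h4 : (0 : ℝ) ≤ (n : ℝ) ^ s := by positivity
  nlinarith [mul_le_mul_of_nonneg_left (h2.trans (mul_le_mul_of_nonneg_right h3 hf.le)) h4]

/-- The number of disjoint stars of a given size. -/
lemma NF.stars {H : SimpleGraph W} {r : ℝ} (h : NF H n r) (hr0 : 0 ≤ r) (B : Finset W)
    (N : W → Finset W) (hN : ∀ b ∈ B, ∀ u ∈ N b, H.Adj u b ∧ u ∉ B) (d : ℕ)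
    (hd : ∀ b ∈ B, (N b).card = d) : (B.card : ℝ) ≤ 6 * n * (n.choose d * r ^ d) := by
  classical
  rcases Nat.eq_zero_or_pos B.card with h0 | h0
  · rw [h0, Nat.cast_zero]; positivity
  have h1 := h.rows hr0 B N hN Unit {()} (fun _ T => if T.card = d then 1 else 0)
    (fun _ T => by split_ifs <;> norm_num) (n.choose d * r ^ d) (by
      intro _ _
      simp only [ite_mul, one_mul, zero_mul]
      rw [← sum_filter, sum_congr rfl (g := fun _ => r ^ d)
        (fun T hT => by rw [(mem_filter.mp hT).2]), sum_const, nsmul_eq_mul]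
      have : (univ.filter fun T : Finset (Fin n) => T.card = d) = powersetCard d univ := by
        ext T; simp
      rw [this, card_powersetCard, card_fin]) (by
      intro ψ
      refine ⟨(), mem_singleton_self _, fun b hb => ?_⟩
      refine le_trans ?_ (single_le_sum (f := fun T : Finset (Fin n) =>
        if T.card = d then (1 : ℝ) else 0) (fun T _ => by split_ifs <;> norm_num)
        (mem_powerset_self _))
      simp [hd b hb])
  simp only [card_singleton, Nat.cast_one, one_mul] at h1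
  by_contra hc
  push Not at hc
  have hs' : (0 : ℝ) < B.card := by exact_mod_cast h0
  have hw : 0 ≤ (n.choose d : ℝ) * r ^ d := by positivity
  have h2 := mul_le_mul_of_nonneg_right (choose_le_exp n B.card h0) (pow_nonneg hw B.card)
  rw [← mul_pow] at h2
  have h3 : 3 * n / B.card * (n.choose d * r ^ d) ≤ 1 / 2 := by
    rw [div_mul_eq_mul_div, div_le_iff₀ hs']; linarith
  have h4 := pow_le_pow_left₀ (by positivity) h3 B.card
  have h5 : (1 / 2 : ℝ) ^ B.card ≤ 1 / 2 := pow_le_of_le_one (by norm_num) (by norm_num) h0.ne'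
  linarith

/-- Few vertices have neighbourhoods with a cheap fractional cover. -/
lemma NF.bip {H : SimpleGraph W} {r : ℝ} (h : NF H n r) (hr0 : 0 ≤ r) (hn : 1 ≤ n)
    (A B : Finset W) (N : W → Finset W) (hN : ∀ b ∈ B, ∀ u ∈ N b, H.Adj u b ∧ u ∉ B)
    (hA : ∀ b ∈ B, N b ⊆ A) (g : Finset W → ℝ) (hg : ∀ T, 0 ≤ g T) (w : ℝ)
    (hw : ∑ T, g T * r ^ T.card ≤ w) (hcov : ∀ b ∈ B, 1 ≤ ∑ T ∈ (N b).powerset, g T) (s₀ : ℕ)
    (hs₀ : 2 * n ^ A.card ≤ 2 ^ s₀) : (B.card : ℝ) ≤ 6 * n * w + s₀ := by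
  classical
  have hw0 : 0 ≤ w := le_trans (sum_nonneg fun T _ => mul_nonneg (hg T) (pow_nonneg hr0 _)) hw
  have h1 := h.rows hr0 B N hN (W → Fin n)
    (Fintype.piFinset (fun x => if x ∈ A then univ else {⟨0, hn⟩}))
    (fun φ T => ∑ T₀ : Finset W with T₀.image φ = T ∧ T₀.card = T.card, g T₀)
    (fun _ T => sum_nonneg fun _ _ => hg _) w (by
      intro φ _
      refine le_trans ?_ hw
      rw [← sum_fiberwise_of_maps_to (s := univ) (t := univ) (g := fun T₀ : Finset W => T₀.image φ)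
        (fun _ _ => mem_univ _) (fun T => g T * r ^ T.card)]
      refine sum_le_sum fun T _ => ?_
      rw [sum_mul, sum_congr rfl (g := fun T₀ => g T₀ * r ^ T₀.card)
        (fun T₀ hT₀ => by rw [(mem_filter.mp hT₀).2.2])]
      exact sum_le_sum_of_subset_of_nonneg (fun T₀ hT₀ => mem_filter.mpr
        ⟨mem_univ _, (mem_filter.mp hT₀).2.1⟩)
        (fun T₀ _ _ => mul_nonneg (hg _) (pow_nonneg hr0 _))) (by
      intro ψ
      refine ⟨A.piecewise ψ (fun _ => ⟨0, hn⟩), Fintype.mem_piFinset.mpr fun x => ?_,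
        fun b hb => ?_⟩
      · by_cases hx : x ∈ A <;> simp [hx]
      · refine (hcov b hb).trans ?_
        rw [← sum_fiberwise_of_maps_to (s := (N b).powerset) (t := ((N b).map ψ).powerset)
          (g := fun T₀ : Finset W => T₀.map ψ)
          (fun T₀ hT₀ => mem_powerset.mpr (map_subset_map.mpr (mem_powerset.mp hT₀)))]
        refine sum_le_sum fun T _ => sum_le_sum_of_subset_of_nonneg (fun T₀ hT₀ => ?_)
          (fun _ _ _ => hg _)
        obtain ⟨h2, h3⟩ := mem_filter.mp hT₀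
        refine mem_filter.mpr ⟨mem_univ _, ?_, by rw [← h3, card_map]⟩
        rw [← h3, map_eq_image]
        exact image_congr fun x hx =>
          piecewise_eq_of_mem _ _ _ (hA b hb (mem_powerset.mp h2 hx)))
  have h3 : (Fintype.piFinset (fun x : W => if x ∈ A then (univ : Finset (Fin n))
      else {⟨0, hn⟩})).card = n ^ A.card := by
    rw [Fintype.card_piFinset, ← prod_const, prod_mem_eq A]
    refine prod_congr rfl fun x _ => ?_
    split_ifs <;> simp
  rw [h3] at h1
  by_contra hc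
  push Not at hc
  have hn0 : (0 : ℝ) ≤ 6 * n * w := by positivity
  have hs1 : s₀ < B.card := by
    have : (s₀ : ℝ) < B.card := by linarith
    exact_mod_cast this
  have h0 : 0 < B.card := by omega
  have hs' : (0 : ℝ) < B.card := by exact_mod_cast h0
  have h2 := mul_le_mul_of_nonneg_right (choose_le_exp n B.card h0) (pow_nonneg hw0 B.card)
  rw [← mul_pow] at h2
  have h4 : 3 * n / B.card * w ≤ 1 / 2 := by
    rw [div_mul_eq_mul_div, div_le_iff₀ hs']
    have : (0 : ℝ) ≤ s₀ := Nat.cast_nonneg _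
    linarith
  have h5 := pow_le_pow_left₀ (by positivity) h4 B.card
  have h6 : (1 / 2 : ℝ) ^ B.card ≤ (1 / 2) ^ s₀ * (1 / 2) := by
    rw [← pow_succ]
    exact pow_le_pow_of_le_one (by norm_num) (by norm_num) hs1
  have h7 : (2 : ℝ) * (n ^ A.card : ℕ) ≤ 2 ^ s₀ := by exact_mod_cast hs₀
  have h8 : (2 : ℝ) ^ s₀ * (1 / 2) ^ s₀ = 1 := by rw [← mul_pow]; norm_num
  have h9 : (0 : ℝ) ≤ (n ^ A.card : ℕ) := Nat.cast_nonneg _
  have h10 : (0 : ℝ) < (1 / 2) ^ s₀ := by positivity
  nlinarith [mul_le_mul_of_nonneg_left (h2.trans (h5.trans h6)) h9,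
    mul_le_mul_of_nonneg_right h7 h10.le]

end NF

end Crest.Agent.Tal
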