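import Crest.Agent.Tal.Layer

/-!
Embedding star forests by exposing the candidate centres one at a time.
-/

set_option autoImplicit false
set_option linter.unusedSectionVars false

namespace Crest.Agent.Tal

open Finset Crest.FinProb Crest.CombinatoricsR.RandomGraph

section Binomial

variable {A : Type*} [Fintype A] [DecidableEq A]

lemma tail_half {q : ℝ} (h0 : 0 ≤ q) (h1 : q ≤ 1) (k : ℕ)
    (hk : (k : ℝ) ≤ Fintype.card A * q / 8) :
    1 / 2 ≤ Pr q (fun b : A → Bool => k ≤ (heads b).card) := by
  rcases Nat.eq_zero_or_pos k with rfl | hk0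
  · rw [Pr_true q fun _ => Nat.zero_le _]; norm_num
  have hk1 : (1 : ℝ) ≤ k := by exact_mod_cast hk0
  have h2 := lower_tail h0 h1 (univ : Finset A) (fun x => {x}) (fun x b => b x = true)
    (fun x _ b b' h => by simp only [h x (mem_singleton_self _)])
    (fun x _ x' _ h => disjoint_singleton.mpr h) q (fun x _ => by
      have := Pr_all q ({x} : Finset A)
      simp only [mem_singleton, forall_eq, card_singleton, pow_one] at this
      exact this.ge)
  rw [card_univ] at h2
  have h3 : Real.exp (-(Fintype.card A * q / 8)) ≤ 1 / 2 := by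
    refine (Real.exp_le_exp.mpr (by linarith : _ ≤ (-1 : ℝ))).trans ?_
    have h2 := Real.exp_one_gt_d9
    rw [Real.exp_neg, inv_le_comm₀ (Real.exp_pos 1) (by norm_num)]
    linarith
  have h4 := Pr_not q (fun b : A → Bool => k ≤ (heads b).card)
  have h5 : Pr q (fun b : A → Bool => ¬ k ≤ (heads b).card) ≤
      Pr q (fun b : A → Bool => ∑ x, ind (b x = true) < Fintype.card A * q / 2) := by
    refine Pr_mono h0 h1 fun b hb => ?_
    have h6 : ∑ x, ind (b x = true) = (heads b).card := by
      simp_rw [ind_eq_ite]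
      rw [← sum_filter, sum_const, nsmul_eq_mul, mul_one]; rfl
    have h7 : ((heads b).card : ℝ) < k := by exact_mod_cast not_le.mp hb
    rw [h6]; linarith
  linarith

lemma tail_point {q : ℝ} (h0 : 0 ≤ q) (h1 : q ≤ 1) (k : ℕ) :
    (Fintype.card A).choose k * (q ^ k * (1 - q) ^ (Fintype.card A - k)) ≤
      Pr q (fun b : A → Bool => k ≤ (heads b).card) := by
  have h2 : Pr q (fun b : A → Bool => k ≤ (heads b).card) =
      ∑ S : Finset A, ind (k ≤ S.card) * (q ^ S.card * (1 - q) ^ (Fintype.card A - S.card)) := by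
    rw [← sum_heads q (fun S => ind (k ≤ S.card))]
    exact sum_congr rfl fun b _ => mul_comm _ _
  rw [h2]
  have h3 : ∑ S ∈ powersetCard k (univ : Finset A),
      ind (k ≤ S.card) * (q ^ S.card * (1 - q) ^ (Fintype.card A - S.card)) =
      (Fintype.card A).choose k * (q ^ k * (1 - q) ^ (Fintype.card A - k)) := by
    rw [sum_congr rfl (g := fun _ => q ^ k * (1 - q) ^ (Fintype.card A - k)), sum_const,
      card_powersetCard, card_univ, nsmul_eq_mul]
    intro S hS
    rw [(mem_powersetCard.mp hS).2, ind_pos le_rfl, one_mul]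
  rw [← h3]
  refine sum_le_sum_of_subset_of_nonneg (subset_univ _) fun S _ _ => ?_
  have : 0 ≤ 1 - q := by linarith
  have := ind_nonneg (k ≤ S.card)
  positivity

end Binomial

section Star

variable {W : Type*} [Fintype W] [DecidableEq W] {n : ℕ}

lemma row_tail {q : ℝ} (h0 : 0 ≤ q) (h1 : q ≤ 1) (Z' : Finset (Fin n)) (y : Fin n) (hy : y ∉ Z')
    (m₀ : ℕ) (hm : m₀ ≤ Z'.card) (k : ℕ) :
    (if (k : ℝ) ≤ m₀ * q / 8 then 1 / 2 else m₀.choose k * (q ^ k * (1 - q) ^ (m₀ - k))) ≤
      Pr q (fun ω : EdgeSlot n → Bool => k ≤ (Z'.filter (fun z => coin ω z y = true)).card) := by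
  obtain ⟨Z'', hZ1, hZ2⟩ := exists_subset_card_eq hm
  have h2 := Ex_row (W := Z'') q univ Subtype.val (Subtype.val_injective.injOn) y
    (fun u _ h => hy (h ▸ hZ1 u.2)) (fun b => ind (k ≤ (heads b).card))
    (fun b b' h => by rw [funext fun i => h i (mem_univ i)])
  have h3 : Pr q (fun b : Z'' → Bool => k ≤ (heads b).card) ≤
      Pr q (fun ω : EdgeSlot n → Bool => k ≤ (Z'.filter (fun z => coin ω z y = true)).card) := by
    refine h2.ge.trans (Pr_mono h0 h1 fun ω hω => hω.trans ?_)
    rw [← card_map (Function.Embedding.subtype _)]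
    refine card_le_card fun z hz => ?_
    obtain ⟨a, ha, rfl⟩ := mem_map.mp hz
    exact mem_filter.mpr ⟨hZ1 a.2, by simpa using ha⟩
  refine le_trans ?_ h3
  have hc : Fintype.card Z'' = m₀ := by rw [Fintype.card_coe, hZ2]
  split_ifs with h
  · exact tail_half h0 h1 k (by rwa [hc])
  · have := tail_point (A := Z'') h0 h1 k
    rwa [hc] at this

/-- Stars of sizes `d c` for `c ∈ C`, centres in `Rr`, leaves in `Z \ U`. -/
def StarOK (d : W → ℕ) (Z Rr : Finset (Fin n)) (C : Finset W) (U : Finset (Fin n))
    (ω : EdgeSlot n → Bool) : Prop :=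
  ∃ (g : W → Fin n) (T : W → Finset (Fin n)), Set.InjOn g C ∧
    (∀ c ∈ C, g c ∈ Rr ∧ T c ⊆ Z \ U ∧ (T c).card = d c ∧ ∀ z ∈ T c, coin ω z (g c) = true) ∧
    ∀ c ∈ C, ∀ c' ∈ C, c ≠ c' → Disjoint (T c) (T c')

lemma star_seq {q : ℝ} (h0 : 0 ≤ q) (h1 : q ≤ 1) (hn : 1 ≤ n) (Z : Finset (Fin n))
    (cls : Fin n → ℕ) (d : W → ℕ) (π : ℕ → ℝ) (m₀ M : ℕ)
    (hπ : ∀ k y, y ∉ Z → ∀ Z' ⊆ Z, m₀ ≤ Z'.card → π k ≤
      Pr q (fun ω : EdgeSlot n → Bool => k ≤ (Z'.filter (fun z => coin ω z y = true)).card))
    (hπ1 : ∀ k, π k ≤ 1) (Rr : Finset (Fin n)) :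
    Disjoint Rr Z → ∀ (C : Finset W) (U : Finset (Fin n)), (∀ c ∈ C, d c < M) →
      U.card + ∑ c ∈ C, d c + m₀ ≤ Z.card →
      Pr q (fun ω => ¬ StarOK d Z Rr C U ω) ≤
        ∑ k ∈ range M, if (C.filter fun c => d c = k).card = 0 then 0 else
          Real.exp (C.filter fun c => d c = k).card *
            (1 - 5 / 8 * π k) ^ (Rr.filter fun y => cls y = k).card := by
  classical
  have hβ : ∀ k, 0 ≤ 1 - 5 / 8 * π k := fun k => by have := hπ1 k; linarith
  have hterm : ∀ (C : Finset W) (Rr : Finset (Fin n)) k,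
      0 ≤ if (C.filter fun c => d c = k).card = 0 then 0 else
          Real.exp (C.filter fun c => d c = k).card *
            (1 - 5 / 8 * π k) ^ (Rr.filter fun y => cls y = k).card := by
    intro C Rr k
    split_ifs
    · exact le_rfl
    · have := hβ k; positivity
  induction Rr using Finset.induction_on with
  | empty =>
    intro _ C U hM _
    rcases C.eq_empty_or_nonempty with rfl | ⟨c, hc⟩
    · rw [Pr_false q fun ω h => h ⟨fun _ => ⟨0, hn⟩, fun _ => ∅, by simp⟩]
      simp
    · refine (Pr_le_one h0 h1 _).trans (le_trans ?_ (single_le_sum (fun k _ => hterm C ∅ k)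
        (mem_range.mpr (hM c hc))))
      have : (C.filter fun c' => d c' = d c).card ≠ 0 :=
        (card_pos.mpr ⟨c, by simp [hc]⟩).ne'
      simp only [if_neg this, filter_empty, card_empty, pow_zero, mul_one]
      exact Real.one_le_exp (Nat.cast_nonneg _)
  | insert y Rr hy ih =>
    intro hdisj C U hM hU
    have hyZ : y ∉ Z := disjoint_left.mp hdisj (mem_insert_self _ _)
    have hdisj' : Disjoint Rr Z := hdisj.mono_left (subset_insert _ _)
    have hmono : ∀ C U ω, StarOK d Z Rr C U ω → StarOK d Z (insert y Rr) C U ω := by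
      rintro C U ω ⟨g, T, h2, h3, h4⟩
      exact ⟨g, T, h2, fun c hc => ⟨mem_insert_of_mem (h3 c hc).1, (h3 c hc).2⟩, h4⟩
    have hrow : ∀ k, k ≠ cls y → ((insert y Rr).filter fun y => cls y = k).card =
        (Rr.filter fun y => cls y = k).card := by
      intro k hk
      rw [filter_insert, if_neg (Ne.symm hk)]
    by_cases hc : (C.filter fun c => d c = cls y).card = 0
    · refine (Pr_mono h0 h1 fun ω h h' => h (hmono C U ω h')).trans
        ((ih hdisj' C U hM hU).trans (le_of_eq ?_))
      refine sum_congr rfl fun k _ => ?_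
      by_cases hk : k = cls y
      · rw [hk, if_pos hc, if_pos hc]
      · rw [hrow k hk]
    obtain ⟨c₀, hc₀⟩ := card_pos.mp (Nat.pos_of_ne_zero hc)
    obtain ⟨hc₀C, hc₀d⟩ := mem_filter.mp hc₀
    set Φ₁ := ∑ k ∈ range M, if ((C.erase c₀).filter fun c => d c = k).card = 0 then 0 else
          Real.exp ((C.erase c₀).filter fun c => d c = k).card *
            (1 - 5 / 8 * π k) ^ (Rr.filter fun y => cls y = k).card with hΦ₁
    set Φ₂ := ∑ k ∈ range M, if (C.filter fun c => d c = k).card = 0 then 0 else
          Real.exp (C.filter fun c => d c = k).card *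
            (1 - 5 / 8 * π k) ^ (Rr.filter fun y => cls y = k).card with hΦ₂
    let E : (EdgeSlot n → Bool) → Prop := fun ω =>
      cls y ≤ ((Z \ U).filter (fun z => coin ω z y = true)).card
    -- outcomes off the row of `y`
    have hoff : ∀ (ω ω' : EdgeSlot n → Bool) (z y' : Fin n), z ∈ Z → y' ∈ Rr →
        coin ((rowSet Z y).piecewise ω ω') z y' = coin ω' z y' := by
      intro ω ω' z y' hz hy'
      refine coin_congr fun e he => piecewise_eq_of_notMem _ _ _ fun hD => ?_
      have hne : y ≠ y' := fun h => hy (h ▸ hy')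
      exact disjoint_left.mp (rowSet_disjoint Z hyZ hne) hD
        (mem_filter.mpr ⟨mem_univ _, z, hz, he⟩)
    have step : ∀ ω, Ex q (fun ω' => ind (¬ StarOK d Z (insert y Rr) C U
        ((rowSet Z y).piecewise ω ω'))) ≤ Φ₂ - ind (E ω) * (Φ₂ - Φ₁) := by
      intro ω
      by_cases hE : E ω
      · rw [ind_pos hE]
        obtain ⟨T₀, hT1, hT2⟩ := exists_subset_card_eq hE
        have hT3 : T₀ ⊆ Z \ U := hT1.trans (filter_subset _ _)
        have h5 := ih hdisj' (C.erase c₀) (U ∪ T₀) (fun c hc => hM c (mem_of_mem_erase hc)) (by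
          have h6 := card_union_le U T₀
          have h7 := add_sum_erase C d hc₀C
          omega)
        rw [← hΦ₁] at h5
        refine le_trans ?_ (h5.trans (by linarith))
        refine Pr_mono h0 h1 fun ω' h h' => h ?_
        obtain ⟨g, T, h2, h3, h4⟩ := h'
        refine ⟨Function.update g c₀ y, Function.update T c₀ T₀, ?_, fun c hc => ?_,
          fun c hc c' hc' hcc => ?_⟩
        · intro a ha b hb hab
          by_cases ha0 : a = c₀ <;> by_cases hb0 : b = c₀
          · rw [ha0, hb0]
          · rw [ha0, Function.update_self, Function.update_of_ne hb0] at hab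
            exact absurd (hab ▸ (h3 b (mem_erase.mpr ⟨hb0, hb⟩)).1) hy
          · rw [hb0, Function.update_self, Function.update_of_ne ha0] at hab
            exact absurd (hab ▸ (h3 a (mem_erase.mpr ⟨ha0, ha⟩)).1) hy
          · rw [Function.update_of_ne ha0, Function.update_of_ne hb0] at hab
            exact h2 (mem_coe.mpr (mem_erase.mpr ⟨ha0, ha⟩))
              (mem_coe.mpr (mem_erase.mpr ⟨hb0, hb⟩)) hab
        · by_cases hc0 : c = c₀
          · rw [hc0, Function.update_self, Function.update_self]
            refine ⟨mem_insert_self _ _, hT3, hT2.trans hc₀d.symm, fun z hz => ?_⟩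
            rw [← (mem_filter.mp (hT1 hz)).2]
            exact coin_of_rowSet (fun e he => piecewise_eq_of_mem _ _ _ he)
              (mem_sdiff.mp (hT3 hz)).1
          · rw [Function.update_of_ne hc0, Function.update_of_ne hc0]
            obtain ⟨h6, h7, h8, h9⟩ := h3 c (mem_erase.mpr ⟨hc0, hc⟩)
            refine ⟨mem_insert_of_mem h6, h7.trans (sdiff_subset_sdiff subset_rfl
              subset_union_left), h8, fun z hz => ?_⟩
            rw [hoff ω ω' z (g c) (mem_sdiff.mp (h7 hz)).1 h6]
            exact h9 z hz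
        · have key : ∀ a ∈ C, a ≠ c₀ → Disjoint (T a) T₀ := by
            intro a ha ha0
            rw [disjoint_left]
            intro z hz hz0
            exact (mem_sdiff.mp ((h3 a (mem_erase.mpr ⟨ha0, ha⟩)).2.1 hz)).2
              (mem_union_right _ hz0)
          by_cases ha0 : c = c₀ <;> by_cases hb0 : c' = c₀
          · exact absurd (ha0.trans hb0.symm) hcc
          · rw [ha0, Function.update_self, Function.update_of_ne hb0]
            exact (key c' hc' hb0).symm
          · rw [hb0, Function.update_self, Function.update_of_ne ha0]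
            exact key c hc ha0
          · rw [Function.update_of_ne ha0, Function.update_of_ne hb0]
            exact h4 c (mem_erase.mpr ⟨ha0, hc⟩) c' (mem_erase.mpr ⟨hb0, hc'⟩) hcc
      · rw [ind_neg hE, zero_mul, sub_zero]
        refine le_trans ?_ (ih hdisj' C U hM hU)
        refine Pr_mono h0 h1 fun ω' h h' => h (hmono _ _ _ ?_)
        obtain ⟨g, T, h2, h3, h4⟩ := h'
        refine ⟨g, T, h2, fun c hc => ?_, h4⟩
        obtain ⟨h6, h7, h8, h9⟩ := h3 c hc
        refine ⟨h6, h7, h8, fun z hz => ?_⟩
        rw [hoff ω ω' z (g c) (mem_sdiff.mp (h7 hz)).1 h6]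
        exact h9 z hz
    have h2 := Ex_mono h0 h1 step
    rw [← Ex_resample q (rowSet Z y) (fun ω => ind (¬ StarOK d Z (insert y Rr) C U ω)), Ex_sub,
      Ex_const, Ex_mul_const] at h2
    refine h2.trans ?_
    change Φ₂ - Pr q E * (Φ₂ - Φ₁) ≤ _
    have hπE : π (cls y) ≤ Pr q E := hπ (cls y) y hyZ (Z \ U) sdiff_subset (by
      have := le_card_sdiff U Z
      omega)
    have hE1 := Pr_le_one h0 h1 E
    have hE0 := Pr_nonneg h0 h1 E
    rw [hΦ₁, hΦ₂, ← sum_sub_distrib, mul_sum, ← sum_sub_distrib]
    refine sum_le_sum fun k _ => ?_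
    by_cases hk : k = cls y
    · subst hk
      have hcard : ((C.erase c₀).filter fun c => d c = cls y).card + 1 =
          (C.filter fun c => d c = cls y).card := by
        rw [filter_erase, card_erase_add_one hc₀]
      have hrow' : ((insert y Rr).filter fun y' => cls y' = cls y).card =
          (Rr.filter fun y' => cls y' = cls y).card + 1 := by
        rw [filter_insert, if_pos rfl, card_insert_of_notMem fun h => hy (mem_filter.mp h).1]
      rw [if_neg hc, if_neg hc, hrow', pow_succ]
      set B := (1 - 5 / 8 * π (cls y)) ^ (Rr.filter fun y' => cls y' = cls y).card with hB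
      have hB0 : 0 ≤ B := pow_nonneg (hβ _) _
      set X := Real.exp (C.filter fun c => d c = cls y).card with hX
      have hX0 : 0 < X := Real.exp_pos _
      have h3 : (if ((C.erase c₀).filter fun c => d c = cls y).card = 0 then 0 else
          Real.exp ((C.erase c₀).filter fun c => d c = cls y).card * B) ≤ 3 / 8 * (X * B) := by
        split_ifs
        · positivity
        · have h4 : X = Real.exp ((C.erase c₀).filter fun c => d c = cls y).card * Real.exp 1 := by
            rw [hX, ← Real.exp_add, ← hcard]; push_cast; rfl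
          have h5 := Real.exp_one_gt_d9
          have h6 := Real.exp_pos (((C.erase c₀).filter fun c => d c = cls y).card : ℝ)
          rw [h4]
          nlinarith [mul_nonneg h6.le hB0]
      have h7 : 0 ≤ X * B := by positivity
      nlinarith [mul_le_mul_of_nonneg_left h3 hE0, mul_le_mul_of_nonneg_left hπE h7]
    · have hcard : ((C.erase c₀).filter fun c => d c = k) = (C.filter fun c => d c = k) := by
        rw [filter_erase, erase_eq_of_notMem]
        intro h
        exact hk ((mem_filter.mp h).2.symm.trans hc₀d)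
      rw [hcard, hrow k hk]
      simp

end Star

end Crest.Agent.Tal
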