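import Crest.Agent.Tal.PieceLo
import Crest.Agent.Tal.Star
import Crest.Agent.Tal.NF

/-!
Embedding star forests.
-/

set_option autoImplicit false
set_option linter.unusedSectionVars false

namespace Crest.Agent.Tal

open Finset Crest.FinProb Crest.CombinatoricsR.RandomGraph

lemma ratio_bound (n m k : ℕ) (r q : ℝ) (hr0 : 0 ≤ r) (hrq : 2 ^ 40 * r ≤ q) (hq : q ≤ 1 / 2)
    (hk : n ≤ 16 * (m + 1 - k)) (hkq : m * q / 8 < k) :
    (n.choose k : ℝ) * r ^ k ≤ (1 / 2 ^ 10) ^ k * (m.choose k * (q ^ k * (1 - q) ^ (m - k))) := by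
  have hq0 : 0 ≤ q := by nlinarith
  have hf : (0 : ℝ) < k.factorial := by exact_mod_cast k.factorial_pos
  have h1 : (n.choose k : ℝ) ≤ (n : ℝ) ^ k / k.factorial := Nat.choose_le_pow_div k n
  have h2 : ((m + 1 - k : ℕ) : ℝ) ^ k / k.factorial ≤ m.choose k := by
    exact_mod_cast Nat.pow_le_choose (α := ℝ) k m
  have h3 : (n : ℝ) / 16 ≤ ((m + 1 - k : ℕ) : ℝ) := by
    have : (n : ℝ) ≤ 16 * ((m + 1 - k : ℕ) : ℝ) := by exact_mod_cast hk
    linarith
  have h4 : ((n : ℝ) / 16) ^ k / k.factorial ≤ m.choose k :=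
    le_trans (by gcongr) h2
  have h5 : (1 / 2 ^ 26 : ℝ) ^ k ≤ (1 - q) ^ (m - k) := by
    have h6 : Real.exp (-(2 * q)) ≤ 1 - q := by
      have h7 := Real.add_one_le_exp (2 * q)
      rw [Real.exp_neg, inv_le_comm₀ (Real.exp_pos _) (by linarith)]
      refine le_trans ?_ h7
      rw [inv_le_iff_one_le_mul₀ (by linarith)]
      nlinarith
    have h7 : (1 / 2 ^ 26 : ℝ) ≤ Real.exp (-16) := by
      have h8 : Real.exp 16 ≤ 3 ^ 16 := by
        have := Real.exp_one_pow 16
        push_cast at this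
        rw [← this]
        exact pow_le_pow_left₀ (Real.exp_pos _).le
          ((Real.exp_one_lt_d9.le).trans (by norm_num)) _
      rw [Real.exp_neg, one_div]
      exact inv_anti₀ (Real.exp_pos _) (h8.trans (by norm_num))
    calc (1 / 2 ^ 26 : ℝ) ^ k ≤ Real.exp (-16) ^ k := pow_le_pow_left₀ (by norm_num) h7 k
      _ ≤ Real.exp (-(2 * q)) ^ m := by
          rw [← Real.exp_nat_mul, ← Real.exp_nat_mul]
          apply Real.exp_le_exp.mpr
          linarith
      _ ≤ (1 - q) ^ m := pow_le_pow_left₀ (Real.exp_pos _).le h6 m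
      _ ≤ _ := pow_le_pow_of_le_one (by linarith) (by linarith) (Nat.sub_le _ _)
  calc (n.choose k : ℝ) * r ^ k ≤ (n : ℝ) ^ k / k.factorial * r ^ k := by gcongr
    _ = (1 / 2 ^ 10) ^ k * (((n : ℝ) / 16) ^ k / k.factorial *
          ((2 ^ 40 * r) ^ k * (1 / 2 ^ 26 : ℝ) ^ k)) := by
        have : (n : ℝ) ^ k * r ^ k =
            (1 / 2 ^ 10) ^ k * (((n : ℝ) / 16) ^ k * ((2 ^ 40 * r) ^ k * (1 / 2 ^ 26 : ℝ) ^ k)) := by
          simp only [← mul_pow]; congr 1; ring
        rw [div_mul_eq_mul_div, this]; ring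
    _ ≤ _ := by gcongr

section StarPiece

variable {W : Type} [Fintype W] [DecidableEq W] {n : ℕ}

lemma emb_of_starOK (hW : Fintype.card W ≤ n) (N : W → Finset W) (hN1 : ∀ v, (N v).card ≤ 1)
    (hc : ∀ v, ∀ u ∈ N v, N u = ∅) (Z Rr : Finset (Fin n)) (hZ : Disjoint Rr Z)
    (ω : EdgeSlot n → Bool)
    (h : StarOK (fun c => (univ.filter (fun v => c ∈ N v)).card) Z Rr
      (univ.filter (fun c => ∃ v, c ∈ N v)) ∅ ω) : Emb N ω := by
  classical
  obtain ⟨g, T, h1, h2, h3⟩ := h
  set C := univ.filter (fun c => ∃ v, c ∈ N v) with hC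
  have hf : ∀ c, ∃ f : W → Fin n, c ∈ C → Set.InjOn f (univ.filter (fun v => c ∈ N v)) ∧
      ∀ v, c ∈ N v → f v ∈ T c := by
    intro c
    by_cases hcC : c ∈ C
    · let e := Finset.equivOfCardEq (h2 c hcC).2.2.1.symm
      refine ⟨fun v => if hv : v ∈ univ.filter (fun v => c ∈ N v) then e ⟨v, hv⟩ else g c,
        fun _ => ⟨fun a ha b hb hab => ?_, fun v hv => ?_⟩⟩
      · have ha' := mem_coe.mp ha
        have hb' := mem_coe.mp hb
        simp only [dif_pos ha', dif_pos hb'] at hab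
        exact congrArg Subtype.val (e.injective (Subtype.ext hab))
      · have hv' : v ∈ univ.filter (fun v => c ∈ N v) := mem_filter.mpr ⟨mem_univ _, hv⟩
        simp only [dif_pos hv']
        exact (e ⟨v, hv'⟩).2
    · exact ⟨g, fun h => absurd h hcC⟩
  choose f hf using hf
  let ctr : W → W := fun v => if h : (N v).Nonempty then h.choose else v
  have hctr : ∀ v, ∀ u ∈ N v, ctr v = u := by
    intro v u hu
    have h4 : (N v).Nonempty := ⟨u, hu⟩
    simp only [ctr, dif_pos h4]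
    exact card_le_one.mp (hN1 v) _ h4.choose_spec _ hu
  have hmem : ∀ v, ∀ u ∈ N v, u ∈ C ∧ v ∉ C := by
    intro v u hu
    refine ⟨mem_filter.mpr ⟨mem_univ _, v, hu⟩, fun hv => ?_⟩
    obtain ⟨v', hv'⟩ := (mem_filter.mp hv).2
    rw [hc v' v hv'] at hu
    simp at hu
  let φ : W → Fin n := fun v => if v ∈ C then g v else f (ctr v) v
  have hφ : ∀ v, ∀ u ∈ N v, φ u = g u ∧ φ v = f u v ∧ f u v ∈ T u := by
    intro v u hu
    obtain ⟨h4, h5⟩ := hmem v u hu
    exact ⟨if_pos h4, by simp only [φ, if_neg h5, hctr v u hu], (hf u h4).2 v hu⟩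
  obtain ⟨ψ, hψ⟩ := exists_emb_extend hW (C ∪ univ.filter (fun v => (N v).Nonempty)) φ (by
    intro a ha b hb hab
    rcases mem_union.mp (mem_coe.mp ha) with ha | ha <;>
      rcases mem_union.mp (mem_coe.mp hb) with hb | hb
    · simp only [φ, if_pos ha, if_pos hb] at hab
      exact h1 ha hb hab
    · obtain ⟨u, hu⟩ := (mem_filter.mp hb).2
      obtain ⟨-, h5, h6⟩ := hφ b u hu
      rw [h5] at hab
      simp only [φ, if_pos ha] at hab
      exact absurd (mem_sdiff.mp ((h2 u (hmem b u hu).1).2.1 (hab ▸ h6))).1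
        (disjoint_left.mp hZ (h2 a ha).1)
    · obtain ⟨u, hu⟩ := (mem_filter.mp ha).2
      obtain ⟨-, h5, h6⟩ := hφ a u hu
      rw [h5] at hab
      simp only [φ, if_pos hb] at hab
      exact absurd (mem_sdiff.mp ((h2 u (hmem a u hu).1).2.1 (hab ▸ h6))).1
        (disjoint_left.mp hZ (h2 b hb).1)
    · obtain ⟨u, hu⟩ := (mem_filter.mp ha).2
      obtain ⟨u', hu'⟩ := (mem_filter.mp hb).2
      obtain ⟨-, h5, h6⟩ := hφ a u hu
      obtain ⟨-, h7, h8⟩ := hφ b u' hu'
      rw [h5, h7] at hab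
      by_cases huu : u = u'
      · subst huu
        exact (hf u (hmem a u hu).1).1 (by simpa using hu) (by simpa using hu') hab
      · exact absurd (hab ▸ h8) (disjoint_left.mp
          (h3 u (hmem a u hu).1 u' (hmem b u' hu').1 huu) h6))
  refine ⟨ψ, fun v u hu => ?_⟩
  obtain ⟨h4, h5, h6⟩ := hφ v u hu
  rw [hψ u (mem_union_left _ (hmem v u hu).1),
    hψ v (mem_union_right _ (mem_filter.mpr ⟨mem_univ _, u, hu⟩)), h4, h5, coin_comm]
  exact (h2 u (hmem v u hu).1).2.2.2 _ h6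

theorem star_piece {H : SimpleGraph W} {r q : ℝ} (h : NF H n r) (hr0 : 0 < r)
    (hrq : 2 ^ 40 * r ≤ q) (h1 : q ≤ 1 / 2) (hn : 1024 ≤ n) (hW : Fintype.card W ≤ n)
    (N : W → Finset W) (hN1 : ∀ v, (N v).card ≤ 1) (hadj : ∀ v, ∀ u ∈ N v, H.Adj v u)
    (hc : ∀ v, ∀ u ∈ N v, N u = ∅)
    (hL : 1024 * (univ.filter (fun v => (N v).Nonempty)).card ≤ n) :
    1 / 2 ≤ Pr q (fun ω : EdgeSlot n → Bool => Emb N ω) := by
  classical
  have h0 : 0 < q := by linarith
  have h1' : q ≤ 1 := by linarith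
  set d : W → ℕ := fun c => (univ.filter (fun v => c ∈ N v)).card with hd
  set C := univ.filter (fun c => ∃ v, c ∈ N v) with hC
  have hsum : 1024 * ∑ c ∈ C, d c ≤ n := by
    refine le_trans (Nat.mul_le_mul_left _ ?_) hL
    calc ∑ c ∈ C, d c ≤ ∑ c, d c := sum_le_sum_of_subset (subset_univ _)
      _ = ∑ v, (N v).card := by
          simp only [hd, card_filter]
          rw [sum_comm]
          refine sum_congr rfl fun v _ => ?_
          rw [← card_filter]; simp
      _ ≤ _ := by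
          rw [card_filter]
          refine sum_le_sum fun v _ => ?_
          split_ifs with hv
          · exact hN1 v
          · rw [not_nonempty_iff_eq_empty.mp hv]; simp
  have hd1 : ∀ c ∈ C, 1 ≤ d c := by
    intro c hcC
    obtain ⟨v, hv⟩ := (mem_filter.mp hcC).2
    exact card_pos.mpr ⟨v, mem_filter.mpr ⟨mem_univ _, hv⟩⟩
  have hd2 : ∀ c ∈ C, 1024 * d c ≤ n := fun c hcC =>
    le_trans (Nat.mul_le_mul_left _ (single_le_sum (fun _ _ => Nat.zero_le _) hcC)) hsum
  set m₀ := n / 4 with hm₀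
  let π : ℕ → ℝ := fun k =>
    if (k : ℝ) ≤ m₀ * q / 8 then 1 / 2 else m₀.choose k * (q ^ k * (1 - q) ^ (m₀ - k))
  let cnt : ℕ → ℕ := fun k => (C.filter fun c => d c = k).card
  have hcnt : ∀ k, cnt k ≠ 0 → 1 ≤ k ∧ 1024 * k ≤ n := by
    intro k hk
    obtain ⟨c, hc⟩ := card_pos.mp (Nat.pos_of_ne_zero hk)
    obtain ⟨h2, rfl⟩ := mem_filter.mp hc
    exact ⟨hd1 c h2, hd2 c h2⟩
  have hπ1 : ∀ k, π k ≤ 1 := by
    intro k
    simp only [π]
    split_ifs
    · norm_num
    · have := (tail_point (A := Fin m₀) h0.le h1' k).trans (Pr_le_one h0.le h1' _)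
      rwa [Fintype.card_fin] at this
  have hπ0 : ∀ k, cnt k ≠ 0 → 0 < π k := by
    intro k hk
    simp only [π]
    split_ifs
    · norm_num
    · have h2 : 0 < m₀.choose k := Nat.choose_pos (by have := (hcnt k hk).2; omega)
      have h3 : 0 < 1 - q := by linarith
      positivity
  let a : ℕ → ℕ := fun k => if cnt k = 0 then 0 else ⌈2 * (cnt k + k + 1) / π k⌉₊
  have ha : ∀ k, (a k : ℝ) ≤ 14 * (cnt k * k) + 42 * n / 256 * (1 / 2) ^ k := by
    intro k
    simp only [a]
    split_ifs with hk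
    · rw [Nat.cast_zero]; positivity
    obtain ⟨hk1, hk2⟩ := hcnt k hk
    have hp := hπ0 k hk
    have hc1 : (1 : ℝ) ≤ cnt k := by exact_mod_cast Nat.pos_of_ne_zero hk
    have hk1' : (1 : ℝ) ≤ k := by exact_mod_cast hk1
    have h2 : (⌈2 * (cnt k + k + 1) / π k⌉₊ : ℝ) ≤ 7 * (cnt k * k) / π k := by
      have h3 := Nat.ceil_lt_add_one (by positivity : 0 ≤ 2 * (cnt k + k + 1) / π k)
      refine h3.le.trans ?_
      rw [div_add_one hp.ne', div_le_div_iff_of_pos_right hp]
      have := hπ1 k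
      nlinarith [mul_nonneg (sub_nonneg.mpr hc1) (sub_nonneg.mpr hk1')]
    refine h2.trans ?_
    rw [div_le_iff₀ hp]
    by_cases hkq : (k : ℝ) ≤ m₀ * q / 8
    · have : π k = 1 / 2 := if_pos hkq
      rw [this]
      have : (0 : ℝ) ≤ 42 * n / 256 * (1 / 2) ^ k := by positivity
      linarith
    · have h3 : π k = m₀.choose k * (q ^ k * (1 - q) ^ (m₀ - k)) := if_neg hkq
      have h4 := h.stars hr0.le (C.filter fun c => d c = k)
        (fun c => univ.filter (fun v => c ∈ N v)) (fun c _ u hu => by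
          have hu' := (mem_filter.mp hu).2
          refine ⟨hadj u c hu', fun h' => ?_⟩
          obtain ⟨v, hv⟩ := (mem_filter.mp (mem_filter.mp h').1).2
          rw [hc v u hv] at hu'
          simp at hu') k (fun c hc => (mem_filter.mp hc).2)
      have h5 := ratio_bound n m₀ k r q hr0.le hrq h1 (by omega) (not_le.mp hkq)
      rw [← h3] at h5
      have h6 : (k : ℝ) * (1 / 2 ^ 10) ^ k ≤ (1 / 256) * (1 / 2) ^ k := by
        have h7 : (k : ℝ) ≤ 2 ^ k := by exact_mod_cast Nat.lt_two_pow_self.le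
        have h8 : (1 / 2 ^ 8 : ℝ) ^ k ≤ 1 / 2 ^ 8 :=
          pow_le_of_le_one (by norm_num) (by norm_num) (by omega)
        calc (k : ℝ) * (1 / 2 ^ 10) ^ k ≤ 2 ^ k * (1 / 2 ^ 10) ^ k := by gcongr
          _ = (1 / 2 ^ 8) ^ k * (1 / 2) ^ k := by simp only [← mul_pow]; norm_num
          _ ≤ (1 / 2 ^ 8) * (1 / 2) ^ k := by gcongr
          _ = _ := by norm_num
      have hn0 : (0 : ℝ) ≤ n := Nat.cast_nonneg _
      have h9 : (cnt k : ℝ) ≤ 6 * n * ((1 / 2 ^ 10) ^ k * π k) :=
        h4.trans (mul_le_mul_of_nonneg_left h5 (by positivity))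
      have h10 := mul_le_mul_of_nonneg_right h9 (by linarith : (0 : ℝ) ≤ k)
      have h11 := mul_le_mul_of_nonneg_right h6 (mul_nonneg hn0 hp.le)
      have h12 : (0 : ℝ) ≤ cnt k * k * π k := by positivity
      nlinarith
  have hasum : ∑ k ∈ range n, a (k + 1) ≤ n / 2 := by
    have h2 : ∑ k ∈ range n, cnt (k + 1) * (k + 1) ≤ ∑ c ∈ C, d c := by
      have h3 := sum_fiberwise_of_maps_to (s := C) (t := range (n + 1)) (g := d)
        (fun c hc => mem_range.mpr (by have := hd2 c hc; omega)) d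
      rw [← h3, sum_range_succ']
      refine le_trans (le_of_eq (sum_congr rfl fun k _ => ?_)) (Nat.le_add_right _ _)
      rw [sum_congr rfl (g := fun _ => k + 1) (fun c hc => (mem_filter.mp hc).2), sum_const,
        smul_eq_mul]
    have h3 : (∑ k ∈ range n, (cnt (k + 1) : ℝ) * (k + 1 : ℕ)) ≤ n / 1024 := by
      have h4 : ((1024 * ∑ k ∈ range n, cnt (k + 1) * (k + 1) : ℕ) : ℝ) ≤ n := by
        exact_mod_cast (Nat.mul_le_mul_left _ h2).trans hsum
      push_cast at h4 ⊢
      linarith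
    have h4 := sum_half_pow_le n
    rw [Fin.sum_univ_eq_sum_range (fun i => (1 / 2 : ℝ) ^ (i + 1))] at h4
    have h5 := sum_le_sum fun k (_ : k ∈ range n) => ha (k + 1)
    rw [sum_add_distrib, ← mul_sum, ← mul_sum] at h5
    have hn0 : (0 : ℝ) ≤ n := Nat.cast_nonneg _
    have h6 : ((4 * ∑ k ∈ range n, a (k + 1) : ℕ) : ℝ) ≤ n := by
      push_cast at h3 h5 ⊢
      nlinarith
    have h7 : 4 * ∑ k ∈ range n, a (k + 1) ≤ n := by exact_mod_cast h6
    omega
  obtain ⟨lay, hlay⟩ := exists_lay n (n + 1) (fun k => if k = 0 then n / 2 else a k) (by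
    rw [sum_range_succ']
    simp only [Nat.add_eq_zero_iff, one_ne_zero, and_false, if_false, if_true]
    omega)
  have hdisj : Disjoint (univ.filter fun y => lay y ≠ 0) (univ.filter fun y => lay y = 0) := by
    rw [disjoint_filter]
    exact fun _ _ h => h
  have h2 := star_seq h0.le h1' (by omega) (univ.filter fun y => lay y = 0) lay d π m₀ (n + 1)
    (fun k y hy Z' hZ' hm => row_tail h0.le h1' Z' y (fun h => hy (hZ' h)) m₀ hm k) hπ1
    (univ.filter fun y => lay y ≠ 0) hdisj C ∅ (fun c hc => by have := hd2 c hc; omega) (by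
      have := hlay 0 (by omega)
      simp only [if_true, card_empty] at this ⊢
      omega)
  have h3 : Pr q (fun ω => ¬ StarOK d (univ.filter fun y => lay y = 0)
      (univ.filter fun y => lay y ≠ 0) C ∅ ω) ≤ 1 / 2 := by
    refine h2.trans ?_
    rw [sum_range_succ']
    have h4 : cnt 0 = 0 := by
      by_contra h4
      have := (hcnt 0 h4).1
      omega
    rw [if_pos h4, add_zero]
    have h5 := sum_half_pow_le n
    rw [Fin.sum_univ_eq_sum_range (fun i => (1 / 2 : ℝ) ^ (i + 1))] at h5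
    refine le_trans (sum_le_sum (g := fun k => (1 / 2 : ℝ) * (1 / 2) ^ (k + 1)) fun k hk => ?_)
      (by rw [← mul_sum]; linarith)
    split_ifs with hc0
    · positivity
    have hp := hπ0 (k + 1) hc0
    have h6 := hlay (k + 1) (by have := mem_range.mp hk; omega)
    have h7 : ((univ.filter fun y => lay y ≠ 0).filter fun y => lay y = k + 1) =
        univ.filter fun y => lay y = k + 1 := by
      ext y
      simp only [mem_filter, mem_univ, true_and]
      omega
    rw [h7]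
    simp only [Nat.add_eq_zero_iff, one_ne_zero, and_false, if_false, a] at h6
    rw [if_neg hc0] at h6
    have h8 : 2 * (cnt (k + 1) + (k + 1 : ℕ) + 1) / π (k + 1) ≤
        (univ.filter fun y => lay y = k + 1).card := Nat.ceil_le.mp h6
    rw [div_le_iff₀ hp] at h8
    have h9 : (1 - 5 / 8 * π (k + 1)) ^ (univ.filter fun y => lay y = k + 1).card ≤
        Real.exp (-(5 / 8 * π (k + 1))) ^ (univ.filter fun y => lay y = k + 1).card :=
      pow_le_pow_left₀ (by have := hπ1 (k + 1); linarith)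
        (by have := Real.add_one_le_exp (-(5 / 8 * π (k + 1))); linarith) _
    refine (mul_le_mul_of_nonneg_left h9 (Real.exp_pos _).le).trans ?_
    rw [← Real.exp_nat_mul, ← Real.exp_add, ← pow_succ']
    refine le_trans ?_ (pow_le_pow_left₀ (Real.exp_pos _).le exp_neg_one_le_half _)
    rw [← Real.exp_nat_mul]
    apply Real.exp_le_exp.mpr
    have h10 : (0 : ℝ) ≤ cnt (k + 1) := Nat.cast_nonneg _
    have h11 : (0 : ℝ) ≤ k := Nat.cast_nonneg _
    change (cnt (k + 1) : ℝ) + _ ≤ _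
    push_cast at h8 ⊢
    nlinarith
  rw [Pr_not] at h3
  refine le_trans (by linarith) (Pr_mono h0.le h1' fun ω hω =>
    emb_of_starOK hW N hN1 hc _ _ hdisj ω hω)

end StarPiece

end Crest.Agent.Tal
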