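import Crest.Agent.Tal.PieceHi
import Crest.Agent.Tal.PieceStar

/-!
Decomposition of a graph without cheap fractional cover into boundedly many pieces, each of which
appears in the random graph at a constant multiple of the density.
-/

set_option autoImplicit false
set_option linter.unusedSectionVars false

namespace Crest.Agent.Tal

open Finset Crest.FinProb Crest.CombinatoricsR.RandomGraph

section Decomp

variable {W : Type} [Fintype W] [DecidableEq W] {n : ℕ}

lemma NF.deg_sum {H : SimpleGraph W} [DecidableRel H.Adj] {r z : ℝ} (h : NF H n r) (hr0 : 0 < r)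
    (hr1 : r ≤ 1) (hz : 2 ≤ z) (hn : (n : ℝ) = z ^ 40) (d : ℕ) (hd : z * r ^ (d + 1) < 1)
    (S : Finset W) : ∑ v ∈ S, (S.filter (H.Adj v)).card ≤ 2 * (80 * (d + 1)) * S.card := by
  rcases S.eq_empty_or_nonempty with rfl | hS
  · simp
  have hz1 : 1 ≤ z := by linarith
  have hn2 : (2 : ℝ) ≤ n := by rw [hn]; exact hz.trans (le_self_pow₀ hz1 (by norm_num))
  have hn1 : 1 ≤ n := by
    have : (1 : ℝ) ≤ n := by linarith
    exact_mod_cast this
  let P := (S ×ˢ S).filter (fun p : W × W => H.Adj p.1 p.2)
  let E := P.image (fun p : W × W => s(p.1, p.2))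
  have h1 : ∑ v ∈ S, (S.filter (H.Adj v)).card = P.card := by
    simp only [P, card_filter, sum_product]
  have h2 : P.card ≤ 2 * E.card := by
    refine card_le_mul_card_image P 2 fun e he => ?_
    obtain ⟨⟨u, v⟩, _, rfl⟩ := mem_image.mp he
    refine le_trans (card_le_card (t := {(u, v), (v, u)}) fun p hp => ?_) (card_le_two)
    have := (mem_filter.mp hp).2
    rw [Sym2.eq_iff] at this
    rcases this with ⟨h3, h4⟩ | ⟨h3, h4⟩
    · exact mem_insert.mpr (Or.inl (Prod.ext h3 h4))
    · exact mem_insert.mpr (Or.inr (mem_singleton.mpr (Prod.ext h3 h4)))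
  have h3 := h.density hr0.le hn1 S E (by
    intro e he
    obtain ⟨⟨u, v⟩, hp, rfl⟩ := mem_image.mp he
    obtain ⟨h4, h5⟩ := mem_filter.mp hp
    exact ⟨u, (mem_product.mp h4).1, v, (mem_product.mp h4).2, h5, rfl⟩)
  have h4 : E.card < (d + 1) * (40 * (S.card + 1)) := by
    by_contra hc
    push Not at hc
    have h5 : r ^ E.card ≤ (r ^ (d + 1)) ^ (40 * (S.card + 1)) := by
      rw [← pow_mul]; exact pow_le_pow_of_le_one hr0.le hr1 hc
    have h6 : (n : ℝ) ^ (S.card + 1) * (r ^ (d + 1)) ^ (40 * (S.card + 1)) ≤ 1 := by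
      rw [hn, ← pow_mul, ← mul_pow]
      exact pow_le_one₀ (by positivity) hd.le
    have h7 : (0 : ℝ) ≤ (n : ℝ) ^ S.card := by positivity
    have h8 := mul_le_mul_of_nonneg_left h5 h7
    rw [pow_succ] at h6
    have h9 : (0 : ℝ) ≤ (n : ℝ) ^ S.card * (r ^ (d + 1)) ^ (40 * (S.card + 1)) := by positivity
    nlinarith
  have h5 := hS.card_pos
  rw [h1]
  nlinarith

lemma emb_empty (hW : Fintype.card W ≤ n) (q : ℝ) :
    1 / 2 ≤ Pr q (fun ω : EdgeSlot n → Bool => Emb (fun _ : W => (∅ : Finset W)) ω) := by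
  obtain ⟨ψ⟩ := Function.Embedding.nonempty_of_card_le (α := W) (β := Fin n) (by simpa using hW)
  rw [Pr_true q fun ω => ⟨ψ, by simp⟩]
  norm_num

theorem decomp {H : SimpleGraph W} {r q z : ℝ} (h : NF H n r) (hr0 : 0 < r)
    (hq : q = 2 ^ 40 * r) (h1 : q < 1) (hz : 2 ^ 41 ≤ z) (hn : (n : ℝ) = z ^ 40)
    (hW : Fintype.card W ≤ n) :
    ∃ N : Fin 640 × Fin 2048 × (Fin 2048 ⊕ Bool) → W → Finset W,
      (∀ u v, H.Adj u v → ∃ i, u ∈ N i v ∨ v ∈ N i u) ∧
      ∀ i, 1 / 2 ≤ Pr q (fun ω : EdgeSlot n → Bool => Emb (N i) ω) := by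
  classical
  have hz1 : 1 ≤ z := by linarith
  have hz0 : 0 < z := by linarith
  have h0 : 0 < q := by rw [hq]; positivity
  have hr2 : r ≤ 1 / 2 := by linarith
  have hnz : z ≤ n := by rw [hn]; exact le_self_pow₀ hz1 (by norm_num)
  have hn4 : 4096 ≤ n := by
    have : (4096 : ℝ) ≤ n := by linarith
    exact_mod_cast this
  have hex : ∃ d : ℕ, z * r ^ (d + 1) < 1 := by
    obtain ⟨d, hd⟩ := exists_pow_lt_of_lt_one (by positivity : 0 < 1 / z) (by linarith : r < 1)
    refine ⟨d, ?_⟩
    rw [lt_div_iff₀ hz0] at hd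
    have : 0 < r ^ d * z := by positivity
    rw [pow_succ]; nlinarith
  set d := Nat.find hex with hd
  have hd1 : z * r ^ (d + 1) < 1 := Nat.find_spec hex
  have hd2 : 1 / z ≤ r ^ d := by
    rw [div_le_iff₀ hz0, mul_comm]
    rcases Nat.eq_zero_or_eq_succ_pred d with h2 | h2
    · rw [h2]; simpa using hz1
    · have := Nat.find_min hex (m := d - 1) (by omega)
      rw [h2]; exact not_lt.mp this
  have hd3 : (2 : ℝ) ^ d ≤ z := by
    rw [div_le_iff₀ hz0] at hd2
    have h2 : (2 : ℝ) ^ d * r ^ d ≤ 1 := by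
      rw [← mul_pow]; exact pow_le_one₀ (by positivity) (by linarith)
    have h3 : 0 < r ^ d := by positivity
    by_contra hc
    push Not at hc
    nlinarith
  have hd4 : (d : ℝ) ≤ z := le_trans (by exact_mod_cast Nat.lt_two_pow_self.le) hd3
  -- layering
  set R := ⌈(8 * ((80 * (d + 1) : ℕ) : ℝ) + 2) * (40 * z + 1)⌉₊ with hR
  have hRz : (R : ℝ) ≤ z ^ 4 := by
    have h2 := Nat.ceil_lt_add_one
      (by positivity : 0 ≤ (8 * ((80 * (d + 1) : ℕ) : ℝ) + 2) * (40 * z + 1))
    have h3 : (8 * ((80 * (d + 1) : ℕ) : ℝ) + 2) * (40 * z + 1) ≤ (1282 * z) * (41 * z) := by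
      push_cast
      exact mul_le_mul (by linarith) (by linarith) (by positivity) (by positivity)
    have h4 := mul_pow_le_pow z 52563 hz1 (by linarith) 2 4 (by norm_num)
    have h5 := one_le_pow₀ (n := 2) hz1
    rw [hR]; nlinarith
  obtain ⟨ℓ, hℓ1, hℓ2, hℓ3⟩ := exists_layering_aux H (80 * (d + 1))
    (h.deg_sum hr0 (by linarith) (by linarith) hn d hd1) R univ (by
      set a : ℝ := 8 * ((80 * (d + 1) : ℕ) : ℝ) + 2 with ha
      have ha1 : 1 ≤ a := by
        have : (0 : ℝ) ≤ ((80 * (d + 1) : ℕ) : ℝ) := Nat.cast_nonneg _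
        linarith
      have h2 : (1 - 1 / a) ^ R ≤ Real.exp (-(1 / a)) ^ R :=
        pow_le_pow_left₀ (by rw [sub_nonneg, div_le_one (by linarith)]; exact ha1)
          (by have := Real.add_one_le_exp (-(1 / a)); linarith) R
      have h3 : Real.exp (-(1 / a)) ^ R ≤ Real.exp (-(40 * z + 1)) := by
        rw [← Real.exp_nat_mul]
        apply Real.exp_le_exp.mpr
        have h4 := Nat.le_ceil (a * (40 * z + 1))
        rw [← hR] at h4
        rw [mul_neg, mul_one_div, neg_le_neg_iff, le_div_iff₀ (by linarith)]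
        linarith
      have h4 : ((univ : Finset W).card : ℝ) ≤ Real.exp (40 * z) := by
        have h5 : ((univ : Finset W).card : ℝ) ≤ n := by exact_mod_cast hW
        have h6 := pow_le_exp z hz0.le 40
        push_cast at h6
        linarith
      calc _ ≤ Real.exp (40 * z) * Real.exp (-(40 * z + 1)) :=
            mul_le_mul h4 (h2.trans h3)
              (pow_nonneg (by rw [sub_nonneg, div_le_one (by linarith)]; exact ha1) _)
              (Real.exp_pos _).le
        _ < 1 := by rw [← Real.exp_add, Real.exp_lt_one_iff]; linarith)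
  let back : W → Finset W := fun v => univ.filter (fun u => H.Adj v u ∧ ℓ u < ℓ v)
  have hback : ∀ v, (back v).card ≤ 320 * (d + 1) := fun v =>
    (hℓ3 v (mem_univ v)).trans (le_of_eq (by ring))
  have hback' : ∀ v u, u ∈ back v ↔ H.Adj v u ∧ ℓ u < ℓ v := fun v u => by simp [back]
  have hcover : ∀ (N : Fin 640 × Fin 2048 × (Fin 2048 ⊕ Bool) → W → Finset W),
      (∀ v, ∀ u ∈ back v, ∃ i, u ∈ N i v) → ∀ u v, H.Adj u v → ∃ i, u ∈ N i v ∨ v ∈ N i u := by
    intro N hN u v huv
    rcases lt_or_gt_of_ne (hℓ2 u (mem_univ _) v (mem_univ _) huv) with h2 | h2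
    · obtain ⟨i, hi⟩ := hN v u ((hback' v u).mpr ⟨huv.symm, h2⟩)
      exact ⟨i, Or.inl hi⟩
    · obtain ⟨i, hi⟩ := hN u v ((hback' u v).mpr ⟨huv, h2⟩)
      exact ⟨i, Or.inr hi⟩
  choose lab hlab using fun v => exists_split (back v) 640 (max d 1) (by norm_num)
    ((hback v).trans (by omega))
  obtain ⟨part, hpart⟩ := exists_split (univ : Finset W) 2048 (n / 2048 + 1) (by norm_num)
    (by rw [card_univ]; omega)
  let Nb : Fin 640 → W → Finset W := fun i v => (back v).filter (fun u => lab v u = i)
  have hNb : ∀ i v, ∀ u ∈ Nb i v, H.Adj v u ∧ ℓ u < ℓ v := fun i v u hu =>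
    (hback' v u).mp (mem_filter.mp hu).1
  have hNb1 : ∀ v, ∀ u ∈ back v, u ∈ Nb (lab v u) v := fun v u hu => mem_filter.mpr ⟨hu, rfl⟩
  rcases Nat.eq_zero_or_pos d with hd0 | hd0
  · -- star forests
    have hNc : ∀ i v, (Nb i v).card ≤ 1 := fun i v => (hlab v i).trans (by omega)
    choose χ hχ using fun i => exists_two_col ℓ (Nb i) (fun v u hu => (hNb i v u hu).2) (hNc i)
    refine ⟨fun i v => Sum.elim (fun _ => ∅)
      (fun x => if part v = i.2.1 ∧ χ i.1 v = x then Nb i.1 v else ∅) i.2.2, hcover _ ?_, ?_⟩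
    · intro v u hu
      exact ⟨(lab v u, part v, Sum.inr (χ (lab v u) v)), by simpa using hNb1 v u hu⟩
    · rintro ⟨i, a, b | x⟩
      · exact emb_empty hW q
      · simp only [Sum.elim_inr]
        refine star_piece h hr0 hq.ge ?_ (by omega) hW _ (fun v => ?_) (fun v u hu => ?_)
          (fun v u hu => ?_) ?_
        · rw [hd0, zero_add, pow_one] at hd1
          rw [hq]; nlinarith
        · split_ifs
          · exact hNc i v
          · simp
        · split_ifs at hu
          · exact (hNb i v u hu).1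
          · simp at hu
        · split_ifs at hu with h2
          · exact if_neg fun h3 => hχ i v u hu (h3.2.trans h2.2.symm)
          · simp at hu
        · refine le_trans (Nat.mul_le_mul_left _ ((card_le_card fun v hv => ?_).trans (hpart a)))
            (by omega)
          have h2 := (mem_filter.mp hv).2
          split_ifs at h2 with h3
          · exact mem_filter.mpr ⟨mem_univ _, h3.1⟩
          · simp at h2
  · have hNc : ∀ i v, (Nb i v).card ≤ d := fun i v => (hlab v i).trans (by omega)
    let indeg : W → ℕ := fun u => (univ.filter (fun v => u ∈ back v)).card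
    let A := univ.filter (fun u => z ^ 20 < indeg u)
    have hA : (A.card : ℝ) ≤ z ^ 23 := by
      have h2 : ∑ u, indeg u ≤ n * (320 * (d + 1)) := by
        calc ∑ u, indeg u = ∑ v, (back v).card := by
              simp only [indeg, card_filter]
              rw [sum_comm]
              refine sum_congr rfl fun v _ => ?_
              rw [← card_filter]; simp
          _ ≤ ∑ _v : W, 320 * (d + 1) := sum_le_sum fun v _ => hback v
          _ ≤ _ := by
              rw [sum_const, card_univ, smul_eq_mul]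
              exact Nat.mul_le_mul_right _ hW
      have h3 : (A.card : ℝ) * z ^ 20 ≤ ∑ u, (indeg u : ℝ) := by
        rw [← nsmul_eq_mul, ← sum_const]
        exact le_trans (sum_le_sum fun u hu => (mem_filter.mp hu).2.le)
          (sum_le_sum_of_subset_of_nonneg (subset_univ _) fun _ _ _ => Nat.cast_nonneg _)
      have h4 : ∑ u, (indeg u : ℝ) ≤ n * (320 * (d + 1)) := by exact_mod_cast h2
      have h5 : (n : ℝ) * (320 * (d + 1)) ≤ z ^ 40 * (640 * z) := by
        rw [hn]; exact mul_le_mul_of_nonneg_left (by linarith) (by positivity)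
      have h6 := mul_pow_le_pow z 640 hz1 (by linarith) 41 43 (by norm_num)
      have h7 : (A.card : ℝ) * z ^ 20 ≤ z ^ 23 * z ^ 20 := by nlinarith
      exact le_of_mul_le_mul_right h7 (by positivity)
    choose c hc1 hc2 using fun (i : Fin 640) (a : Fin 2048) =>
      hi_piece h hr0 (by rw [hq]; linarith) h1 (by linarith) hn hW A
        (univ.filter fun v => part v = a ∧ v ∉ A)
        (disjoint_left.mpr fun v hv h2 => (mem_filter.mp h2).2.2 hv)
        (fun v => (Nb i v).filter (fun u => u ∈ A))
        (fun v _ u hu => (hNb i v u (mem_filter.mp hu).1).1.symm)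
        (fun v _ u hu => (mem_filter.mp hu).2) d
        (fun v _ => (card_le_card (filter_subset _ _)).trans (hNc i v)) hd3 hd2 hA
        (le_trans (Nat.mul_le_mul_left _ ((card_le_card fun v hv =>
          mem_filter.mpr ⟨mem_univ _, (mem_filter.mp hv).2.1⟩).trans (hpart a))) (by omega))
    refine ⟨fun i v => Sum.elim
      (fun b => if part v = i.2.1 then
        (Nb i.1 v).filter (fun u => part u = b ∧ (u ∉ A ∨ v ∈ A)) else ∅)
      (fun x => if v ∈ (univ.filter fun v => part v = i.2.1 ∧ v ∉ A) then c i.1 i.2.1 v x else ∅)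
      i.2.2, hcover _ ?_, ?_⟩
    · intro v u hu
      by_cases h2 : u ∉ A ∨ v ∈ A
      · refine ⟨(lab v u, part v, Sum.inl (part u)), ?_⟩
        simp only [Sum.elim_inl, if_true]
        exact mem_filter.mpr ⟨hNb1 v u hu, rfl, h2⟩
      · push Not at h2
        have h3 : v ∈ (univ.filter fun v' => part v' = part v ∧ v' ∉ A) :=
          mem_filter.mpr ⟨mem_univ _, rfl, h2.2⟩
        obtain ⟨x, hx⟩ := hc1 (lab v u) (part v) v h3 u (mem_filter.mpr ⟨hNb1 v u hu, h2.1⟩)
        refine ⟨(lab v u, part v, Sum.inr x), ?_⟩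
        simp only [Sum.elim_inr, if_pos h3]
        exact hx
    · rintro ⟨i, a, b | x⟩
      · simp only [Sum.elim_inl]
        refine lo_piece h0.le h1.le (by linarith) hn hW _
          (univ.filter fun v => part v = a ∨ part v = b) (fun v hv => ?_) ℓ R hRz
          (fun v _ => hℓ1 v (mem_univ _)) (fun v _ u hu => ?_) d ⌊z ^ 23⌋₊ (fun v => ?_) hd4
          (hd2.trans (pow_le_pow_left₀ hr0.le (by rw [hq]; linarith) d)) (fun u => ?_)
          (Nat.floor_le (by positivity)) ?_
        · exact if_neg fun h2 => hv (mem_filter.mpr ⟨mem_univ _, Or.inl h2⟩)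
        · split_ifs at hu
          · obtain ⟨h2, h3, -⟩ := mem_filter.mp hu
            exact ⟨mem_filter.mpr ⟨mem_univ _, Or.inr h3⟩, (hNb i v u h2).2⟩
          · simp at hu
        · split_ifs
          · exact (card_le_card (filter_subset _ _)).trans (hNc i v)
          · simp
        · apply Nat.le_floor
          by_cases hu : u ∈ A
          · refine le_trans ?_ hA
            rw [Nat.cast_le]
            refine card_le_card fun v hv => ?_
            have h2 := (mem_filter.mp hv).2
            split_ifs at h2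
            · exact (mem_filter.mp h2).2.2.resolve_left (not_not.mpr hu)
            · simp at h2
          · have h2 : (indeg u : ℝ) ≤ z ^ 20 := by simpa [A] using hu
            refine le_trans ?_ (h2.trans (pow_le_pow_right₀ hz1 (by norm_num)))
            rw [Nat.cast_le]
            refine card_le_card fun v hv => ?_
            have h2 := (mem_filter.mp hv).2
            split_ifs at h2
            · exact mem_filter.mpr ⟨mem_univ _, (mem_filter.mp (mem_filter.mp h2).1).1⟩
            · simp at h2
        · rw [filter_or]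
          have h2 := card_union_le (univ.filter fun v => part v = a) (univ.filter fun v => part v = b)
          have h3 := hpart a
          have h4 := hpart b
          omega
      · exact hc2 i a x

end Decomp

end Crest.Agent.Tal
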