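import Crest.Agent.Tal.Frag

/-!
Counting valid fragments and the expected cost of the fragment cover.
-/

set_option autoImplicit false
set_option linter.unusedSectionVars false

namespace Crest.Agent.Tal

open Finset

section Count

variable {α : Type*} [Fintype α] [DecidableEq α] {m : ℕ}

lemma sum_half_pow_le (m : ℕ) : ∑ i : Fin m, (1 / 2 : ℝ) ^ ((i : ℕ) + 1) ≤ 1 := by
  have : ∀ m : ℕ, ∑ i ∈ range m, (1 / 2 : ℝ) ^ (i + 1) = 1 - (1 / 2) ^ m := by
    intro m
    induction m with
    | zero => simp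
    | succ k ih => rw [sum_range_succ, ih]; ring
  rw [Fin.sum_univ_eq_sum_range (fun i => (1 / 2 : ℝ) ^ (i + 1)), this]
  have : (0 : ℝ) < (1 / 2) ^ m := by positivity
  linarith

lemma geom_le (x : ℝ) (h0 : 0 ≤ x) (h1 : x ≤ 1 / 2) (N : ℕ) :
    ∑ k ∈ range N, x ^ k ≤ 1 + 2 * x := by
  have : ∀ N : ℕ, ∑ k ∈ range N, x ^ k ≤ 1 + 2 * x - 2 * x ^ N ∨ N = 0 := by
    intro N
    induction N with
    | zero => simp
    | succ k ih =>
      left
      rw [sum_range_succ]
      rcases ih with ih | ih
      · have : 0 ≤ x ^ k := by positivity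
        rw [pow_succ]; nlinarith
      · subst ih; simp
  rcases this N with h | h
  · have : 0 ≤ x ^ N := by positivity
    linarith
  · subst h; simp; linarith

/-- The profile of a set. -/
def prof (τ : α → Fin (m + 1)) (U : Finset α) (i : Fin m) : ℕ :=
  (U.filter (fun x => (τ x : ℕ) = i)).card

lemma prod_eq_prof (τ : α → Fin (m + 1)) (U : Finset α) (hU : ∀ x ∈ U, (τ x : ℕ) < m)
    (c : ℕ → ℝ) : ∏ x ∈ U, c (τ x) = ∏ i : Fin m, c i ^ prof τ U i := by
  classical
  rw [← prod_fiberwise_of_maps_to (s := U) (t := range m) (g := fun x => (τ x : ℕ))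
    (fun x hx => mem_range.mpr (hU x hx)), ← Fin.prod_univ_eq_prod_range
      (fun i => ∏ x ∈ U with (τ x : ℕ) = i, c (τ x))]
  refine prod_congr rfl fun i _ => ?_
  rw [prof, ← prod_const]
  exact prod_congr rfl fun x hx => by rw [(mem_filter.mp hx).2]

lemma card_eq_prof (τ : α → Fin (m + 1)) (U : Finset α) (hU : ∀ x ∈ U, (τ x : ℕ) < m) :
    U.card = ∑ i : Fin m, prof τ U i := by
  classical
  rw [card_eq_sum_card_fiberwise (s := U) (t := range m) (f := fun x => (τ x : ℕ))
    (fun x hx => mem_coe.mpr (mem_range.mpr (hU x hx))), ← Fin.sum_univ_eq_sum_range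
      (fun i => (U.filter (fun x => (τ x : ℕ) = i)).card)]
  rfl

lemma bud_eq_prof (τ : α → Fin (m + 1)) (U : Finset α) (i : Fin m) :
    bud τ U i = ∑ k : Fin m with k ≤ i, prof τ U k := by
  classical
  have h := card_eq_prof τ (U.filter (fun x => (τ x : ℕ) ≤ i))
    (fun x hx => lt_of_le_of_lt (mem_filter.mp hx).2 i.2)
  rw [bud, h, sum_filter]
  refine sum_congr rfl fun k _ => ?_
  unfold prof
  rw [filter_filter]
  split_ifs with hk
  · congr 1
    refine filter_congr fun x _ => ⟨fun h => h.2, fun h => ⟨?_, h⟩⟩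
    rw [h]; exact hk
  · rw [card_eq_zero, filter_eq_empty_iff]
    rintro x _ ⟨h1, h2⟩
    apply hk
    rw [Fin.le_def]; omega

open Classical in
lemma valid_sum_le (Fc : (α → Fin (m + 1)) → (Fin m → ℕ) → Fin m → Finset α)
    (hF1 : ∀ τ s i, (Fc τ s i).card ≤ 2 ^ ((i : ℕ) + 2) * s i) (τ : α → Fin (m + 1)) :
    ∑ U with Valid Fc τ U, ∏ x ∈ U, (1 / 4096 : ℝ) ^ ((τ x : ℕ) + 1) ≤ 1 / 8 := by
  set N := Fintype.card α
  let t : ℕ → ℝ := fun i => (1 / 2 : ℝ) ^ (2 * i + 3)
  let c : ℕ → ℝ := fun i => 2 ^ (2 * i + 3) * (1 / 4096 : ℝ) ^ (i + 1)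
  have ht0 : ∀ i, 0 ≤ t i := fun i => by positivity
  have hc0 : ∀ i, 0 ≤ c i := fun i => by positivity
  have htc : ∀ i, (1 / 4096 : ℝ) ^ (i + 1) = t i * c i := by
    intro i
    simp only [t, c]
    rw [← mul_assoc, ← mul_pow]; norm_num
  have hmaps : ∀ U ∈ univ.filter (Valid Fc τ), prof τ U ∈
      Fintype.piFinset (fun _ : Fin m => range (N + 1)) := by
    intro U _
    rw [Fintype.mem_piFinset]
    intro i
    exact mem_range.mpr (Nat.lt_succ_of_le (card_le_univ _))
  rw [← sum_fiberwise_of_maps_to hmaps]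
  have hinner : ∀ u ∈ Fintype.piFinset (fun _ : Fin m => range (N + 1)),
      ∑ U ∈ (univ.filter (Valid Fc τ)) with prof τ U = u,
        ∏ x ∈ U, (1 / 4096 : ℝ) ^ ((τ x : ℕ) + 1) ≤
        (1 / 16) * ∏ i : Fin m, (16 * Real.exp 1 * c i) ^ u i := by
    intro u _
    let s : Fin m → ℕ := fun i => ∑ k : Fin m with k ≤ i, u k
    let Ft : Finset α := univ.filter (fun x => ∃ i : Fin m, (τ x : ℕ) = i ∧ x ∈ Fc τ s i)
    by_cases hu : ∑ i, u i = 0
    · rw [sum_eq_zero]
      · positivity
      · intro U hU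
        exfalso
        obtain ⟨h1, h2⟩ := mem_filter.mp hU
        obtain ⟨hne, hv⟩ := (mem_filter.mp h1).2
        have := card_eq_prof τ U (fun x hx => by
          obtain ⟨i, hi, _⟩ := hv x hx
          rw [hi]; exact i.2)
        rw [h2, hu, card_eq_zero] at this
        exact hne.ne_empty this
    have hstep1 : ∑ U ∈ (univ.filter (Valid Fc τ)) with prof τ U = u,
        ∏ x ∈ U, (1 / 4096 : ℝ) ^ ((τ x : ℕ) + 1) ≤
        ∑ U ∈ Ft.powerset, (∏ x ∈ U, t (τ x)) * ∏ i : Fin m, c i ^ u i := by
      calc _ = ∑ U ∈ (univ.filter (Valid Fc τ)) with prof τ U = u,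
            (∏ x ∈ U, t (τ x)) * ∏ i : Fin m, c i ^ u i := by
            refine sum_congr rfl fun U hU => ?_
            obtain ⟨h1, h2⟩ := mem_filter.mp hU
            obtain ⟨hne, hv⟩ := (mem_filter.mp h1).2
            rw [← h2, ← prod_eq_prof τ U (fun x hx => by
              obtain ⟨i, hi, _⟩ := hv x hx
              rw [hi]; exact i.2) c, ← prod_mul_distrib]
            exact prod_congr rfl fun x _ => htc _
        _ ≤ _ := by
            refine sum_le_sum_of_subset_of_nonneg ?_ (fun U _ _ => ?_)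
            · intro U hU
              obtain ⟨h1, h2⟩ := mem_filter.mp hU
              obtain ⟨hne, hv⟩ := (mem_filter.mp h1).2
              have hb : bud τ U = s := by
                funext i
                rw [bud_eq_prof, h2]
              rw [mem_powerset]
              intro x hx
              rw [hb] at hv
              exact mem_filter.mpr ⟨mem_univ _, hv x hx⟩
            · exact mul_nonneg (prod_nonneg fun x _ => ht0 _)
                (prod_nonneg fun i _ => pow_nonneg (hc0 _) _)
    have hstep2 : ∑ U ∈ Ft.powerset, ∏ x ∈ U, t (τ x) ≤ Real.exp (∑ i, u i : ℕ) := by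
      rw [← prod_one_add]
      calc ∏ x ∈ Ft, (1 + t (τ x)) ≤ ∏ x ∈ Ft, Real.exp (t (τ x)) :=
            prod_le_prod (fun x _ => by have := ht0 (τ x); linarith)
              (fun x _ => by have := Real.add_one_le_exp (t (τ x)); linarith)
        _ = Real.exp (∑ x ∈ Ft, t (τ x)) := (Real.exp_sum _ _).symm
        _ ≤ _ := by
            apply Real.exp_le_exp.mpr
            calc ∑ x ∈ Ft, t (τ x) ≤ ∑ x ∈ Ft, ∑ i : Fin m, if x ∈ Fc τ s i then t i else 0 := by
                  refine sum_le_sum fun x hx => ?_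
                  obtain ⟨i, hi, hxi⟩ := (mem_filter.mp hx).2
                  refine le_trans ?_ (single_le_sum (f := fun i : Fin m =>
                    if x ∈ Fc τ s i then t i else 0) (fun k _ => ?_) (mem_univ i))
                  · simp only [if_pos hxi, hi, le_refl]
                  · split_ifs
                    · exact ht0 _
                    · exact le_rfl
              _ ≤ ∑ i : Fin m, (1 / 2 : ℝ) ^ ((i : ℕ) + 1) * (∑ i, u i : ℕ) := by
                  rw [sum_comm]
                  refine sum_le_sum fun i _ => ?_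
                  rw [← sum_filter, sum_const, nsmul_eq_mul]
                  have h1 : (Ft.filter (fun x => x ∈ Fc τ s i)).card ≤ 2 ^ ((i : ℕ) + 2) * ∑ i, u i := by
                    refine le_trans (card_le_card fun x hx => (mem_filter.mp hx).2)
                      ((hF1 τ s i).trans (Nat.mul_le_mul_left _ ?_))
                    exact sum_le_sum_of_subset (filter_subset _ _)
                  have h2 : ((Ft.filter (fun x => x ∈ Fc τ s i)).card : ℝ) ≤
                      2 ^ ((i : ℕ) + 2) * (∑ i, u i : ℕ) := by exact_mod_cast h1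
                  refine le_trans (mul_le_mul_of_nonneg_right h2 (ht0 _)) (le_of_eq ?_)
                  simp only [t]
                  have : (1 / 2 : ℝ) ^ (2 * (i : ℕ) + 3) =
                      (1 / 2) ^ ((i : ℕ) + 2) * (1 / 2) ^ ((i : ℕ) + 1) := by
                    rw [← pow_add]; congr 1; ring
                  rw [this]
                  have h3 : (2 : ℝ) ^ ((i : ℕ) + 2) * (1 / 2) ^ ((i : ℕ) + 2) = 1 := by
                    rw [← mul_pow]; norm_num
                  linear_combination ((∑ i, u i : ℕ) : ℝ) * (1 / 2) ^ ((i : ℕ) + 1) * h3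
              _ ≤ _ := by
                  rw [← sum_mul]
                  have := sum_half_pow_le m
                  have h4 : (0 : ℝ) ≤ (∑ i, u i : ℕ) := Nat.cast_nonneg _
                  nlinarith
    refine hstep1.trans ?_
    rw [← sum_mul]
    have hpc : 0 ≤ ∏ i : Fin m, c i ^ u i := prod_nonneg fun i _ => pow_nonneg (hc0 _) _
    refine (mul_le_mul_of_nonneg_right hstep2 hpc).trans ?_
    simp_rw [mul_pow]
    rw [prod_mul_distrib, prod_mul_distrib, prod_pow_eq_pow_sum, prod_pow_eq_pow_sum,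
      Real.exp_one_pow]
    have h16 : (16 : ℝ) ≤ 16 ^ (∑ i, u i) := le_self_pow₀ (by norm_num) hu
    have he : 0 ≤ Real.exp (∑ i, u i : ℕ) * ∏ i : Fin m, c i ^ u i :=
      mul_nonneg (Real.exp_pos _).le hpc
    nlinarith
  refine (sum_le_sum hinner).trans ?_
  rw [← mul_sum, ← prod_univ_sum (fun _ : Fin m => range (N + 1))
    (fun i k => (16 * Real.exp 1 * c i) ^ k)]
  have hci : ∀ i : ℕ, 16 * Real.exp 1 * c i ≤ (1 / 4) * (1 / 2 : ℝ) ^ (i + 1) := by
    intro i
    have he : Real.exp 1 ≤ 3 := (Real.exp_one_lt_d9.le).trans (by norm_num)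
    have h1 : c i = (1 / 512) * (1 / 1024 : ℝ) ^ i := by
      simp only [c]
      rw [pow_succ, pow_succ (1 / 4096 : ℝ), pow_add, pow_mul]
      have : (1 / 1024 : ℝ) ^ i = (2 ^ 2) ^ i * (1 / 4096) ^ i := by
        rw [← mul_pow]; norm_num
      rw [this]; ring
    have h2 : (1 / 1024 : ℝ) ^ i ≤ (1 / 2) ^ i := pow_le_pow_left₀ (by norm_num) (by norm_num) _
    have h3 : (0 : ℝ) ≤ (1 / 1024 : ℝ) ^ i := by positivity
    rw [h1, pow_succ]
    nlinarith [Real.exp_pos 1]
  have hprod : ∏ i : Fin m, ∑ k ∈ range (N + 1), (16 * Real.exp 1 * c i) ^ k ≤ 2 := by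
    calc _ ≤ ∏ i : Fin m, Real.exp ((1 / 2) * (1 / 2 : ℝ) ^ ((i : ℕ) + 1)) := by
          refine prod_le_prod (fun i _ => sum_nonneg fun k _ => by
            have := hc0 i; positivity) (fun i _ => ?_)
          have h0 : 0 ≤ 16 * Real.exp 1 * c i := by have := hc0 i; positivity
          have h1 := hci i
          have h2 : (1 / 2 : ℝ) ^ ((i : ℕ) + 1) ≤ 1 := pow_le_one₀ (by norm_num) (by norm_num)
          refine (geom_le _ h0 (by linarith) _).trans ?_
          have := Real.add_one_le_exp ((1 / 2) * (1 / 2 : ℝ) ^ ((i : ℕ) + 1))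
          linarith
      _ = Real.exp (∑ i : Fin m, (1 / 2) * (1 / 2 : ℝ) ^ ((i : ℕ) + 1)) := (Real.exp_sum _ _).symm
      _ ≤ Real.exp (1 / 2) := by
          apply Real.exp_le_exp.mpr
          rw [← mul_sum]
          have := sum_half_pow_le m
          linarith
      _ ≤ 2 := by
          have h1 : Real.exp (1 / 2) * Real.exp (1 / 2) = Real.exp 1 := by
            rw [← Real.exp_add]; norm_num
          have he : Real.exp 1 ≤ 3 := (Real.exp_one_lt_d9.le).trans (by norm_num)
          nlinarith [Real.exp_pos (1 / 2)]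
  linarith

open Classical in
/-- Expected cost of the fragment cover. -/
lemma expected_cost_le (Fc : (α → Fin (m + 1)) → (Fin m → ℕ) → Fin m → Finset α)
    (hF1 : ∀ τ s i, (Fc τ s i).card ≤ 2 ^ ((i : ℕ) + 2) * s i) (p : ℝ) (hp : 0 ≤ p)
    (π : Fin (m + 1) → ℝ) (hπ0 : ∀ i, 0 ≤ π i) (hπ1 : ∑ i, π i = 1)
    (hπ : ∀ i : Fin (m + 1), (i : ℕ) < m → 4096 ^ ((i : ℕ) + 1) * p ≤ π i) :
    ∑ τ : α → Fin (m + 1), (∏ x, π (τ x)) *
      ∑ U : Finset α with (∃ τ' : α → Fin (m + 1), (∀ x, x ∉ U → τ' x = τ x) ∧ Valid Fc τ' U),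
        p ^ U.card ≤ 1 / 8 := by
  have hw : ∀ τ : α → Fin (m + 1), 0 ≤ ∏ x, π (τ x) := fun τ => prod_nonneg fun x _ => hπ0 _
  have hsum1 : ∑ τ : α → Fin (m + 1), ∏ x, π (τ x) = 1 := by
    have := prod_univ_sum (fun _ : α => (univ : Finset (Fin (m + 1)))) (fun _ k => π k)
    rw [Fintype.piFinset_univ] at this
    rw [← this]; simp [hπ1]
  calc _ ≤ ∑ τ : α → Fin (m + 1), ∑ U : Finset α, ∑ τ' : α → Fin (m + 1),
        if (∀ x, x ∉ U → τ' x = τ x) ∧ Valid Fc τ' U then (∏ x, π (τ x)) * p ^ U.card else 0 := by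
        refine sum_le_sum fun τ _ => ?_
        rw [mul_sum, sum_filter]
        refine sum_le_sum fun U _ => ?_
        have hnn : ∀ τ' : α → Fin (m + 1), 0 ≤ (if (∀ x, x ∉ U → τ' x = τ x) ∧ Valid Fc τ' U then
            (∏ x, π (τ x)) * p ^ U.card else 0) := by
          intro τ'
          split_ifs
          · exact mul_nonneg (hw τ) (pow_nonneg hp _)
          · exact le_rfl
        split_ifs with h
        · obtain ⟨τ', h⟩ := h
          refine le_trans ?_ (single_le_sum (fun k _ => hnn k) (mem_univ τ'))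
          rw [if_pos h]
        · exact sum_nonneg fun k _ => hnn k
    _ = ∑ τ' : α → Fin (m + 1), ∑ U : Finset α, ∑ τ : α → Fin (m + 1),
        if (∀ x, x ∉ U → τ' x = τ x) ∧ Valid Fc τ' U then (∏ x, π (τ x)) * p ^ U.card else 0 := by
        rw [sum_comm]
        conv_rhs => rw [sum_comm]
        exact sum_congr rfl fun U _ => sum_comm
    _ ≤ ∑ τ' : α → Fin (m + 1), (∏ x, π (τ' x)) *
        ∑ U with Valid Fc τ' U, ∏ x ∈ U, (1 / 4096 : ℝ) ^ ((τ' x : ℕ) + 1) := by
        refine sum_le_sum fun τ' _ => ?_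
        rw [mul_sum, sum_filter]
        refine sum_le_sum fun U _ => ?_
        by_cases hv : Valid Fc τ' U
        · simp only [hv, and_true, if_true]
          rw [← sum_filter, ← sum_mul]
          have h1 : (univ.filter fun τ : α → Fin (m + 1) => ∀ x, x ∉ U → τ' x = τ x) =
              Fintype.piFinset (fun x => if x ∈ U then univ else {τ' x}) := by
            ext τ
            simp only [mem_filter, mem_univ, true_and, Fintype.mem_piFinset]
            refine forall_congr' fun x => ?_
            by_cases hx : x ∈ U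
            · simp [hx]
            · simp [hx, eq_comm]
          rw [h1, ← prod_univ_sum (fun x => if x ∈ U then univ else {τ' x}) (fun _ k => π k)]
          have h2 : p ^ U.card = ∏ x, if x ∈ U then p else 1 := by
            rw [← prod_filter, prod_const]; simp
          have h3 : ∏ x ∈ U, (1 / 4096 : ℝ) ^ ((τ' x : ℕ) + 1) =
              ∏ x, if x ∈ U then (1 / 4096 : ℝ) ^ ((τ' x : ℕ) + 1) else 1 := by
            rw [← prod_filter]; simp
          rw [h2, h3, ← prod_mul_distrib, ← prod_mul_distrib]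
          refine prod_le_prod (fun x _ => ?_) (fun x _ => ?_)
          · by_cases hx : x ∈ U
            · simp [hx, hπ1, hp]
            · simp [hx, hπ0]
          · by_cases hx : x ∈ U
            · simp only [hx, if_true, hπ1, one_mul]
              obtain ⟨i, hi, _⟩ := hv.2 x hx
              have h4 := hπ (τ' x) (by rw [hi]; exact i.2)
              have h5 : (0 : ℝ) < 4096 ^ ((τ' x : ℕ) + 1) := by positivity
              rw [one_div, inv_pow, ← div_eq_mul_inv, le_div_iff₀ h5]
              linarith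
            · simp [hx]
        · simp [hv]
    _ ≤ ∑ τ' : α → Fin (m + 1), (∏ x, π (τ' x)) * (1 / 8) :=
        sum_le_sum fun τ' _ => mul_le_mul_of_nonneg_left (valid_sum_le Fc hF1 τ') (hw τ')
    _ = 1 / 8 := by rw [← sum_mul, hsum1, one_mul]

end Count

end Crest.Agent.Tal
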