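import Mathlib

/-!
A signed two-point kernel turns a large event into a cheap fractional cover of the sets that two
outcomes of the event cannot cover.
-/

set_option autoImplicit false
set_option linter.unusedSectionVars false

namespace Crest.Agent.Tal

open Finset

section Fourier

variable {X Ω : Type*} [Fintype X] [DecidableEq X] [Fintype Ω]

lemma sum_prod_eq {R : Type*} [CommSemiring R] (f : X → Ω → R) :
    ∑ a : X → Ω, ∏ x, f x (a x) = ∏ x, ∑ ω, f x ω := by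
  classical
  have := prod_univ_sum (fun _ : X => (univ : Finset Ω)) f
  rw [Fintype.piFinset_univ] at this
  exact this.symm

lemma prod_mem_eq {R : Type*} [CommMonoid R] (T : Finset X) (f : X → R) :
    ∏ x ∈ T, f x = ∏ x, if x ∈ T then f x else 1 := by
  rw [← prod_filter]; simp

lemma orth (π ψ : Ω → ℝ) (hπ1 : ∑ ω, π ω = 1) (hψ : ∑ ω, π ω * ψ ω = 0) (T T' : Finset X) :
    ∑ a : X → Ω, (∏ x, π (a x)) * ((∏ x ∈ T, ψ (a x)) * ∏ x ∈ T', ψ (a x)) =
      if T = T' then (∑ ω, π ω * ψ ω ^ 2) ^ T.card else 0 := by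
  have h1 : ∀ a : X → Ω, (∏ x, π (a x)) * ((∏ x ∈ T, ψ (a x)) * ∏ x ∈ T', ψ (a x)) =
      ∏ x, π (a x) * ((if x ∈ T then ψ (a x) else 1) * if x ∈ T' then ψ (a x) else 1) := by
    intro a
    rw [prod_mem_eq T, prod_mem_eq T', ← prod_mul_distrib, ← prod_mul_distrib]
  simp_rw [h1]
  rw [sum_prod_eq (fun x ω => π ω * ((if x ∈ T then ψ ω else 1) * if x ∈ T' then ψ ω else 1))]
  split_ifs with h
  · subst h
    rw [← prod_const, prod_mem_eq T]
    refine prod_congr rfl fun x _ => ?_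
    split_ifs with hx
    · exact sum_congr rfl fun ω _ => by ring
    · simp [hπ1]
  · have : ∃ x, ¬ (x ∈ T ↔ x ∈ T') := by
      by_contra hc
      push Not at hc
      exact h (Finset.ext hc)
    obtain ⟨x, hx⟩ := this
    refine prod_eq_zero (mem_univ x) ?_
    by_cases h1 : x ∈ T <;> by_cases h2 : x ∈ T' <;> simp_all

lemma bessel (π ψ : Ω → ℝ) (hπ0 : ∀ ω, 0 ≤ π ω) (hπ1 : ∑ ω, π ω = 1)
    (hψ : ∑ ω, π ω * ψ ω = 0) (v : ℝ) (hv : ∑ ω, π ω * ψ ω ^ 2 = v) (hv0 : 0 < v)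
    (g : (X → Ω) → ℝ) :
    ∑ T : Finset X, (∑ a : X → Ω, (∏ x, π (a x)) * (g a * ∏ x ∈ T, ψ (a x))) ^ 2 / v ^ T.card ≤
      ∑ a : X → Ω, (∏ x, π (a x)) * g a ^ 2 := by
  set c : Finset X → ℝ := fun T => ∑ a : X → Ω, (∏ x, π (a x)) * (g a * ∏ x ∈ T, ψ (a x)) with hc
  set d : Finset X → ℝ := fun T => c T / v ^ T.card with hd
  have h0 : 0 ≤ ∑ a : X → Ω, (∏ x, π (a x)) * (g a - ∑ T, d T * ∏ x ∈ T, ψ (a x)) ^ 2 :=
    sum_nonneg fun a _ => mul_nonneg (prod_nonneg fun x _ => hπ0 _) (sq_nonneg _)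
  have h1 : ∑ a : X → Ω, (∏ x, π (a x)) * (g a * ∑ T, d T * ∏ x ∈ T, ψ (a x)) =
      ∑ T, d T * c T := by
    simp only [hc, mul_sum]
    rw [sum_comm]
    exact sum_congr rfl fun T _ => sum_congr rfl fun a _ => by ring
  have h2 : ∑ a : X → Ω, (∏ x, π (a x)) * (∑ T, d T * ∏ x ∈ T, ψ (a x)) ^ 2 =
      ∑ T, d T * c T := by
    have h3 : ∀ a : X → Ω, (∏ x, π (a x)) * (∑ T, d T * ∏ x ∈ T, ψ (a x)) ^ 2 =
        ∑ T, ∑ T', d T * d T' *
          ((∏ x, π (a x)) * ((∏ x ∈ T, ψ (a x)) * ∏ x ∈ T', ψ (a x))) := by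
      intro a
      rw [sq, sum_mul_sum, mul_sum]
      refine sum_congr rfl fun T _ => ?_
      rw [mul_sum]
      exact sum_congr rfl fun T' _ => by ring
    simp_rw [h3]
    rw [sum_comm]
    refine sum_congr rfl fun T _ => ?_
    rw [sum_comm]
    simp_rw [← mul_sum, orth π ψ hπ1 hψ, hv]
    simp only [mul_ite, mul_zero, sum_ite_eq, mem_univ, if_true, hd]
    have : v ^ T.card ≠ 0 := by positivity
    field_simp
  have h4 : ∑ a : X → Ω, (∏ x, π (a x)) * (g a - ∑ T, d T * ∏ x ∈ T, ψ (a x)) ^ 2 =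
      ∑ a : X → Ω, (∏ x, π (a x)) * g a ^ 2 -
        2 * ∑ a : X → Ω, (∏ x, π (a x)) * (g a * ∑ T, d T * ∏ x ∈ T, ψ (a x)) +
        ∑ a : X → Ω, (∏ x, π (a x)) * (∑ T, d T * ∏ x ∈ T, ψ (a x)) ^ 2 := by
    rw [mul_sum, ← sum_sub_distrib, ← sum_add_distrib]
    exact sum_congr rfl fun a _ => by ring
  rw [h4, h1, h2] at h0
  have h5 : ∑ T : Finset X, c T ^ 2 / v ^ T.card = ∑ T, d T * c T :=
    sum_congr rfl fun T _ => by simp only [hd]; ring
  change ∑ T : Finset X, c T ^ 2 / v ^ T.card ≤ _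
  linarith

open Classical in
theorem fourier_cover (π : Ω → ℝ) (hπ0 : ∀ ω, 0 ≤ π ω) (hπ1 : ∑ ω, π ω = 1) (Z : Ω → Prop)
    (z : ℝ) (hz : ∑ ω with Z ω, π ω = z) (hz0 : 0 < z) (hz1 : z < 1) (G : (X → Ω) → Prop)
    (μ : ℝ) (hμ : ∑ a : X → Ω with G a, ∏ x, π (a x) = μ) (hμ0 : 0 < μ) :
    ∃ w : Finset X → ℝ, (∀ T, 0 ≤ w T) ∧ w ∅ = 0 ∧
      ∑ T, w T * ((1 - z) / z) ^ T.card ≤ (1 - μ) / μ ∧
      ∀ S : Finset X, (∀ a b, G a → G b → ∃ x ∈ S, Z (a x) ∧ Z (b x)) →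
        1 ≤ ∑ T ∈ S.powerset, w T := by
  let ψ : Ω → ℝ := fun ω => (if Z ω then 1 else 0) - z
  let g : (X → Ω) → ℝ := fun a => if G a then 1 else 0
  have hzs : ∑ ω, π ω * (if Z ω then 1 else 0) = z := by
    rw [← hz, sum_filter]; exact sum_congr rfl fun ω _ => by split_ifs <;> simp
  have hψ : ∑ ω, π ω * ψ ω = 0 := by
    simp only [ψ, mul_sub, sum_sub_distrib, hzs, ← sum_mul, hπ1]; ring
  have hv : ∑ ω, π ω * ψ ω ^ 2 = z * (1 - z) := by
    have : ∀ ω, π ω * ψ ω ^ 2 = (1 - 2 * z) * (π ω * (if Z ω then 1 else 0)) + z ^ 2 * π ω := by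
      intro ω; simp only [ψ]; split_ifs <;> ring
    simp_rw [this]
    rw [sum_add_distrib, ← mul_sum, ← mul_sum, hzs, hπ1]; ring
  have h1z : 0 < 1 - z := by linarith
  have hv0 : 0 < z * (1 - z) := by positivity
  set c : Finset X → ℝ := fun T => ∑ a : X → Ω, (∏ x, π (a x)) * (g a * ∏ x ∈ T, ψ (a x)) with hc
  have hc0 : c ∅ = μ := by
    simp only [hc, g, prod_empty, mul_one]
    rw [← hμ, sum_filter]; exact sum_congr rfl fun a _ => by split_ifs <;> simp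
  have hg2 : ∑ a : X → Ω, (∏ x, π (a x)) * g a ^ 2 = μ := by
    rw [← hμ, sum_filter]; exact sum_congr rfl fun a _ => by simp only [g]; split_ifs <;> simp
  have hB := bessel (X := X) π ψ hπ0 hπ1 hψ _ hv hv0 g
  rw [hg2] at hB
  change ∑ T : Finset X, c T ^ 2 / (z * (1 - z)) ^ T.card ≤ μ at hB
  refine ⟨fun T => if T = ∅ then 0 else c T ^ 2 / (((1 - z) ^ 2) ^ T.card * μ ^ 2),
    fun T => ?_, by simp, ?_, fun S hS => ?_⟩
  · dsimp only; split_ifs
    · exact le_rfl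
    · positivity
  · rw [← add_sum_erase _ _ (mem_univ (∅ : Finset X))] at hB ⊢
    simp only [if_true, zero_mul, zero_add, card_empty, pow_zero, div_one, hc0] at hB ⊢
    have h3 : ∑ T ∈ univ.erase (∅ : Finset X), (if T = ∅ then 0 else
        c T ^ 2 / (((1 - z) ^ 2) ^ T.card * μ ^ 2)) * ((1 - z) / z) ^ T.card =
        (∑ T ∈ univ.erase (∅ : Finset X), c T ^ 2 / (z * (1 - z)) ^ T.card) / μ ^ 2 := by
      rw [sum_div]
      refine sum_congr rfl fun T hT => ?_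
      rw [if_neg (ne_of_mem_erase hT), div_pow, mul_pow, ← pow_mul, mul_comm 2, pow_mul]
      field_simp
    rw [h3, div_le_div_iff₀ (by positivity) hμ0]
    nlinarith
  · -- the kernel identity
    have hQ : ∑ T ∈ S.powerset, (-1 / (1 - z) ^ 2) ^ T.card * c T ^ 2 = 0 := by
      have h1 : ∀ T : Finset X, (-1 / (1 - z) ^ 2) ^ T.card * c T ^ 2 =
          ∑ a : X → Ω, ∑ b : X → Ω, ((∏ x, π (a x)) * (∏ x, π (b x)) * (g a * g b)) *
            ∏ x ∈ T, (-1 / (1 - z) ^ 2 * (ψ (a x) * ψ (b x))) := by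
        intro T
        rw [sq (c T)]
        simp only [hc]
        rw [sum_mul_sum, mul_sum]
        refine sum_congr rfl fun a _ => ?_
        rw [mul_sum]
        refine sum_congr rfl fun b _ => ?_
        rw [prod_mul_distrib, prod_mul_distrib, prod_const]; ring
      simp_rw [h1]
      rw [sum_comm]
      refine sum_eq_zero fun a _ => ?_
      rw [sum_comm]
      refine sum_eq_zero fun b _ => ?_
      rw [← mul_sum, ← prod_one_add]
      by_cases ha : G a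
      · by_cases hb : G b
        · obtain ⟨x, hx, h1, h2⟩ := hS a b ha hb
          rw [prod_eq_zero hx, mul_zero]
          simp only [ψ, h1, h2, if_true]
          field_simp
          ring
        · simp [g, hb]
      · simp [g, ha]
    rw [← add_sum_erase _ _ (empty_mem_powerset S)] at hQ ⊢
    simp only [if_true, zero_add, card_empty, pow_zero, one_mul, hc0] at hQ ⊢
    have h3 : ∑ T ∈ S.powerset.erase (∅ : Finset X), (if T = ∅ then 0 else
        c T ^ 2 / (((1 - z) ^ 2) ^ T.card * μ ^ 2)) =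
        (∑ T ∈ S.powerset.erase (∅ : Finset X), c T ^ 2 / ((1 - z) ^ 2) ^ T.card) / μ ^ 2 := by
      rw [sum_div]
      refine sum_congr rfl fun T hT => ?_
      rw [if_neg (ne_of_mem_erase hT), div_div]
    rw [h3, le_div_iff₀ (by positivity)]
    have h4 : -∑ T ∈ S.powerset.erase (∅ : Finset X), (-1 / (1 - z) ^ 2) ^ T.card * c T ^ 2 ≤
        ∑ T ∈ S.powerset.erase (∅ : Finset X), c T ^ 2 / ((1 - z) ^ 2) ^ T.card := by
      rw [← sum_neg_distrib]
      refine sum_le_sum fun T _ => ?_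
      have h5 : |(-1 / (1 - z) ^ 2) ^ T.card| = 1 / ((1 - z) ^ 2) ^ T.card := by
        rw [abs_pow, abs_div, abs_neg, abs_one, abs_of_pos (by positivity), div_pow, one_pow]
      have h6 := neg_abs_le ((-1 / (1 - z) ^ 2) ^ T.card)
      rw [h5] at h6
      have h7 := mul_le_mul_of_nonneg_right h6 (sq_nonneg (c T))
      have h8 : c T ^ 2 / ((1 - z) ^ 2) ^ T.card = 1 / ((1 - z) ^ 2) ^ T.card * c T ^ 2 := by ring
      linarith
    linarith

end Fourier

end Crest.Agent.Tal
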