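import Mathlib

/-!
Multi-level minimal fragments: the combinatorial core of the comparison between fractional and
integral covers.
-/

set_option autoImplicit false
set_option linter.unusedSectionVars false

namespace Crest.Agent.Tal

open Finset

section Frag

variable {α : Type*} [Fintype α] [DecidableEq α] {m : ℕ}

/-- Admissible thresholds `ε` for the weight `μ`, the level function `τ` and the budget `s`. -/
def Adm (μ : α → ℝ) (τ : α → Fin (m + 1)) (s : Fin m → ℕ) (ε : Fin m → ℝ) : Prop :=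
  ∀ i : Fin m, 0 ≤ ε i ∧ (∀ x, ε i < μ x → (τ x : ℕ) ≤ i) ∧
    ∑ x with (i : ℕ) < τ x, min (μ x) (ε i) + ε i * s i
      ≤ (1 / 2 : ℝ) ^ ((i : ℕ) + 2) * ∑ x, min (μ x) (ε i)

/-- The heavy set. -/
noncomputable def heavy (μ : α → ℝ) (e : ℝ) : Finset α := univ.filter (fun x => e < μ x)

lemma mem_heavy {μ : α → ℝ} {e : ℝ} {x : α} : x ∈ heavy μ e ↔ e < μ x := by
  simp [heavy]

/-- Among admissible pairs there is one with small heavy sets. -/
lemma exists_small_adm {ι : Type*} (μ : ι → α → ℝ) (τ : α → Fin (m + 1)) (s : Fin m → ℕ)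
    (h : ∃ j ε, Adm (μ j) τ s ε) :
    ∃ j ε, Adm (μ j) τ s ε ∧ ∀ i, (heavy (μ j) (ε i)).card ≤ 2 ^ ((i : ℕ) + 2) * s i := by
  classical
  obtain ⟨j, ε₀, h₀⟩ := h
  have hex : ∃ n, ∃ ε, Adm (μ j) τ s ε ∧ ∑ i, (heavy (μ j) (ε i)).card = n := ⟨_, ε₀, h₀, rfl⟩
  obtain ⟨ε, hε, hn⟩ := Nat.find_spec hex
  refine ⟨j, ε, hε, fun i => ?_⟩
  by_contra hlt
  push Not at hlt
  have hne : (heavy (μ j) (ε i)).Nonempty := card_pos.mp (lt_of_le_of_lt (Nat.zero_le _) hlt)
  obtain ⟨x₀, hx₀, hmin⟩ := exists_min_image _ (μ j) hne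
  set e' := μ j x₀ with he'
  have hee : ε i < e' := mem_heavy.mp hx₀
  have hmin' : ∀ x, min (μ j x) e' = min (μ j x) (ε i) +
      (if x ∈ heavy (μ j) (ε i) then e' - ε i else 0) := by
    intro x
    by_cases hx : x ∈ heavy (μ j) (ε i)
    · have h1 := hmin x hx
      have h2 := mem_heavy.mp hx
      rw [if_pos hx, min_eq_right h1, min_eq_right h2.le]; ring
    · have h2 : μ j x ≤ ε i := by simpa [mem_heavy] using hx
      rw [if_neg hx, min_eq_left h2, min_eq_left (h2.trans hee.le)]; ring
  have hadm : Adm (μ j) τ s (Function.update ε i e') := by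
    intro k
    by_cases hk : k = i
    · subst hk
      simp only [Function.update_self]
      obtain ⟨h1, h2, h3⟩ := hε k
      refine ⟨h1.trans hee.le, fun x hx => h2 x (hee.trans hx), ?_⟩
      have hA : ∑ x with (k : ℕ) < τ x, min (μ j x) e' =
          ∑ x with (k : ℕ) < τ x, min (μ j x) (ε k) := by
        refine sum_congr rfl fun x hx => ?_
        have hx' : (k : ℕ) < τ x := (mem_filter.mp hx).2
        have : x ∉ heavy (μ j) (ε k) := fun hh => by
          have := h2 x (mem_heavy.mp hh); omega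
        rw [hmin' x, if_neg this, add_zero]
      have hB : ∑ x, min (μ j x) e' = ∑ x, min (μ j x) (ε k) +
          (heavy (μ j) (ε k)).card * (e' - ε k) := by
        simp_rw [hmin']
        rw [sum_add_distrib, ← sum_filter]
        simp [mul_sub]
      rw [hA, hB]
      have hc : (2 : ℝ) ^ ((k : ℕ) + 2) * s k ≤ (heavy (μ j) (ε k)).card := by
        exact_mod_cast hlt.le
      have hp : (0 : ℝ) < 2 ^ ((k : ℕ) + 2) := by positivity
      have hc' : (s k : ℝ) ≤ (1 / 2 : ℝ) ^ ((k : ℕ) + 2) * (heavy (μ j) (ε k)).card := by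
        rw [one_div, inv_pow, inv_mul_eq_div, le_div_iff₀ hp]; linarith
      have hd : 0 ≤ e' - ε k := by linarith
      nlinarith [mul_le_mul_of_nonneg_left hc' hd]
    · simpa [Function.update_of_ne hk] using hε k
  have hlt2 : ∑ k, (heavy (μ j) (Function.update ε i e' k)).card <
      ∑ k, (heavy (μ j) (ε k)).card := by
    refine sum_lt_sum (fun k _ => ?_) ⟨i, mem_univ _, ?_⟩
    · by_cases hk : k = i
      · subst hk
        simp only [Function.update_self]
        exact card_le_card fun x hx => mem_heavy.mpr (hee.trans (mem_heavy.mp hx))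
      · simp [Function.update_of_ne hk]
    · simp only [Function.update_self]
      refine card_lt_card ⟨fun x hx => mem_heavy.mpr (hee.trans (mem_heavy.mp hx)), ?_⟩
      intro hsub
      have := mem_heavy.mp (hsub hx₀)
      exact lt_irrefl _ this
  have := Nat.find_min' hex ⟨_, hadm, rfl⟩
  omega

/-- Canonical heavy sets. -/
lemma exists_canon {ι : Type*} (μ : ι → α → ℝ) :
    ∃ Fc : (α → Fin (m + 1)) → (Fin m → ℕ) → Fin m → Finset α,
      (∀ τ s i, (Fc τ s i).card ≤ 2 ^ ((i : ℕ) + 2) * s i) ∧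
      ∀ τ s, (∃ j ε, Adm (μ j) τ s ε) →
        ∃ j ε, Adm (μ j) τ s ε ∧ ∀ i, Fc τ s i = heavy (μ j) (ε i) := by
  classical
  have key : ∀ (τ : α → Fin (m + 1)) (s : Fin m → ℕ), ∃ Fi : Fin m → Finset α,
      (∀ i, (Fi i).card ≤ 2 ^ ((i : ℕ) + 2) * s i) ∧
      ((∃ j ε, Adm (μ j) τ s ε) → ∃ j ε, Adm (μ j) τ s ε ∧ ∀ i, Fi i = heavy (μ j) (ε i)) := by
    intro τ s
    by_cases h : ∃ j ε, Adm (μ j) τ s ε
    · obtain ⟨j, ε, h1, h2⟩ := exists_small_adm μ τ s h
      exact ⟨fun i => heavy (μ j) (ε i), h2, fun _ => ⟨j, ε, h1, fun _ => rfl⟩⟩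
    · exact ⟨fun _ => ∅, by simp, fun h' => absurd h' h⟩
  choose Fc h1 h2 using key
  exact ⟨Fc, h1, h2⟩

/-- The budget vector of a set `U` under the level function `τ`. -/
def bud (τ : α → Fin (m + 1)) (U : Finset α) (i : Fin m) : ℕ :=
  (U.filter (fun x => (τ x : ℕ) ≤ i)).card

/-- Valid fragments for `τ'`. -/
def Valid (Fc : (α → Fin (m + 1)) → (Fin m → ℕ) → Fin m → Finset α) (τ' : α → Fin (m + 1))
    (U : Finset α) : Prop :=
  U.Nonempty ∧ ∀ x ∈ U, ∃ i : Fin m, (τ' x : ℕ) = i ∧ x ∈ Fc τ' (bud τ' U) i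

/-- The fragment lemma: for a bad level function every member contains a valid fragment. -/
lemma exists_fragment {ι : Type*} (Hs : ι → Finset α) (μ : ι → α → ℝ)
    (hμ0 : ∀ j x, 0 ≤ μ j x) (hsupp : ∀ j x, 0 < μ j x → x ∈ Hs j)
    (Fc : (α → Fin (m + 1)) → (Fin m → ℕ) → Fin m → Finset α)
    (hF1 : ∀ τ s i, (Fc τ s i).card ≤ 2 ^ ((i : ℕ) + 2) * s i)
    (hF2 : ∀ τ s, (∃ j ε, Adm (μ j) τ s ε) →
        ∃ j ε, Adm (μ j) τ s ε ∧ ∀ i, Fc τ s i = heavy (μ j) (ε i))
    (τ : α → Fin (m + 1))
    (hbad : ∀ j, ∃ i : Fin m,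
      (1 / 2 : ℝ) ^ ((i : ℕ) + 2) * ∑ x, μ j x < ∑ x with (i : ℕ) < τ x, μ j x)
    (j₀ : ι) :
    ∃ U ⊆ Hs j₀, ∃ τ' : α → Fin (m + 1), (∀ x, x ∉ U → τ' x = τ x) ∧ Valid Fc τ' U := by
  classical
  -- feasible modifications
  let Uof : (α → Fin (m + 1)) → Finset α := fun τ' => univ.filter (fun x => τ' x ≠ τ x)
  let Feas : (α → Fin (m + 1)) → Prop := fun τ' =>
    (∀ x, τ' x ≤ τ x) ∧ Uof τ' ⊆ Hs j₀ ∧ ∃ j ε, Adm (μ j) τ' (bud τ' (Uof τ')) ε
  have hne : (univ.filter Feas).Nonempty := by
    refine ⟨fun x => if x ∈ Hs j₀ then 0 else τ x, mem_filter.mpr ⟨mem_univ _, ?_, ?_, j₀, 0, ?_⟩⟩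
    · intro x; dsimp only; split_ifs <;> simp
    · intro x hx
      by_contra hx'
      simp [Uof, hx'] at hx
    · intro i
      refine ⟨le_rfl, fun x hx => ?_, ?_⟩
      · have := hsupp j₀ x hx
        simp [this]
      · have h0 : ∀ x, min (μ j₀ x) 0 = 0 := fun x => min_eq_right (hμ0 j₀ x)
        simp [h0]
  obtain ⟨τ', hτ', hmax⟩ := exists_max_image _ (fun t : α → Fin (m + 1) => ∑ x, (t x : ℕ)) hne
  obtain ⟨hle, hsub, hadm⟩ := (mem_filter.mp hτ').2
  obtain ⟨j, ε, hA, hFc⟩ := hF2 τ' _ hadm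
  refine ⟨Uof τ', hsub, τ', fun x hx => by simpa [Uof] using hx, ?_, ?_⟩
  · -- nonempty
    by_contra hemp
    rw [not_nonempty_iff_eq_empty] at hemp
    have hτ : τ' = τ := by
      funext x
      by_contra hx
      have : x ∈ Uof τ' := by simp [Uof, hx]
      rw [hemp] at this; simp at this
    obtain ⟨i, hi⟩ := hbad j
    have hs : bud τ' (Uof τ') i = 0 := by simp [bud, hemp]
    have hc := hF1 τ' (bud τ' (Uof τ')) i
    rw [hFc, hs, mul_zero, Nat.le_zero, card_eq_zero] at hc
    have hmin : ∀ x, min (μ j x) (ε i) = μ j x := by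
      intro x
      apply min_eq_left
      by_contra hx
      push Not at hx
      have : x ∈ heavy (μ j) (ε i) := mem_heavy.mpr hx
      rw [hc] at this; simp at this
    obtain ⟨_, _, h3⟩ := hA i
    rw [hs] at h3
    simp only [hmin, Nat.cast_zero, mul_zero, add_zero] at h3
    rw [hτ] at h3
    linarith
  · intro x hx
    have hxne : τ' x ≠ τ x := by simpa [Uof] using hx
    have hlt : (τ' x : ℕ) < τ x := lt_of_le_of_ne (hle x) (fun h => hxne (Fin.ext h))
    have hlm : (τ' x : ℕ) < m := by have := (τ x).2; omega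
    refine ⟨⟨τ' x, hlm⟩, rfl, ?_⟩
    rw [hFc]
    by_contra hxF
    have hxε : μ j x ≤ ε ⟨τ' x, hlm⟩ := by simpa [mem_heavy] using hxF
    -- raise `x` by one level
    let τ'' : α → Fin (m + 1) := Function.update τ' x ⟨τ' x + 1, by omega⟩
    have hτ''x : (τ'' x : ℕ) = τ' x + 1 := by simp [τ'']
    have hτ''y : ∀ y, y ≠ x → τ'' y = τ' y := fun y hy => by simp [τ'', hy]
    have hUsub : Uof τ'' ⊆ Uof τ' := by
      intro y hy
      by_cases hyx : y = x
      · rw [hyx]; exact hx
      · have : τ'' y ≠ τ y := by simpa [Uof] using hy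
        rw [hτ''y y hyx] at this
        simpa [Uof] using this
    have hfeas : Feas τ'' := by
      refine ⟨fun y => ?_, hUsub.trans hsub, j, ε, fun i => ?_⟩
      · by_cases hyx : y = x
        · rw [hyx, Fin.le_def, hτ''x]; omega
        · rw [hτ''y y hyx]; exact hle y
      · obtain ⟨h1, h2, h3⟩ := hA i
        refine ⟨h1, fun y hy => ?_, ?_⟩
        · by_cases hyx : y = x
          · subst hyx
            have h4 := h2 y hy
            rw [hτ''x]
            rcases lt_or_eq_of_le h4 with h5 | h5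
            · omega
            · exfalso
              have : (⟨τ' y, hlm⟩ : Fin m) = i := Fin.ext h5
              rw [this] at hxε
              linarith
          · rw [hτ''y y hyx]; exact h2 y hy
        · refine le_trans ?_ h3
          by_cases hi : (τ' x : ℕ) = i
          · -- the level of `x`
            have hfil : (univ.filter fun y => (i : ℕ) < τ'' y) =
                insert x (univ.filter fun y => (i : ℕ) < τ' y) := by
              ext y
              by_cases hyx : y = x
              · subst hyx; simp [hτ''x, hi]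
              · simp [hτ''y y hyx, hyx]
            have hxn : x ∉ (univ.filter fun y => (i : ℕ) < τ' y) := by simp [hi]
            rw [hfil, sum_insert hxn]
            have hb : bud τ'' (Uof τ'') i + 1 ≤ bud τ' (Uof τ') i := by
              have hx1 : x ∈ (Uof τ').filter (fun y => (τ' y : ℕ) ≤ i) :=
                mem_filter.mpr ⟨hx, hi.le⟩
              have : (Uof τ'').filter (fun y => (τ'' y : ℕ) ≤ i) ⊆
                  ((Uof τ').filter (fun y => (τ' y : ℕ) ≤ i)).erase x := by
                intro y hy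
                obtain ⟨hy1, hy2⟩ := mem_filter.mp hy
                have hyx : y ≠ x := by
                  rintro rfl
                  rw [hτ''x] at hy2; omega
                rw [hτ''y y hyx] at hy2
                exact mem_erase.mpr ⟨hyx, mem_filter.mpr ⟨hUsub hy1, hy2⟩⟩
              have h5 := card_le_card this
              rw [card_erase_of_mem hx1] at h5
              have h6 := card_pos.mpr ⟨x, hx1⟩
              unfold bud; omega
            have hb' : (bud τ'' (Uof τ'') i : ℝ) + 1 ≤ bud τ' (Uof τ') i := by exact_mod_cast hb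
            have h7 : min (μ j x) (ε i) ≤ ε i := min_le_right _ _
            nlinarith [mul_le_mul_of_nonneg_left hb' h1]
          · have hfil : (univ.filter fun y => (i : ℕ) < τ'' y) =
                (univ.filter fun y => (i : ℕ) < τ' y) := by
              ext y
              by_cases hyx : y = x
              · subst hyx; simp only [mem_filter, mem_univ, true_and, hτ''x]; omega
              · simp [hτ''y y hyx]
            rw [hfil]
            have hb : bud τ'' (Uof τ'') i ≤ bud τ' (Uof τ') i := by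
              apply card_le_card
              intro y hy
              obtain ⟨hy1, hy2⟩ := mem_filter.mp hy
              refine mem_filter.mpr ⟨hUsub hy1, ?_⟩
              by_cases hyx : y = x
              · subst hyx; rw [hτ''x] at hy2; omega
              · rwa [hτ''y y hyx] at hy2
            have hb' : (bud τ'' (Uof τ'') i : ℝ) ≤ bud τ' (Uof τ') i := by exact_mod_cast hb
            nlinarith [mul_le_mul_of_nonneg_left hb' h1]
    have h8 := hmax τ'' (mem_filter.mpr ⟨mem_univ _, hfeas⟩)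
    have h9 : ∑ y, (τ' y : ℕ) < ∑ y, (τ'' y : ℕ) := by
      refine sum_lt_sum (fun y _ => ?_) ⟨x, mem_univ _, by rw [hτ''x]; omega⟩
      by_cases hyx : y = x
      · rw [hyx, hτ''x]; omega
      · rw [hτ''y y hyx]
    omega

end Frag

end Crest.Agent.Tal
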