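import Crest.Prelude.Def_RandomGraph
import Crest.Agent.Tal.Prob

/-!
Embedding a layered system of back-neighbourhoods into the binomial random graph, one layer at a
time, by Hall's theorem.
-/

set_option autoImplicit false
set_option linter.unusedSectionVars false

namespace Crest.Agent.Tal

open Finset Crest.FinProb Crest.CombinatoricsR.RandomGraph

/-- The coin at the pair `a`, `b` (`false` on the diagonal). -/
def coin {n : ℕ} (ω : EdgeSlot n → Bool) (a b : Fin n) : Bool :=
  if h : a ≠ b then ω ⟨s(a, b), by simpa using h⟩ else false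

lemma adj_iff {n : ℕ} (ω : EdgeSlot n → Bool) (a b : Fin n) :
    (graphOf ω).Adj a b ↔ coin ω a b = true := by
  unfold graphOf coin
  rw [SimpleGraph.fromEdgeSet_adj]
  by_cases h : a = b
  · simp [h]
  · simp [h]

lemma coin_comm {n : ℕ} (ω : EdgeSlot n → Bool) (a b : Fin n) : coin ω a b = coin ω b a := by
  unfold coin
  by_cases h : a = b
  · simp [h]
  · have h' : b ≠ a := fun h' => h h'.symm
    rw [dif_pos h, dif_pos h']
    congr 2
    exact Sym2.eq_swap

lemma coin_congr {n : ℕ} {ω ω' : EdgeSlot n → Bool} {a b : Fin n}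
    (h : ∀ e : EdgeSlot n, e.1 = s(a, b) → ω e = ω' e) : coin ω a b = coin ω' a b := by
  unfold coin
  split_ifs with h1
  · exact h _ rfl
  · rfl

/-- The coins between `y` and the set `Z`. -/
def rowSet {n : ℕ} (Z : Finset (Fin n)) (y : Fin n) : Finset (EdgeSlot n) :=
  univ.filter (fun e => ∃ a ∈ Z, e.1 = s(a, y))

lemma rowSet_disjoint {n : ℕ} (Z : Finset (Fin n)) {y y' : Fin n} (hy : y ∉ Z) (h : y ≠ y') :
    Disjoint (rowSet Z y) (rowSet Z y') := by
  rw [disjoint_left]
  intro e h1 h2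
  obtain ⟨a, ha, h1⟩ := (mem_filter.mp h1).2
  obtain ⟨a', ha', h2⟩ := (mem_filter.mp h2).2
  rw [h1, Sym2.eq_iff] at h2
  rcases h2 with ⟨_, h2⟩ | ⟨_, h2⟩
  · exact h h2
  · exact hy (h2 ▸ ha')

lemma coin_of_rowSet {n : ℕ} {Z : Finset (Fin n)} {y a : Fin n} {ω ω' : EdgeSlot n → Bool}
    (h : ∀ e ∈ rowSet Z y, ω e = ω' e) (ha : a ∈ Z) : coin ω a y = coin ω' a y :=
  coin_congr fun e he => h e (mem_filter.mpr ⟨mem_univ _, a, ha, he⟩)

section Layer

variable {W : Type*} [Fintype W] [DecidableEq W] {n : ℕ}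

lemma Ex_row (q : ℝ) (A : Finset W) (φ : W → Fin n) (hφ : Set.InjOn φ A) (y : Fin n)
    (hy : ∀ u ∈ A, φ u ≠ y) (f : (W → Bool) → ℝ) (hf : DepOn A f) :
    Ex q (fun ω : EdgeSlot n → Bool => f (fun u => coin ω (φ u) y)) = Ex q f := by
  classical
  let f' : (A → Bool) → ℝ := fun b => f (fun u => if h : u ∈ A then b ⟨u, h⟩ else false)
  let e : A → EdgeSlot n := fun a => ⟨s(φ a, y), by simpa using hy a a.2⟩
  have he : Function.Injective e := by
    intro a b h
    have h1 : s(φ a, y) = s(φ b, y) := congrArg Subtype.val h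
    rw [Sym2.congr_left] at h1
    exact Subtype.ext (hφ a.2 b.2 h1)
  have h1 := Ex_comp_inj q e he f'
  have h2 := Ex_comp_inj q (Subtype.val : A → W) Subtype.val_injective f'
  have h3 : (fun ω : EdgeSlot n → Bool => f (fun u => coin ω (φ u) y)) =
      fun ω => f' (fun a => ω (e a)) := by
    funext ω
    refine hf _ _ fun u hu => ?_
    simp only [dif_pos hu, coin, dif_pos (hy u hu), e]
  have h4 : f = fun b : W → Bool => f' (fun a => b a) := by
    funext b
    refine hf _ _ fun u hu => ?_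
    simp only [dif_pos hu]
  rw [h3, h1, ← h2, ← h4]

/-- The probability that a random subset contains a member of the family. -/
noncomputable def upP (q : ℝ) (𝒰 : Finset (Finset W)) : ℝ :=
  Pr q (fun b : W → Bool => ∃ S ∈ 𝒰, ∀ x ∈ S, b x = true)

lemma pow_le_upP {q : ℝ} (h0 : 0 ≤ q) (h1 : q ≤ 1) {𝒰 : Finset (Finset W)} {S : Finset W}
    (hS : S ∈ 𝒰) : q ^ S.card ≤ upP q 𝒰 := by
  rw [← Pr_all q S]
  exact Pr_mono h0 h1 fun b hb => ⟨S, hS, hb⟩

lemma upP_empty (q : ℝ) : upP q (∅ : Finset (Finset W)) = 0 := Pr_false q (by simp)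

lemma card_small_subsets {β : Type*} [DecidableEq β] (s : Finset β) (t N : ℕ) (hN : 1 ≤ N)
    (hs : s.card ≤ N) : (s.powerset.filter (fun B => B.card ≤ t)).card ≤ (2 * N) ^ t := by
  have h1 : s.powerset.filter (fun B => B.card ≤ t) ⊆
      (range (t + 1)).biUnion (fun k => powersetCard k s) := by
    intro B hB
    obtain ⟨h1, h2⟩ := mem_filter.mp hB
    exact mem_biUnion.mpr ⟨B.card, mem_range.mpr (by omega),
      mem_powersetCard.mpr ⟨mem_powerset.mp h1, rfl⟩⟩
  refine (card_le_card h1).trans ((card_biUnion_le_card_mul _ _ (N ^ t) fun k hk => ?_).trans ?_)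
  · rw [card_powersetCard]
    refine (Nat.choose_le_pow _ _).trans ((Nat.pow_le_pow_left hs _).trans ?_)
    exact Nat.pow_le_pow_right hN (by have := mem_range.mp hk; omega)
  · rw [card_range, mul_pow]
    exact Nat.mul_le_mul_right _ (Nat.lt_two_pow_self)

/-- One layer. -/
lemma one_layer {q : ℝ} (h0 : 0 ≤ q) (h1 : q ≤ 1) (hW : Fintype.card W ≤ n) (hn : 1 ≤ n)
    (N : W → Finset W) (A B : Finset W) (hN : ∀ b ∈ B, N b ⊆ A) (φ : W → Fin n)
    (hφ : Set.InjOn φ A) (Y : Finset (Fin n)) (hY : ∀ u ∈ A, φ u ∉ Y) (t : ℕ) (κ y₀ : ℝ)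
    (hκ0 : 0 ≤ κ) (hκ : ∀ b ∈ B, κ ≤ q ^ (N b).card) (hy₀ : y₀ ≤ Y.card)
    (hHall : ∀ B' ⊆ B, B'.Nonempty → ∃ B'' ⊆ B', B''.card ≤ t ∧
      2 * (B'.card : ℝ) ≤ Y.card * upP q (B''.image N)) :
    1 - (2 * n : ℝ) ^ t * Real.exp (-(κ * y₀ / 8)) ≤
      Pr q (fun ω : EdgeSlot n → Bool => ∃ f : W → Fin n, Set.InjOn f B ∧
        ∀ b ∈ B, f b ∈ Y ∧ ∀ u ∈ N b, coin ω (φ u) (f b) = true) := by
  classical
  let E : Finset W → Fin n → (EdgeSlot n → Bool) → Prop := fun B'' y ω =>
    ∃ S ∈ B''.image N, ∀ x ∈ S, coin ω (φ x) y = true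
  let 𝓑 := (B.powerset.filter (fun B'' => B''.card ≤ t)).filter (fun B'' => B''.Nonempty)
  let Bad : Finset W → (EdgeSlot n → Bool) → Prop := fun B'' ω =>
    ∑ y ∈ Y, ind (E B'' y ω) < Y.card * upP q (B''.image N) / 2
  have hbad : ∀ B'' ∈ 𝓑, Pr q (Bad B'') ≤ Real.exp (-(κ * y₀ / 8)) := by
    intro B'' hB''
    obtain ⟨h2, h3⟩ := mem_filter.mp hB''
    have h4 : B'' ⊆ B := mem_powerset.mp (mem_filter.mp h2).1
    have hdep : DepOn A (fun b : W → Bool => ∃ S ∈ B''.image N, ∀ x ∈ S, b x = true) := by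
      intro b b' h
      refine propext (exists_congr fun S => and_congr_right fun hS => ?_)
      obtain ⟨v, hv, rfl⟩ := mem_image.mp hS
      exact forall₂_congr fun x hx => by rw [h x (hN v (h4 hv) hx)]
    refine (lower_tail h0 h1 Y (fun y => rowSet (A.image φ) y) (E B'') ?_ ?_
      (upP q (B''.image N)) ?_).trans ?_
    · intro y _ ω ω' h
      exact hdep (fun u => coin ω (φ u) y) (fun u => coin ω' (φ u) y)
        fun u hu => coin_of_rowSet h (mem_image_of_mem _ hu)
    · intro y hy y' _ hyy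
      refine rowSet_disjoint _ (fun h => ?_) hyy
      obtain ⟨u, hu, rfl⟩ := mem_image.mp h
      exact hY u hu hy
    · intro y hy
      refine le_of_eq (Ex_row q A φ hφ y (fun u hu h => hY u hu (h ▸ hy))
        (fun b => ind (∃ S ∈ B''.image N, ∀ x ∈ S, b x = true)) ?_).symm
      intro b b' h
      simp only [hdep b b' h]
    · apply Real.exp_le_exp.mpr
      obtain ⟨b, hb⟩ := h3
      have h5 : κ ≤ upP q (B''.image N) :=
        (hκ b (h4 hb)).trans (pow_le_upP h0 h1 (mem_image_of_mem _ hb))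
      have h6 : (0 : ℝ) ≤ Y.card := Nat.cast_nonneg _
      nlinarith [mul_le_mul_of_nonneg_left hy₀ hκ0, mul_le_mul_of_nonneg_left h5 h6]
  have hunion : Pr q (fun ω => ∃ B'' ∈ 𝓑, Bad B'' ω) ≤
      (2 * n : ℝ) ^ t * Real.exp (-(κ * y₀ / 8)) := by
    refine (Pr_union_le h0 h1 𝓑 Bad).trans ((sum_le_sum hbad).trans ?_)
    rw [sum_const, nsmul_eq_mul]
    refine mul_le_mul_of_nonneg_right ?_ (Real.exp_pos _).le
    have : 𝓑.card ≤ (2 * n) ^ t := (card_le_card (filter_subset _ _)).trans
      (card_small_subsets B t n hn ((card_le_univ _).trans hW))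
    exact_mod_cast this
  refine le_trans (by linarith) ((Pr_not q (fun ω => ∃ B'' ∈ 𝓑, Bad B'' ω)).ge.trans ?_)
  refine Pr_mono h0 h1 fun ω hω => ?_
  push Not at hω
  let T : B → Finset (Fin n) := fun b => Y.filter (fun y => ∀ u ∈ N b, coin ω (φ u) y = true)
  have hall : ∀ s : Finset B, s.card ≤ (s.biUnion T).card := by
    intro s
    rcases s.eq_empty_or_nonempty with rfl | hs
    · simp
    obtain ⟨B'', hB1, hB2, hB3⟩ := hHall (s.map (Function.Embedding.subtype _))
      (fun x hx => by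
        obtain ⟨a, _, rfl⟩ := mem_map.mp hx
        exact a.2) (by simpa using hs)
    rw [card_map] at hB3
    have hspos : (0 : ℝ) < s.card := by exact_mod_cast hs.card_pos
    have hB4 : B''.Nonempty := by
      by_contra hc
      rw [not_nonempty_iff_eq_empty] at hc
      rw [hc, image_empty, upP_empty] at hB3
      linarith
    have hB5 : B'' ⊆ B := fun x hx => by
      obtain ⟨a, _, rfl⟩ := mem_map.mp (hB1 hx)
      exact a.2
    have h7 := hω B'' (mem_filter.mpr ⟨mem_filter.mpr ⟨mem_powerset.mpr hB5, hB2⟩, hB4⟩)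
    simp only [Bad, not_lt] at h7
    have h8 : ∑ y ∈ Y, ind (E B'' y ω) ≤ (s.biUnion T).card := by
      simp_rw [ind_eq_ite]
      rw [← sum_filter, sum_const, nsmul_eq_mul, mul_one, Nat.cast_le]
      refine card_le_card fun y hy => ?_
      obtain ⟨hy1, S, hS, hy2⟩ := mem_filter.mp hy
      obtain ⟨v, hv, rfl⟩ := mem_image.mp hS
      obtain ⟨a, ha, rfl⟩ := mem_map.mp (hB1 hv)
      exact mem_biUnion.mpr ⟨a, ha, mem_filter.mpr ⟨hy1, hy2⟩⟩
    have : (s.card : ℝ) ≤ (s.biUnion T).card := by linarith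
    exact_mod_cast this
  obtain ⟨f, hf1, hf2⟩ := (all_card_le_biUnion_card_iff_exists_injective T).mp hall
  refine ⟨fun v => if h : v ∈ B then f ⟨v, h⟩ else φ v, fun a ha b hb h => ?_, fun b hb => ?_⟩
  · have ha' : a ∈ B := ha
    have hb' : b ∈ B := hb
    simp only [dif_pos ha', dif_pos hb'] at h
    exact congrArg Subtype.val (hf1 h)
  · simp only [dif_pos hb]
    exact mem_filter.mp (hf2 ⟨b, hb⟩)

/-- All layers. -/
theorem layers {q : ℝ} (h0 : 0 ≤ q) (h1 : q ≤ 1) (hW : Fintype.card W ≤ n) (hn : 1 ≤ n)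
    (N : W → Finset W) (V : Finset W) (ℓ : W → ℕ) (R : ℕ) (hR : ∀ v ∈ V, ℓ v < R)
    (hN : ∀ v ∈ V, ∀ u ∈ N v, u ∈ V ∧ ℓ u < ℓ v) (lay : Fin n → ℕ) (t : ℕ) (κ y₀ : ℝ)
    (hκ0 : 0 ≤ κ) (hκ : ∀ b ∈ V, κ ≤ q ^ (N b).card)
    (hy₀ : ∀ j < R, y₀ ≤ (univ.filter fun a => lay a = j).card)
    (hHall : ∀ j < R, ∀ B' ⊆ V.filter (fun v => ℓ v = j), B'.Nonempty → ∃ B'' ⊆ B', B''.card ≤ t ∧
      2 * (B'.card : ℝ) ≤ (univ.filter fun a => lay a = j).card * upP q (B''.image N)) :
    1 - R * ((2 * n : ℝ) ^ t * Real.exp (-(κ * y₀ / 8))) ≤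
      Pr q (fun ω : EdgeSlot n → Bool => ∃ φ : W → Fin n, Set.InjOn φ V ∧
        ∀ v ∈ V, ∀ u ∈ N v, coin ω (φ u) (φ v) = true) := by
  classical
  set η := (2 * n : ℝ) ^ t * Real.exp (-(κ * y₀ / 8)) with hη
  have hη0 : 0 ≤ η := by positivity
  let P : ℕ → (EdgeSlot n → Bool) → (W → Fin n) → Prop := fun j ω φ =>
    Set.InjOn φ (V.filter fun v => ℓ v < j) ∧
      ∀ v ∈ V.filter (fun v => ℓ v < j), lay (φ v) = ℓ v ∧ ∀ u ∈ N v, coin ω (φ u) (φ v) = true
  have main : ∀ j ≤ R, 1 - j * η ≤ Pr q (fun ω => ∃ φ, P j ω φ) := by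
    intro j
    induction j with
    | zero =>
      intro _
      rw [Pr_true q fun ω => ⟨fun _ => ⟨0, hn⟩, by simp [P]⟩]
      simp
    | succ j ih =>
      intro hj
      have ih' := ih (by omega)
      let D : Finset (EdgeSlot n) := univ.filter (fun e => ∀ a ∈ e.1, lay a < j)
      have step : ∀ ω, ind (∃ φ, P j ω φ) * (1 - η) ≤
          Ex q (fun ω' => ind (∃ φ, P (j + 1) (D.piecewise ω ω') φ)) := by
        intro ω
        by_cases h : ∃ φ, P j ω φ
        · obtain ⟨φ, hφ1, hφ2⟩ := h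
          rw [ind_pos ⟨φ, hφ1, hφ2⟩, one_mul]
          have hA : ∀ b ∈ V.filter (fun v => ℓ v = j), N b ⊆ V.filter (fun v => ℓ v < j) := by
            intro b hb u hu
            obtain ⟨hb1, hb2⟩ := mem_filter.mp hb
            obtain ⟨h3, h4⟩ := hN b hb1 u hu
            exact mem_filter.mpr ⟨h3, hb2 ▸ h4⟩
          refine (one_layer h0 h1 hW hn N (V.filter fun v => ℓ v < j)
            (V.filter fun v => ℓ v = j) hA φ hφ1 (univ.filter fun a => lay a = j) ?_ t κ y₀ hκ0
            (fun b hb => hκ b (mem_filter.mp hb).1) (hy₀ j (by omega))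
            (hHall j (by omega))).trans ?_
          · intro u hu h
            have h3 := (hφ2 u hu).1
            have h4 := (mem_filter.mp h).2
            have h5 := (mem_filter.mp hu).2
            omega
          · refine Pr_mono h0 h1 fun ω' hω' => ?_
            obtain ⟨f, hf1, hf2⟩ := hω'
            have hlay : ∀ v ∈ V.filter (fun v => ℓ v < j + 1),
                lay (if ℓ v = j then f v else φ v) = ℓ v := by
              intro v hv
              obtain ⟨hv1, hv2⟩ := mem_filter.mp hv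
              split_ifs with hvj
              · rw [hvj]
                exact (mem_filter.mp (hf2 v (mem_filter.mpr ⟨hv1, hvj⟩)).1).2
              · exact (hφ2 v (mem_filter.mpr ⟨hv1, by omega⟩)).1
            refine ⟨fun v => if ℓ v = j then f v else φ v, fun a ha b hb hab => ?_,
              fun v hv => ⟨hlay v hv, fun u hu => ?_⟩⟩
            · have ha' := mem_filter.mp (mem_coe.mp ha)
              have hb' := mem_filter.mp (mem_coe.mp hb)
              have h3 := hlay a ha
              have h4 := hlay b hb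
              simp only at hab
              rw [hab, h4] at h3
              by_cases haj : ℓ a = j
              · have hbj : ℓ b = j := h3.trans haj
                rw [if_pos haj, if_pos hbj] at hab
                exact hf1 (mem_coe.mpr (mem_filter.mpr ⟨ha'.1, haj⟩))
                  (mem_coe.mpr (mem_filter.mpr ⟨hb'.1, hbj⟩)) hab
              · have hbj : ℓ b ≠ j := h3 ▸ haj
                rw [if_neg haj, if_neg hbj] at hab
                exact hφ1 (mem_coe.mpr (mem_filter.mpr ⟨ha'.1, by omega⟩))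
                  (mem_coe.mpr (mem_filter.mpr ⟨hb'.1, by omega⟩)) hab
            · obtain ⟨hv1, hv2⟩ := mem_filter.mp hv
              obtain ⟨hu1, hu2⟩ := hN v hv1 u hu
              have huj : ℓ u ≠ j := by omega
              simp only [if_neg huj]
              by_cases hvj : ℓ v = j
              · rw [if_pos hvj]
                obtain ⟨h3, h4⟩ := hf2 v (mem_filter.mpr ⟨hv1, hvj⟩)
                rw [← h4 u hu]
                refine coin_congr fun e he => piecewise_eq_of_notMem _ _ _ fun hD => ?_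
                have h5 := (mem_filter.mp hD).2 (f v) (by rw [he]; simp)
                have h6 := (mem_filter.mp h3).2
                omega
              · rw [if_neg hvj]
                have hv' : v ∈ V.filter (fun v => ℓ v < j) := mem_filter.mpr ⟨hv1, by omega⟩
                have hu' : u ∈ V.filter (fun v => ℓ v < j) := mem_filter.mpr ⟨hu1, by omega⟩
                rw [← (hφ2 v hv').2 u hu]
                refine coin_congr fun e he => piecewise_eq_of_mem _ _ _ ?_
                refine mem_filter.mpr ⟨mem_univ _, fun a ha => ?_⟩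
                rw [he, Sym2.mem_iff] at ha
                have h3 := (hφ2 v hv').1
                have h4 := (hφ2 u hu').1
                rcases ha with rfl | rfl <;> omega
        · rw [ind_neg h, zero_mul]
          exact Ex_nonneg h0 h1 fun _ => ind_nonneg _
      have h2 := Ex_mono h0 h1 step
      rw [Ex_mul_const, ← Ex_resample q D (fun ω => ind (∃ φ, P (j + 1) ω φ))] at h2
      change Pr q (fun ω => ∃ φ, P j ω φ) * (1 - η) ≤ Pr q (fun ω => ∃ φ, P (j + 1) ω φ) at h2
      have h3 := Pr_le_one h0 h1 (fun ω => ∃ φ, P j ω φ)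
      push_cast
      nlinarith
  refine (main R le_rfl).trans (Pr_mono h0 h1 fun ω hω => ?_)
  obtain ⟨φ, h2, h3⟩ := hω
  have : V.filter (fun v => ℓ v < R) = V := filter_true_of_mem hR
  rw [this] at h2 h3
  exact ⟨φ, h2, fun v hv => (h3 v hv).2⟩

end Layer

end Crest.Agent.Tal
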