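import Mathlib

/-!
Elementary combinatorial lemmas: peeling a sparse graph into independent layers, balanced
labellings, two-colourings of functional forests and extension of injections.
-/

set_option autoImplicit false
set_option linter.unusedSectionVars false

namespace Crest.Agent.Tal

open Finset

section Peel

variable {W : Type*} [Fintype W] [DecidableEq W]

lemma exists_indep_low (H : SimpleGraph W) [DecidableRel H.Adj] (μ : ℕ) (S : Finset W)
    (hS : ∑ v ∈ S, (S.filter (H.Adj v)).card ≤ 2 * μ * S.card) :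
    ∃ I ⊆ S, (∀ u ∈ I, ∀ v ∈ I, ¬ H.Adj u v) ∧ (∀ v ∈ I, (S.filter (H.Adj v)).card ≤ 4 * μ) ∧
      S.card ≤ (8 * μ + 2) * I.card := by
  let Low := S.filter (fun v => (S.filter (H.Adj v)).card ≤ 4 * μ)
  have h1 : S.card ≤ 2 * Low.card := by
    have h2 := card_filter_add_card_filter_not (s := S)
      (fun v => (S.filter (H.Adj v)).card ≤ 4 * μ)
    have h3 : (S.filter (fun v => ¬ (S.filter (H.Adj v)).card ≤ 4 * μ)).card * (4 * μ + 1) ≤
        ∑ v ∈ S, (S.filter (H.Adj v)).card := by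
      rw [← smul_eq_mul, ← sum_const]
      refine le_trans (sum_le_sum fun v hv => ?_) (sum_le_sum_of_subset (filter_subset _ _))
      have := (mem_filter.mp hv).2
      omega
    change Low.card + _ = _ at h2
    by_contra hc
    push Not at hc
    nlinarith
  obtain ⟨I, hI, hmax⟩ := exists_max_image
    (Low.powerset.filter (fun I => ∀ u ∈ I, ∀ v ∈ I, ¬ H.Adj u v)) card
    ⟨∅, by simp⟩
  obtain ⟨hI1, hI2⟩ := mem_filter.mp hI
  rw [mem_powerset] at hI1
  refine ⟨I, hI1.trans (filter_subset _ _), hI2, fun v hv => (mem_filter.mp (hI1 hv)).2, ?_⟩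
  have h4 : Low ⊆ I.biUnion (fun u => insert u (S.filter (H.Adj u))) := by
    intro v hv
    by_contra hc
    simp only [mem_biUnion, mem_insert, mem_filter, not_exists, not_and, not_or] at hc
    have hvI : v ∉ I := fun h => (hc v h).1 rfl
    have hvS : v ∈ S := (mem_filter.mp hv).1
    have := hmax (insert v I) (mem_filter.mpr ⟨mem_powerset.mpr (insert_subset hv hI1), ?_⟩)
    · rw [card_insert_of_notMem hvI] at this; omega
    · intro a ha b hb
      rcases mem_insert.mp ha with rfl | ha' <;> rcases mem_insert.mp hb with rfl | hb'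
      · exact H.irrefl
      · exact fun h => (hc b hb').2 hvS h.symm
      · exact fun h => (hc a ha').2 hvS h
      · exact hI2 a ha' b hb'
  have h5 := (card_le_card h4).trans (card_biUnion_le_card_mul _ _ (4 * μ + 1) fun u hu =>
    (card_insert_le _ _).trans (Nat.succ_le_succ (mem_filter.mp (hI1 hu)).2))
  nlinarith

lemma exists_layering_aux (H : SimpleGraph W) [DecidableRel H.Adj] (μ : ℕ)
    (hH : ∀ S : Finset W, ∑ v ∈ S, (S.filter (H.Adj v)).card ≤ 2 * μ * S.card) (R : ℕ) :
    ∀ S : Finset W, (S.card : ℝ) * (1 - 1 / (8 * μ + 2)) ^ R < 1 → ∃ ℓ : W → ℕ,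
      (∀ v ∈ S, ℓ v < R) ∧ (∀ u ∈ S, ∀ v ∈ S, H.Adj u v → ℓ u ≠ ℓ v) ∧
      ∀ v ∈ S, (S.filter (fun u => H.Adj v u ∧ ℓ u < ℓ v)).card ≤ 4 * μ := by
  induction R with
  | zero =>
    intro S hS
    have : S.card = 0 := by
      simp only [pow_zero, mul_one] at hS
      have : S.card < 1 := by exact_mod_cast hS
      omega
    rw [card_eq_zero] at this
    subst this
    exact ⟨fun _ => 0, by simp⟩
  | succ R ih =>
    intro S hS
    obtain ⟨I, hI1, hI2, hI3, hI4⟩ := exists_indep_low H μ S (hH S)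
    have ha : (0 : ℝ) < 8 * μ + 2 := by positivity
    have hb : (0 : ℝ) ≤ 1 - 1 / (8 * μ + 2) := by
      rw [sub_nonneg, div_le_one ha]
      have : (0 : ℝ) ≤ μ := Nat.cast_nonneg _
      linarith
    obtain ⟨ℓ, h1, h2, h3⟩ := ih (S \ I) (by
      refine lt_of_le_of_lt ?_ hS
      rw [pow_succ', ← mul_assoc]
      refine mul_le_mul_of_nonneg_right ?_ (pow_nonneg hb _)
      rw [card_sdiff_of_subset hI1, Nat.cast_sub (card_le_card hI1), mul_sub, mul_one, mul_one_div]
      have h4 : (S.card : ℝ) ≤ (8 * μ + 2) * I.card := by exact_mod_cast hI4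
      have : (S.card : ℝ) / (8 * μ + 2) ≤ I.card := by rw [div_le_iff₀ ha]; linarith
      linarith)
    refine ⟨fun v => if v ∈ I then R else ℓ v, fun v hv => ?_, fun u hu v hv huv => ?_,
      fun v hv => ?_⟩
    · dsimp only; split_ifs with h
      · omega
      · have := h1 v (mem_sdiff.mpr ⟨hv, h⟩); omega
    · dsimp only
      by_cases hu' : u ∈ I <;> by_cases hv' : v ∈ I
      · exact absurd huv (hI2 u hu' v hv')
      · have := h1 v (mem_sdiff.mpr ⟨hv, hv'⟩); simp only [hu', hv', if_true, if_false]; omega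
      · have := h1 u (mem_sdiff.mpr ⟨hu, hu'⟩); simp only [hu', hv', if_true, if_false]; omega
      · simp only [hu', hv', if_false]
        exact h2 u (mem_sdiff.mpr ⟨hu, hu'⟩) v (mem_sdiff.mpr ⟨hv, hv'⟩) huv
    · by_cases hv' : v ∈ I
      · refine le_trans (card_le_card fun u hu => ?_) (hI3 v hv')
        exact mem_filter.mpr ⟨(mem_filter.mp hu).1, (mem_filter.mp hu).2.1⟩
      · have hvS := mem_sdiff.mpr ⟨hv, hv'⟩
        refine le_trans (card_le_card fun u hu => ?_) (h3 v hvS)
        obtain ⟨hu1, hu2, hu3⟩ := mem_filter.mp hu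
        simp only [hv', if_false] at hu3
        have := h1 v hvS
        have hu' : u ∉ I := fun h => by simp only [h, if_true] at hu3; omega
        simp only [hu', if_false] at hu3
        exact mem_filter.mpr ⟨mem_sdiff.mpr ⟨hu1, hu'⟩, hu2, hu3⟩

lemma exists_split (s : Finset W) (k d : ℕ) (hk : 0 < k) (hs : s.card ≤ k * d) :
    ∃ f : W → Fin k, ∀ i, (s.filter (fun x => f x = i)).card ≤ d := by
  have h1 : Fintype.card s ≤ Fintype.card (Fin k × Fin d) := by simpa using hs
  obtain ⟨e⟩ := Function.Embedding.nonempty_of_card_le h1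
  refine ⟨fun x => if h : x ∈ s then (e ⟨x, h⟩).1 else ⟨0, hk⟩, fun i => ?_⟩
  rcases Nat.eq_zero_or_pos d with rfl | hd
  · have : s = ∅ := by simpa using hs
    simp [this]
  have := card_le_card_of_injOn (s := s.filter (fun x =>
      (if h : x ∈ s then (e ⟨x, h⟩).1 else ⟨0, hk⟩) = i)) (t := (univ : Finset (Fin d)))
    (fun x => if h : x ∈ s then (e ⟨x, h⟩).2 else ⟨0, hd⟩) (fun _ _ => mem_coe.mpr (mem_univ _))
    (by
      intro a ha b hb hab
      obtain ⟨ha1, ha2⟩ := mem_filter.mp (mem_coe.mp ha)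
      obtain ⟨hb1, hb2⟩ := mem_filter.mp (mem_coe.mp hb)
      simp only [dif_pos ha1, dif_pos hb1] at ha2 hb2 hab
      have : e ⟨a, ha1⟩ = e ⟨b, hb1⟩ := Prod.ext (ha2.trans hb2.symm) hab
      exact congrArg Subtype.val (e.injective this))
  simpa using this

lemma exists_lay (n R : ℕ) (y : ℕ → ℕ) (h : ∑ j ∈ range R, y j ≤ n) :
    ∃ lay : Fin n → ℕ, ∀ j < R, y j ≤ (univ.filter fun a => lay a = j).card := by
  classical
  have h1 : Fintype.card (Σ j : Fin R, Fin (y j)) ≤ Fintype.card (Fin n) := by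
    simpa [Fin.sum_univ_eq_sum_range y R] using h
  obtain ⟨e⟩ := Function.Embedding.nonempty_of_card_le h1
  refine ⟨fun a => if h : ∃ x, e x = a then (h.choose.1 : ℕ) else R, fun j hj => ?_⟩
  have := card_le_card_of_injOn (s := (univ : Finset (Fin (y j))))
    (t := univ.filter fun a => (if h : ∃ x, e x = a then (h.choose.1 : ℕ) else R) = j)
    (fun k => e ⟨⟨j, hj⟩, k⟩) (by
      intro k _
      have h2 : ∃ x, e x = e ⟨⟨j, hj⟩, k⟩ := ⟨_, rfl⟩
      simp only [coe_filter, mem_univ, true_and, Set.mem_ofPred_eq, dif_pos h2]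
      rw [e.injective h2.choose_spec]) (by
      intro a _ b _ hab
      simpa using e.injective hab)
  simpa using this

lemma exists_two_col (ℓ : W → ℕ) (N : W → Finset W) (hN : ∀ v, ∀ u ∈ N v, ℓ u < ℓ v)
    (h1 : ∀ v, (N v).card ≤ 1) : ∃ χ : W → Bool, ∀ v, ∀ u ∈ N v, χ u ≠ χ v := by
  classical
  have key : ∀ j, ∃ χ : W → Bool, ∀ v, ℓ v < j → ∀ u ∈ N v, χ u ≠ χ v := by
    intro j
    induction j with
    | zero => exact ⟨fun _ => true, by simp⟩
    | succ j ih =>
      obtain ⟨χ, hχ⟩ := ih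
      refine ⟨fun v => if ℓ v = j then decide (∃ u ∈ N v, χ u = false) else χ v,
        fun v hv u hu => ?_⟩
      have h2 := hN v u hu
      have h3 : ℓ u ≠ j := by omega
      simp only [if_neg h3]
      split_ifs with h4
      · have h5 : (∃ u' ∈ N v, χ u' = false) ↔ χ u = false :=
          ⟨fun ⟨u', hu', h⟩ => card_le_one.mp (h1 v) u' hu' u hu ▸ h, fun h => ⟨u, hu, h⟩⟩
        simp only [h5]
        cases χ u <;> simp
      · exact hχ v (by omega) u hu
  obtain ⟨χ, hχ⟩ := key (univ.sup ℓ + 1)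
  exact ⟨χ, fun v => hχ v (Nat.lt_succ_of_le (le_sup (mem_univ v)))⟩

lemma exists_emb_extend {n : ℕ} (hW : Fintype.card W ≤ n) (V : Finset W) (φ : W → Fin n)
    (hφ : Set.InjOn φ V) : ∃ ψ : W ↪ Fin n, ∀ v ∈ V, ψ v = φ v := by
  obtain ⟨t, ht1, -, ht2⟩ := exists_subsuperset_card_eq (subset_univ (V.image φ))
    (card_image_le.trans (card_le_univ V)) (by simpa using hW)
  obtain ⟨g, hg⟩ := exists_equiv_extend_of_card_eq ht2.symm ht1 hφ
  exact ⟨g.toEmbedding.trans (Function.Embedding.subtype _), fun v hv => hg v hv⟩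

lemma exists_disjoint_sub (N : W → Finset W) (B : Finset W) (d Δ t : ℕ)
    (hd : ∀ b ∈ B, (N b).card ≤ d) (hne : ∀ b ∈ B, (N b).Nonempty)
    (hΔ : ∀ u, (B.filter (fun b => u ∈ N b)).card ≤ Δ) (hB : t * (d * Δ) < B.card) :
    ∃ B' ⊆ B, B'.card = t ∧ ∀ a ∈ B', ∀ b ∈ B', a ≠ b → Disjoint (N a) (N b) := by
  obtain ⟨I, hI, hmax⟩ := exists_max_image
    (B.powerset.filter (fun I => ∀ a ∈ I, ∀ b ∈ I, a ≠ b → Disjoint (N a) (N b))) card
    ⟨∅, by simp⟩
  obtain ⟨hI1, hI2⟩ := mem_filter.mp hI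
  rw [mem_powerset] at hI1
  have h4 : B ⊆ I.biUnion (fun a => (N a).biUnion (fun u => B.filter (fun b => u ∈ N b))) := by
    intro v hv
    by_contra hc
    simp only [mem_biUnion, mem_filter, not_exists, not_and] at hc
    have hvI : v ∉ I := fun h => by
      obtain ⟨u, hu⟩ := hne v hv
      exact hc v h u hu hv hu
    have := hmax (insert v I) (mem_filter.mpr ⟨mem_powerset.mpr (insert_subset hv hI1), ?_⟩)
    · rw [card_insert_of_notMem hvI] at this; omega
    · intro a ha b hb hab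
      rcases mem_insert.mp ha with rfl | ha' <;> rcases mem_insert.mp hb with rfl | hb'
      · exact absurd rfl hab
      · exact disjoint_right.mpr fun u hu => hc b hb' u hu hv
      · exact disjoint_left.mpr fun u hu => hc a ha' u hu hv
      · exact hI2 a ha' b hb' hab
  have h5 := (card_le_card h4).trans (card_biUnion_le_card_mul _ _ (d * Δ) fun a ha =>
    (card_biUnion_le_card_mul _ _ Δ fun u _ => hΔ u).trans
      (Nat.mul_le_mul_right _ (hd a (hI1 ha))))
  have h6 : t ≤ I.card := by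
    by_contra hc
    push Not at hc
    have := Nat.mul_le_mul_right (d * Δ) hc.le
    omega
  obtain ⟨B', hB1, hB2⟩ := exists_subset_card_eq h6
  exact ⟨B', hB1.trans hI1, hB2, fun a ha b hb => hI2 a (hB1 ha) b (hB1 hb)⟩

end Peel

end Crest.Agent.Tal
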