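import Crest.Agent.Tal.Layer

/-!
Splitting neighbourhoods in two so that no small up-set captures too many of the halves.
-/

set_option autoImplicit false
set_option linter.unusedSectionVars false

namespace Crest.Agent.Tal

open Finset Crest.FinProb

lemma cake_lower (δ x : ℝ) (T : ℕ) :
    min x ((T + 1) * δ) ≤ δ * (1 + ∑ k ∈ range T, ind ((k + 1) * δ < x)) := by
  induction T with
  | zero => simp
  | succ T ih =>
    rw [sum_range_succ]
    by_cases h : (T + 1) * δ < x
    · rw [ind_pos h]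
      rw [min_eq_right h.le] at ih
      have := min_le_right x (((T + 1 : ℕ) + 1) * δ)
      push_cast at this ⊢
      nlinarith
    · rw [ind_neg h, add_zero]
      push Not at h
      rw [min_eq_left h] at ih
      exact (min_le_left _ _).trans ih

lemma cake_upper (δ y : ℝ) (hδ : 0 ≤ δ) (hy : 0 ≤ y) (T : ℕ) :
    δ * ∑ k ∈ range T, ind ((k + 1) * δ < y) ≤ min y (T * δ) := by
  induction T with
  | zero => simp [hy]
  | succ T ih =>
    rw [sum_range_succ]
    have h1 := ih.trans (min_le_left _ _)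
    have h2 := ih.trans (min_le_right _ _)
    by_cases h : (T + 1) * δ < y
    · rw [ind_pos h]
      push_cast
      refine le_min ?_ ?_ <;> nlinarith
    · rw [ind_neg h, add_zero]
      push_cast
      refine le_min h1 ?_
      nlinarith

section Split

variable {W : Type*} [Fintype W] [DecidableEq W]

lemma exists_balanced_split {κ : Type*} {q : ℝ} (h0 : 0 ≤ q) (h1 : q ≤ 1) (B : Finset W)
    (N : W → Finset W) (J : Finset κ) (𝒱 : κ → Finset W → Prop)
    (hup : ∀ j S S', S ⊆ S' → 𝒱 j S → 𝒱 j S') (α s₀ : ℝ) (hα : 0 ≤ α) (hs₀ : 0 ≤ s₀)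
    (hC : ∀ 𝒜 : Finset W → Prop,
      ∑ b ∈ B, ind (¬ ∃ A₁ A₂, 𝒜 A₁ ∧ 𝒜 A₂ ∧ N b ⊆ A₁ ∪ A₂) ≤
        α * Pr q (fun b => ¬ 𝒜 (heads b)) + s₀)
    (cap : κ → ℝ) (c₀ : ℝ) (hc₀ : ∀ j ∈ J, c₀ ≤ cap j)
    (hcap : ∀ j ∈ J, 6 * (α * Pr q (fun b => 𝒱 j (heads b)) + s₀ + 1) ≤ cap j / 2)
    (hJ : 2 * J.card * Real.exp (-(c₀ / 2)) < c₀ / 2) :
    ∃ c : W → Bool → Finset W, (∀ b ∈ B, (∀ i, c b i ⊆ N b) ∧ ∀ u ∈ N b, ∃ i, u ∈ c b i) ∧
      ∀ i, ∀ j ∈ J, ∑ b ∈ B, ind (𝒱 j (c b i)) ≤ cap j := by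
  classical
  let cnt : (W → Bool → Finset W) → Bool → κ → ℝ := fun c i j => ∑ b ∈ B, ind (𝒱 j (c b i))
  let Φ : (W → Bool → Finset W) → ℝ := fun c => ∑ i, ∑ j ∈ J, Real.exp (cnt c i j - cap j)
  obtain ⟨c, hc, hmin⟩ := exists_min_image (univ.filter fun c : W → Bool → Finset W =>
    ∀ b ∈ B, (∀ i, c b i ⊆ N b) ∧ ∀ u ∈ N b, ∃ i, u ∈ c b i) Φ
    ⟨fun b _ => N b, by simp⟩
  have hc' := (mem_filter.mp hc).2
  refine ⟨c, hc', ?_⟩
  by_contra hcon
  push Not at hcon
  obtain ⟨i₀, j₀, hj₀, hbig⟩ := hcon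
  let w : Bool → κ → ℝ := fun i j => Real.exp (cnt c i j - cap j)
  have hw : ∀ i j, 0 < w i j := fun i j => Real.exp_pos _
  let f : Finset W → ℝ := fun S => ∑ i, ∑ j ∈ J, w i j * ind (𝒱 j S)
  have hf0 : ∀ S, 0 ≤ f S := fun S => sum_nonneg fun i _ => sum_nonneg fun j _ =>
    mul_nonneg (hw i j).le (ind_nonneg _)
  have hfm : ∀ S S', S ⊆ S' → f S ≤ f S' := fun S S' h =>
    sum_le_sum fun i _ => sum_le_sum fun j _ =>
      mul_le_mul_of_nonneg_left (ind_mono (hup j S S' h)) (hw i j).le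
  set F := ∑ i, ∑ j ∈ J, w i j with hF
  have hF0 : 0 < F := sum_pos (fun i _ => sum_pos (fun j _ => hw i j) ⟨j₀, hj₀⟩) univ_nonempty
  let x : W → ℝ := fun b => (∑ i, ∑ j ∈ J, w i j * ind (𝒱 j (c b i))) / 6
  have hxF : ∀ b, x b ≤ F := by
    intro b
    have : ∑ i, ∑ j ∈ J, w i j * ind (𝒱 j (c b i)) ≤ F :=
      sum_le_sum fun i _ => sum_le_sum fun j _ => by
        have := mul_le_mul_of_nonneg_left (ind_le_one (𝒱 j (c b i))) (hw i j).le
        linarith
    simp only [x]; linarith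
  -- local optimality
  have hloc : ∀ b ∈ B, ∀ s : Bool → Finset W, (∀ i, s i ⊆ N b) → (∀ u ∈ N b, ∃ i, u ∈ s i) →
      2 * x b ≤ f (s true) + f (s false) := by
    intro b hb s hs1 hs2
    have h2 := hmin (Function.update c b s) (mem_filter.mpr ⟨mem_univ _, fun b' hb' => by
      by_cases h : b' = b
      · rw [h, Function.update_self]; exact ⟨hs1, hs2⟩
      · rw [Function.update_of_ne h]; exact hc' b' hb'⟩)
    have h3 : ∀ i j, cnt (Function.update c b s) i j =
        cnt c i j - ind (𝒱 j (c b i)) + ind (𝒱 j (s i)) := by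
      intro i j
      simp only [cnt]
      rw [← add_sum_erase _ _ hb, ← add_sum_erase _ _ hb, Function.update_self,
        sum_congr rfl (g := fun b' => ind (𝒱 j (c b' i)))
          (fun b' hb' => by rw [Function.update_of_ne (ne_of_mem_erase hb')])]
      ring
    have h4 : ∀ i j, Real.exp (cnt (Function.update c b s) i j - cap j) ≤
        w i j + (15 / 8) * (w i j * ind (𝒱 j (s i))) - (5 / 8) * (w i j * ind (𝒱 j (c b i))) := by
      intro i j
      have e1 := Real.exp_one_lt_d9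
      have e2 : Real.exp (-1) ≤ 3 / 8 := by
        have h2 := Real.exp_one_gt_d9
        rw [Real.exp_neg, inv_le_comm₀ (Real.exp_pos 1) (by norm_num)]
        linarith
      have e3 : Real.exp (cnt (Function.update c b s) i j - cap j) =
          w i j * Real.exp (ind (𝒱 j (s i)) - ind (𝒱 j (c b i))) := by
        rw [h3, ← Real.exp_add]; congr 1; ring
      rw [e3]
      have := hw i j
      by_cases ha : 𝒱 j (s i) <;> by_cases hb : 𝒱 j (c b i)
      · rw [ind_pos ha, ind_pos hb, sub_self, Real.exp_zero]; linarith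
      · rw [ind_pos ha, ind_neg hb, sub_zero]; nlinarith
      · rw [ind_neg ha, ind_pos hb, zero_sub]; nlinarith
      · rw [ind_neg ha, ind_neg hb, sub_self, Real.exp_zero]; linarith
    have h5 : Φ (Function.update c b s) ≤ F + (15 / 8) * (∑ i, ∑ j ∈ J, w i j * ind (𝒱 j (s i))) -
        (5 / 8) * (∑ i, ∑ j ∈ J, w i j * ind (𝒱 j (c b i))) := by
      simp only [hF, mul_sum, ← sum_add_distrib, ← sum_sub_distrib]
      exact sum_le_sum fun i _ => sum_le_sum fun j _ => h4 i j
    have h6 : ∑ i, ∑ j ∈ J, w i j * ind (𝒱 j (s i)) ≤ f (s true) + f (s false) := by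
      simp only [f, Fintype.sum_bool]
      have a1 : 0 ≤ ∑ j ∈ J, w false j * ind (𝒱 j (s true)) :=
        sum_nonneg fun j _ => mul_nonneg (hw _ j).le (ind_nonneg _)
      have a2 : 0 ≤ ∑ j ∈ J, w true j * ind (𝒱 j (s false)) :=
        sum_nonneg fun j _ => mul_nonneg (hw _ j).le (ind_nonneg _)
      linarith
    have h7 : Φ c = F := rfl
    simp only [x]
    linarith
  have hlev : ∀ lam : ℝ, ∑ b ∈ B, ind (lam < x b) ≤ α * Pr q (fun b => lam < f (heads b)) + s₀ := by
    intro lam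
    have h2 := hC (fun S => f S ≤ lam)
    simp only [not_le] at h2
    refine le_trans (sum_le_sum fun b hb => ind_mono ?_) h2
    rintro h ⟨A₁, A₂, ha1, ha2, hsub⟩
    have h3 := hloc b hb (fun i => if i then N b ∩ A₁ else N b ∩ A₂)
      (fun i => by cases i <;> simp) (fun u hu => by
        rcases mem_union.mp (hsub hu) with h | h
        · exact ⟨true, by simp [hu, h]⟩
        · exact ⟨false, by simp [hu, h]⟩)
    simp only [if_true, Bool.false_eq_true, if_false] at h3
    have h4 := hfm (N b ∩ A₁) A₁ inter_subset_right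
    have h5 := hfm (N b ∩ A₂) A₂ inter_subset_right
    linarith
  have hB : B.Nonempty := by
    by_contra hB
    rw [not_nonempty_iff_eq_empty] at hB
    have h2 := hcap j₀ hj₀
    have h3 := Pr_nonneg h0 h1 (fun b => 𝒱 j₀ (heads b))
    rw [hB, sum_empty] at hbig
    nlinarith [mul_nonneg hα h3]
  have hT : (0 : ℝ) < B.card := by exact_mod_cast hB.card_pos
  set δ := F / B.card with hδ
  have hδ0 : 0 < δ := div_pos hF0 hT
  have hδT : B.card * δ = F := by rw [hδ]; field_simp
  have hsum : ∑ b ∈ B, x b ≤ F + α * Ex q (fun b => f (heads b)) + s₀ * F := by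
    calc ∑ b ∈ B, x b ≤ ∑ b ∈ B, δ * (1 + ∑ k ∈ range B.card, ind ((k + 1) * δ < x b)) := by
          refine sum_le_sum fun b _ => le_trans (le_of_eq (min_eq_left ?_).symm)
            (cake_lower δ (x b) B.card)
          have := hxF b
          nlinarith
      _ = F + δ * ∑ k ∈ range B.card, ∑ b ∈ B, ind ((k + 1) * δ < x b) := by
          rw [← mul_sum, sum_add_distrib, sum_comm, mul_add]
          simp only [sum_const, nsmul_eq_mul, mul_one]
          linarith
      _ ≤ F + δ * ∑ k ∈ range B.card,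
            (α * Pr q (fun b => (k + 1) * δ < f (heads b)) + s₀) := by
          gcongr with k hk
          exact hlev _
      _ = F + α * Ex q (fun b => δ * ∑ k ∈ range B.card, ind ((k + 1) * δ < f (heads b))) +
            s₀ * F := by
          rw [Ex_const_mul, Ex_sum, sum_add_distrib, ← mul_sum]
          simp only [sum_const, card_range, nsmul_eq_mul, Pr]
          rw [← hδT]; ring
      _ ≤ _ := by
          gcongr
          exact Ex_mono h0 h1 fun b => (cake_upper δ _ hδ0.le (hf0 _) _).trans (min_le_left _ _)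
  have hE : Ex q (fun b => f (heads b)) = ∑ i, ∑ j ∈ J, w i j * Pr q (fun b => 𝒱 j (heads b)) := by
    simp only [f]
    rw [Ex_sum]
    refine sum_congr rfl fun i _ => ?_
    rw [Ex_sum]
    exact sum_congr rfl fun j _ => Ex_const_mul _ _ _
  have hX : ∑ b ∈ B, x b = (∑ i, ∑ j ∈ J, w i j * cnt c i j) / 6 := by
    simp only [x, cnt]
    rw [← sum_div, sum_comm]
    congr 1
    refine sum_congr rfl fun i _ => ?_
    rw [sum_comm]
    exact sum_congr rfl fun j _ => (mul_sum _ _ _).symm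
  have hneg : ∑ i, ∑ j ∈ J, w i j * (cnt c i j - cap j / 2) ≤ 0 := by
    have h2 : ∑ i, ∑ j ∈ J, w i j * (6 * (α * Pr q (fun b => 𝒱 j (heads b)) + s₀ + 1)) ≤
        ∑ i, ∑ j ∈ J, w i j * (cap j / 2) := sum_le_sum fun i _ => sum_le_sum fun j hj =>
      mul_le_mul_of_nonneg_left (hcap j hj) (hw i j).le
    have h3 : ∑ i, ∑ j ∈ J, w i j * (6 * (α * Pr q (fun b => 𝒱 j (heads b)) + s₀ + 1)) =
        6 * (F + α * (∑ i, ∑ j ∈ J, w i j * Pr q (fun b => 𝒱 j (heads b))) + s₀ * F) := by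
      simp only [hF, mul_sum, ← sum_add_distrib]
      exact sum_congr rfl fun i _ => sum_congr rfl fun j _ => by ring
    simp only [mul_sub, sum_sub_distrib]
    rw [hX, hE] at hsum
    linarith
  have hlow : ∀ i, ∀ j ∈ J, -Real.exp (-(c₀ / 2)) ≤ w i j * (cnt c i j - cap j / 2) := by
    intro i j hj
    have h2 : w i j = Real.exp (-(cap j / 2)) * Real.exp (cnt c i j - cap j / 2) := by
      rw [← Real.exp_add]; simp only [w]; congr 1; ring
    have h3 : Real.exp (-(cap j / 2)) ≤ Real.exp (-(c₀ / 2)) :=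
      Real.exp_le_exp.mpr (by have := hc₀ j hj; linarith)
    set y := cnt c i j - cap j / 2
    have h4 : -1 ≤ Real.exp y * y := by
      have h5 := Real.add_one_le_exp (-y)
      have h6 : Real.exp y * Real.exp (-y) = 1 := by rw [← Real.exp_add]; simp
      nlinarith [Real.exp_pos y]
    rw [h2]
    nlinarith [Real.exp_pos (-(cap j / 2))]
  have hhigh : c₀ / 2 ≤ w i₀ j₀ * (cnt c i₀ j₀ - cap j₀ / 2) := by
    have h2 : 1 ≤ w i₀ j₀ := Real.one_le_exp (by simp only [cnt]; linarith)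
    have h3 := hc₀ j₀ hj₀
    have h4 : 0 ≤ 2 * J.card * Real.exp (-(c₀ / 2)) := by positivity
    have h5 : cap j₀ < cnt c i₀ j₀ := hbig
    nlinarith
  have hfin : c₀ / 2 ≤ ∑ i, ∑ j ∈ J, (w i j * (cnt c i j - cap j / 2) + Real.exp (-(c₀ / 2))) := by
    refine le_trans ?_ (single_le_sum (f := fun i => ∑ j ∈ J,
      (w i j * (cnt c i j - cap j / 2) + Real.exp (-(c₀ / 2))))
      (fun i _ => sum_nonneg fun j hj => by have := hlow i j hj; linarith) (mem_univ i₀))
    refine le_trans ?_ (single_le_sum (f := fun j =>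
      (w i₀ j * (cnt c i₀ j - cap j / 2) + Real.exp (-(c₀ / 2))))
      (fun j hj => by have := hlow i₀ j hj; linarith) hj₀)
    have := Real.exp_pos (-(c₀ / 2))
    linarith
  simp only [sum_add_distrib, sum_const, nsmul_eq_mul, card_univ, Fintype.card_bool] at hfin
  push_cast at hfin
  linarith

/-- Greedy choice of few generators. -/
lemma exists_generators {q : ℝ} (h0 : 0 ≤ q) (h1 : q ≤ 1) (B : Finset W) (N : W → Finset W)
    (κ : ℝ) (hκ0 : 0 < κ) (hκ : ∀ b ∈ B, κ ≤ q ^ (N b).card) :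
    ∃ B' ⊆ B, B'.card * κ ≤ 2 ∧ ∀ b ∈ B, 1 / 2 ≤
      Pr q (fun X : W → Bool => ∃ S ∈ B'.image N, ∀ x ∈ S, x ∈ N b ∨ X x = true) := by
  obtain ⟨B', hB', hmax⟩ := exists_max_image B.powerset
    (fun B' => upP q (B'.image N) - B'.card * κ / 2) ⟨∅, by simp⟩
  rw [mem_powerset] at hB'
  refine ⟨B', hB', ?_, fun b hb => ?_⟩
  · have h2 := hmax ∅ (by simp)
    simp only [image_empty, upP_empty, card_empty] at h2
    have h3 : upP q (B'.image N) ≤ 1 := Pr_le_one h0 h1 _
    push_cast at h2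
    linarith
  · by_cases hbB : b ∈ B'
    · rw [Pr_true q fun X => ⟨N b, mem_image_of_mem _ hbB, fun x hx => Or.inl hx⟩]; norm_num
    have h2 := hmax (insert b B') (mem_powerset.mpr (insert_subset hb hB'))
    rw [card_insert_of_notMem hbB] at h2
    have h3 : upP q ((insert b B').image N) = upP q (B'.image N) + q ^ (N b).card *
        (1 - Pr q (fun X : W → Bool => ∃ S ∈ B'.image N, ∀ x ∈ S, x ∈ N b ∨ X x = true)) := by
      rw [← Pr_not, ← Pr_all q (N b)]
      unfold upP Pr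
      rw [← Ex_mul_indep q (N b), ← Ex_add]
      · congr 1
        funext X
        rw [← ind_and]
        by_cases ha : ∃ S ∈ B'.image N, ∀ x ∈ S, X x = true
        · rw [ind_pos ha, ind_pos, ind_neg, add_zero]
          · obtain ⟨S, hS, h⟩ := ha
            exact fun h' => h'.2 ⟨S, hS, fun x hx => Or.inr (h x hx)⟩
          · obtain ⟨S, hS, h⟩ := ha
            exact ⟨S, image_subset_image (subset_insert _ _) hS, h⟩
        · rw [ind_neg ha, zero_add]
          apply ind_congr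
          rw [image_insert]
          constructor
          · rintro ⟨S, hS, h⟩
            rcases mem_insert.mp hS with rfl | hS
            · refine ⟨h, ?_⟩
              rintro ⟨S', hS', h'⟩
              exact ha ⟨S', hS', fun x hx => (h' x hx).elim (h x) id⟩
            · exact absurd ⟨S, hS, h⟩ ha
          · exact fun h => ⟨N b, mem_insert_self _ _, h.1⟩
      · intro X X' h
        exact ind_congr (forall₂_congr fun x hx => by rw [h x hx])
      · intro X X' h
        refine ind_congr (not_congr (exists_congr fun S => and_congr_right fun _ =>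
          forall₂_congr fun x _ => ?_))
        by_cases hx : x ∈ N b
        · simp [hx]
        · rw [h x (mem_compl.mpr hx)]
    rw [h3] at h2
    push_cast at h2
    have h4 := hκ b hb
    have h5 := Pr_le_one h0 h1
      (fun X : W → Bool => ∃ S ∈ B'.image N, ∀ x ∈ S, x ∈ N b ∨ X x = true)
    by_contra hc
    push Not at hc
    nlinarith

/-- The closure of an up-set is not much more likely than the up-set. -/
lemma closure_prob {q₁ q : ℝ} (h0 : 0 ≤ q₁) (h1 : q₁ ≤ 1) (hq : (1 - q₁) ^ 2 = 1 - q)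
    (𝒰 : Finset (Finset W)) :
    Pr q₁ (fun Y : W → Bool => 1 / 2 ≤
      Pr q₁ (fun X : W → Bool => ∃ S ∈ 𝒰, ∀ x ∈ S, x ∈ heads Y ∨ X x = true)) ≤ 2 * upP q 𝒰 := by
  unfold upP
  conv_rhs => unfold Pr
  rw [← Ex_or q₁ q hq, ← Ex_const_mul]
  refine Ex_mono h0 h1 fun Y => ?_
  have h2 : Ex q₁ (fun b' : W → Bool => ind (∃ S ∈ 𝒰, ∀ x ∈ S, (Y x || b' x) = true)) =
      Pr q₁ (fun X : W → Bool => ∃ S ∈ 𝒰, ∀ x ∈ S, x ∈ heads Y ∨ X x = true) := by
    unfold Pr
    simp
  rw [h2]
  by_cases h : 1 / 2 ≤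
      Pr q₁ (fun X : W → Bool => ∃ S ∈ 𝒰, ∀ x ∈ S, x ∈ heads Y ∨ X x = true)
  · rw [ind_pos h]; linarith
  · rw [ind_neg h]
    have := Pr_nonneg h0 h1 (fun X : W → Bool => ∃ S ∈ 𝒰, ∀ x ∈ S, x ∈ heads Y ∨ X x = true)
    linarith

end Split

end Crest.Agent.Tal
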