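import Crest.Agent.Tal.PieceLo
import Crest.Agent.Tal.Split
import Crest.Agent.Tal.NF

/-!
Embedding the bipartite pieces attached to a small set of vertices.
-/

set_option autoImplicit false
set_option linter.unusedSectionVars false

namespace Crest.Agent.Tal

open Finset Crest.FinProb Crest.CombinatoricsR.RandomGraph

section Hi

variable {W : Type} [Fintype W] [DecidableEq W] {n : ℕ}

lemma NF.convex {H : SimpleGraph W} {r q₁ : ℝ} (h : NF H n r) (hr0 : 0 ≤ r) (hn : 1 ≤ n)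
    (hq0 : 0 < q₁) (hq1 : q₁ < 1) (hrq : 2 ^ 12 * r ≤ q₁)
    (A B : Finset W) (N : W → Finset W) (hN : ∀ b ∈ B, ∀ u ∈ N b, H.Adj u b ∧ u ∉ B)
    (hA : ∀ b ∈ B, N b ⊆ A) (hB : 1024 * B.card ≤ n) (s₀ : ℕ) (hs₀ : 2 * n ^ A.card ≤ 2 ^ s₀)
    (𝒜 : Finset W → Prop) :
    ∑ b ∈ B, ind (¬ ∃ A₁ A₂, 𝒜 A₁ ∧ 𝒜 A₂ ∧ N b ⊆ A₁ ∪ A₂) ≤
      n / 256 * Pr q₁ (fun b => ¬ 𝒜 (heads b)) + s₀ := by
  classical
  rw [Pr_not]
  set μ := Pr q₁ (fun b : W → Bool => 𝒜 (heads b)) with hμ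
  have hμ1 : μ ≤ 1 := Pr_le_one hq0.le hq1.le _
  have hs0 : (0 : ℝ) ≤ s₀ := Nat.cast_nonneg _
  have hn0 : (0 : ℝ) ≤ n := Nat.cast_nonneg _
  simp_rw [ind_eq_ite]
  rw [← sum_filter, sum_const, nsmul_eq_mul, mul_one]
  by_cases hμ2 : μ < 1 / 2
  · have h1 : ((B.filter fun b => ¬ ∃ A₁ A₂, 𝒜 A₁ ∧ 𝒜 A₂ ∧ N b ⊆ A₁ ∪ A₂).card : ℝ) ≤ B.card := by
      exact_mod_cast card_le_card (filter_subset _ _)
    have h2 : (1024 * B.card : ℝ) ≤ n := by exact_mod_cast hB
    nlinarith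
  push Not at hμ2
  obtain ⟨w, hw0, hwe, hwc, hwS⟩ := fourier_cover (X := W) (fun c : Bool => if c then q₁ else 1 - q₁)
    (fun c => by cases c <;> simp <;> linarith) (by simp) (fun c => c = false) (1 - q₁)
    (by rw [sum_filter]; simp) (by linarith) (by linarith) (fun a => 𝒜 (heads a)) μ (by
      rw [hμ, ← bernoulliProb_eq]
      unfold bernoulliProb bernoulliWeight
      congr) (by linarith)
  have h3 := h.bip hr0 hn A (B.filter fun b => ¬ ∃ A₁ A₂, 𝒜 A₁ ∧ 𝒜 A₂ ∧ N b ⊆ A₁ ∪ A₂) N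
    (fun b hb u hu => ⟨(hN b (mem_filter.mp hb).1 u hu).1,
      fun h' => (hN b (mem_filter.mp hb).1 u hu).2 (mem_filter.mp h').1⟩)
    (fun b hb => hA b (mem_filter.mp hb).1) w hw0 ((1 - μ) / 2 ^ 11) (by
      have h4 : ∑ T, w T * r ^ T.card ≤
          ∑ T, (1 / 2 ^ 12) * (w T * ((1 - (1 - q₁)) / (1 - q₁)) ^ T.card) := by
        refine sum_le_sum fun T _ => ?_
        by_cases hT : T = ∅
        · simp [hT, hwe]
        have h5 : r ≤ (1 / 2 ^ 12) * ((1 - (1 - q₁)) / (1 - q₁)) := by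
          have : q₁ ≤ (1 - (1 - q₁)) / (1 - q₁) := by
            rw [le_div_iff₀ (by linarith)]; nlinarith
          linarith
        have h6 := pow_le_pow_left₀ hr0 h5 T.card
        rw [mul_pow] at h6
        have h7 : (1 / 2 ^ 12 : ℝ) ^ T.card ≤ 1 / 2 ^ 12 :=
          pow_le_of_le_one (by norm_num) (by norm_num) (by simpa using hT)
        have h8 : 0 ≤ ((1 - (1 - q₁)) / (1 - q₁)) ^ T.card :=
          pow_nonneg (div_nonneg (by linarith) (by linarith)) _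
        have h9 := mul_le_mul_of_nonneg_left
          (h6.trans (mul_le_mul_of_nonneg_right h7 h8)) (hw0 T)
        linarith
      rw [← mul_sum] at h4
      have h5 : (1 - μ) / μ ≤ 2 * (1 - μ) := by
        rw [div_le_iff₀ (by linarith)]; nlinarith
      linarith) (fun b hb => hwS _ fun a a' ha ha' => by
      by_contra hc
      push Not at hc
      refine (mem_filter.mp hb).2 ⟨_, _, ha, ha', fun x hx => ?_⟩
      have := hc x hx
      rw [mem_union, mem_heads, mem_heads]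
      cases h1 : a x <;> simp_all) s₀ hs₀
  nlinarith

theorem hi_piece {H : SimpleGraph W} {r q z : ℝ} (h : NF H n r) (hr0 : 0 < r)
    (hrq : 2 ^ 13 * r ≤ q) (h1 : q < 1) (hz : 2 ^ 20 ≤ z) (hn : (n : ℝ) = z ^ 40)
    (hW : Fintype.card W ≤ n) (A B : Finset W) (hAB : Disjoint A B) (N : W → Finset W)
    (hN : ∀ b ∈ B, ∀ u ∈ N b, H.Adj u b) (hA : ∀ b ∈ B, N b ⊆ A) (d : ℕ)
    (hd : ∀ b ∈ B, (N b).card ≤ d) (hdz : (2 : ℝ) ^ d ≤ z) (hr : 1 / z ≤ r ^ d)
    (hAz : (A.card : ℝ) ≤ z ^ 23) (hB : 1024 * B.card ≤ n) :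
    ∃ c : W → Bool → Finset W, (∀ b ∈ B, ∀ u ∈ N b, ∃ i, u ∈ c b i) ∧
      ∀ i, 1 / 2 ≤ Pr q (fun ω : EdgeSlot n → Bool =>
        Emb (fun v => if v ∈ B then c v i else ∅) ω) := by
  classical
  have hz1 : 1 ≤ z := by linarith
  have hz0 : 0 < z := by linarith
  have h0 : 0 < q := by linarith
  have hn1 : 1 ≤ n := by
    have : (1 : ℝ) ≤ n := by rw [hn]; exact one_le_pow₀ hz1
    exact_mod_cast this
  set q₁ := 1 - Real.sqrt (1 - q) with hq₁
  have hsq : (1 - q₁) ^ 2 = 1 - q := by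
    rw [hq₁, sub_sub_cancel, Real.sq_sqrt (by linarith)]
  have hq₁1 : q₁ < 1 := by
    have := Real.sqrt_pos.mpr (by linarith : 0 < 1 - q)
    linarith
  have hq₁2 : q / 2 ≤ q₁ := by nlinarith [sq_nonneg q₁]
  have hq₁0 : 0 < q₁ := by linarith
  have hκ : ∀ (p : ℝ) (S : Finset W), r ≤ p → p ≤ 1 → S.card ≤ d → 1 / z ≤ p ^ S.card :=
    fun p S h2 h3 h4 => hr.trans ((pow_le_pow_left₀ hr0.le h2 d).trans
      (pow_le_pow_of_le_one (by linarith) h3 h4))
  let 𝒮 : Finset (Finset W) := B.biUnion (fun b => (N b).powerset)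
  let t := ⌊2 * z⌋₊
  have ht : (t : ℝ) ≤ 2 * z := Nat.floor_le (by linarith)
  let J := (𝒮.powerset.filter (fun 𝒰 => 𝒰.card ≤ t)).filter (fun 𝒰 => 𝒰.Nonempty)
  let 𝒱 : Finset (Finset W) → Finset W → Prop := fun 𝒰 S₀ => 1 / 2 ≤
    Pr q₁ (fun X : W → Bool => ∃ S ∈ 𝒰, ∀ x ∈ S, x ∈ S₀ ∨ X x = true)
  let s₀ : ℕ := 1 + A.card * (40 * ⌈z⌉₊)
  have hceil : (⌈z⌉₊ : ℝ) ≤ 2 * z := by have := Nat.ceil_lt_add_one hz0.le; linarith
  have hs₀ : 2 * n ^ A.card ≤ 2 ^ s₀ := by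
    have h2 : n ≤ 2 ^ (40 * ⌈z⌉₊) := by
      have h3 : z ≤ ((2 ^ ⌈z⌉₊ : ℕ) : ℝ) :=
        (Nat.le_ceil z).trans (by exact_mod_cast Nat.lt_two_pow_self.le)
      have h4 : (n : ℝ) ≤ ((2 ^ (40 * ⌈z⌉₊) : ℕ) : ℝ) := by
        rw [hn, mul_comm, pow_mul, Nat.cast_pow]
        exact pow_le_pow_left₀ hz0.le h3 40
      exact_mod_cast h4
    simp only [s₀]
    rw [pow_add, pow_one, mul_comm A.card, pow_mul]
    exact Nat.mul_le_mul_left _ (Nat.pow_le_pow_left h2 _)
  have hs₀z : (s₀ : ℝ) + 1 ≤ z ^ 25 := by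
    have h2 : (A.card : ℝ) * (40 * ⌈z⌉₊) ≤ z ^ 23 * (40 * (2 * z)) := by gcongr
    have h3 := mul_pow_le_pow z 82 hz1 (by linarith) 24 25 (by norm_num)
    have h4 := one_le_pow₀ (n := 24) hz1
    simp only [s₀]; push_cast; nlinarith
  let y₁ : ℕ := n / 2 + 1
  have hy₁ : (n : ℝ) / 2 ≤ y₁ := by
    have : n ≤ 2 * y₁ := by simp only [y₁]; omega
    have : (n : ℝ) ≤ 2 * y₁ := by exact_mod_cast this
    linarith
  have hJa : ∀ 𝒰 ∈ J, 1 / z ≤ upP q 𝒰 := by
    intro 𝒰 h𝒰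
    obtain ⟨h2, S, hS⟩ := mem_filter.mp h𝒰
    obtain ⟨b, hb, h3⟩ := mem_biUnion.mp (mem_powerset.mp (mem_filter.mp h2).1 hS)
    exact (hκ q S (by linarith) h1.le ((card_le_card (mem_powerset.mp h3)).trans (hd b hb))).trans
      (pow_le_upP h0.le h1.le hS)
  have hna : ∀ 𝒰 ∈ J, z ^ 39 ≤ n * upP q 𝒰 := by
    intro 𝒰 h𝒰
    calc z ^ 39 = n * (1 / z) := by rw [hn]; field_simp
      _ ≤ _ := mul_le_mul_of_nonneg_left (hJa 𝒰 h𝒰) (Nat.cast_nonneg _)
  have hya : ∀ 𝒰 : Finset (Finset W), n / 2 * upP q 𝒰 ≤ y₁ * upP q 𝒰 := fun 𝒰 =>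
    mul_le_mul_of_nonneg_right hy₁ (Pr_nonneg h0.le h1.le _)
  obtain ⟨c, hc1, hc2⟩ := exists_balanced_split hq₁0.le hq₁1.le B N J 𝒱
    (fun 𝒰 S S' hS h2 => h2.trans (Pr_mono hq₁0.le hq₁1.le fun X ⟨T, hT, h3⟩ =>
      ⟨T, hT, fun x hx => (h3 x hx).imp_left fun h4 => hS h4⟩))
    (n / 256) s₀ (by positivity) (Nat.cast_nonneg _)
    (h.convex hr0.le hn1 hq₁0 hq₁1 (by linarith) A B N
      (fun b hb u hu => ⟨hN b hb u hu, disjoint_left.mp hAB (hA b hb hu)⟩) hA hB s₀ hs₀)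
    (fun 𝒰 => y₁ * upP q 𝒰 / 2) (z ^ 39 / 4)
    (fun 𝒰 h𝒰 => by have := hna 𝒰 h𝒰; have := hya 𝒰; linarith)
    (fun 𝒰 h𝒰 => by
      have h2 := hna 𝒰 h𝒰
      have h3 := hya 𝒰
      have h4 := mul_le_mul_of_nonneg_left (closure_prob hq₁0.le hq₁1.le hsq 𝒰)
        (by positivity : (0 : ℝ) ≤ n / 256)
      have h5 := mul_pow_le_pow z 96 hz1 (by linarith) 25 39 (by norm_num)
      simp only [𝒱]
      linarith)
    (by
      have h2 : 𝒮.card ≤ n * 2 ^ d := by
        refine (card_biUnion_le_card_mul _ _ (2 ^ d) fun b hb => ?_).trans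
          (Nat.mul_le_mul_right _ (by omega))
        rw [card_powerset]
        exact Nat.pow_le_pow_right (by norm_num) (hd b hb)
      have h3 : J.card ≤ (2 * (n * 2 ^ d)) ^ t := (card_le_card (filter_subset _ _)).trans
        (card_small_subsets 𝒮 t _ (Nat.mul_pos hn1 (by positivity)) h2)
      have h4 : (J.card : ℝ) ≤ (2 * z ^ 41) ^ t := by
        have : (J.card : ℝ) ≤ (2 * (n * 2 ^ d)) ^ t := by exact_mod_cast h3
        refine this.trans ?_
        rw [hn, pow_succ z 40]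
        gcongr
      have h5 := h4.trans (two_mul_pow_le_exp z hz1 41 t (by linarith))
      have h6 : (J.card : ℝ) * Real.exp (-(z ^ 39 / 4 / 2)) ≤ 1 := by
        refine (mul_le_mul_of_nonneg_right h5 (Real.exp_pos _).le).trans ?_
        rw [← Real.exp_add, Real.exp_le_one_iff]
        have h7 := mul_pow_le_pow z 1008 hz1 (by linarith) 2 39 (by norm_num)
        push_cast; linarith
      have h7 := mul_pow_le_pow z 17 hz1 (by linarith) 0 39 (by norm_num)
      simp only [pow_zero] at h7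
      linarith)
  refine ⟨c, fun b hb => (hc1 b hb).2, fun i => ?_⟩
  have hceil30 : (⌈z ^ 30⌉₊ : ℝ) ≤ 2 * z ^ 30 := by
    have := Nat.ceil_lt_add_one (by positivity : 0 ≤ z ^ 30)
    have := one_le_pow₀ (n := 30) hz1
    linarith
  refine emb_of_layers h0.le h1.le hz hn hW _ (A ∪ B)
    (fun v hv => if_neg fun h' => hv (mem_union_right _ h')) (fun v => if v ∈ B then 1 else 0) 2
    (by have := mul_pow_le_pow z 2 hz1 (by linarith) 0 4 (by norm_num); simpa using this)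
    (fun v _ => by split_ifs <;> norm_num) (fun v _ u hu => ?_)
    (fun j => if j = 0 then 2 * A.card + ⌈z ^ 30⌉₊ else y₁) ?_ (fun j hj => ?_) t (by linarith)
    (fun b _ => ?_) ?_
  · by_cases hv : v ∈ B
    · simp only [if_pos hv] at hu ⊢
      have h2 := hA v hv ((hc1 v hv).1 i hu)
      exact ⟨mem_union_left _ h2, by rw [if_neg (disjoint_left.mp hAB h2)]; norm_num⟩
    · simp [hv] at hu
  · simp only [sum_range_succ, range_zero, sum_empty, if_true, zero_add, one_ne_zero, if_false, y₁]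
    have h2 := mul_pow_le_pow z 16 hz1 (by linarith) 30 40 (by norm_num)
    have h3 := pow_le_pow_right₀ hz1 (by norm_num : 23 ≤ 30)
    have h4 := one_le_pow₀ (n := 30) hz1
    have h5 : ((2 * (2 * A.card + ⌈z ^ 30⌉₊ + 1) : ℕ) : ℝ) ≤ n := by push_cast; linarith
    have h6 : 2 * (2 * A.card + ⌈z ^ 30⌉₊ + 1) ≤ n := by exact_mod_cast h5
    omega
  · split_ifs
    · push_cast
      have := Nat.le_ceil (z ^ 30)
      have : (0 : ℝ) ≤ A.card := Nat.cast_nonneg _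
      linarith
    · have h2 := mul_pow_le_pow z 2 hz1 (by linarith) 30 40 (by norm_num)
      linarith
  · split_ifs with hb
    · exact hκ q _ (by linarith) h1.le ((card_le_card ((hc1 b hb).1 i)).trans (hd b hb))
    · rw [card_empty, pow_zero, div_le_one hz0]; exact hz1
  · intro j hj B' hB' hne
    have ht1 : 1 ≤ t := Nat.one_le_floor_iff _ |>.mpr (by linarith)
    by_cases hj0 : j = 0
    · subst hj0
      obtain ⟨b, hb⟩ := hne
      have hB'A : B' ⊆ A \ B := by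
        intro v hv
        obtain ⟨h2, h3⟩ := mem_filter.mp (hB' hv)
        have h4 : v ∉ B := fun h' => by simp [h'] at h3
        exact mem_sdiff.mpr ⟨(mem_union.mp h2).resolve_right h4, h4⟩
      refine ⟨{b}, singleton_subset_iff.mpr hb, by simpa using ht1, ?_⟩
      have h2 := pow_le_upP h0.le h1.le (mem_image_of_mem
        (fun v => if v ∈ B then c v i else ∅) (mem_singleton_self b))
      simp only [if_neg (mem_sdiff.mp (hB'A hb)).2, card_empty, pow_zero] at h2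
      have h3 : (B'.card : ℝ) ≤ A.card := by
        exact_mod_cast card_le_card (hB'A.trans sdiff_subset)
      have h4 : (0 : ℝ) ≤ ⌈z ^ 30⌉₊ := Nat.cast_nonneg _
      have h5 : (0 : ℝ) ≤ B'.card := Nat.cast_nonneg _
      simp only [if_true]
      push_cast
      nlinarith
    · have hB'B : B' ⊆ B := by
        intro v hv
        have h3 := (mem_filter.mp (hB' hv)).2
        by_contra h'
        simp only [if_neg h'] at h3
        exact hj0 h3.symm
      obtain ⟨B'', h2, h3, h4⟩ := exists_generators hq₁0.le hq₁1.le B' (fun v => c v i) (1 / z)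
        (by positivity) (fun b hb => hκ q₁ _ (by linarith) hq₁1.le
          ((card_le_card ((hc1 b (hB'B hb)).1 i)).trans (hd b (hB'B hb))))
      have h5 : B''.card ≤ t := by
        apply Nat.le_floor
        rwa [mul_one_div, div_le_iff₀ hz0] at h3
      refine ⟨B'', h2, h5, ?_⟩
      have h6 : B''.image (fun v => if v ∈ B then c v i else ∅) = B''.image (fun v => c v i) :=
        image_congr fun v hv => if_pos (hB'B (h2 hv))
      rw [h6, if_neg hj0]
      have h7 : B''.image (fun v => c v i) ∈ J := by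
        refine mem_filter.mpr ⟨mem_filter.mpr ⟨mem_powerset.mpr fun S hS => ?_,
          card_image_le.trans h5⟩, ?_⟩
        · obtain ⟨v, hv, rfl⟩ := mem_image.mp hS
          exact mem_biUnion.mpr ⟨v, hB'B (h2 hv), mem_powerset.mpr ((hc1 v (hB'B (h2 hv))).1 i)⟩
        · obtain ⟨b, hb⟩ := hne
          by_contra hc
          rw [not_nonempty_iff_eq_empty] at hc
          have h8 := h4 b hb
          rw [hc, Pr_false q₁ (by simp)] at h8
          linarith
      have h8 := hc2 i _ h7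
      have h9 : (B'.card : ℝ) ≤ ∑ b ∈ B, ind (𝒱 (B''.image (fun v => c v i)) (c b i)) := by
        refine le_trans (le_of_eq ?_) (sum_le_sum_of_subset_of_nonneg hB'B
          (fun _ _ _ => ind_nonneg _))
        rw [sum_congr rfl (g := fun _ => (1 : ℝ)) (fun b hb => ind_pos (h4 b hb))]
        simp
      linarith

end Hi

end Crest.Agent.Tal
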