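import Crest.Agent.Tal.Layer
import Crest.Agent.Tal.Peel

/-!
Embedding the pieces whose vertices are back-neighbours of few other vertices.
-/

set_option autoImplicit false
set_option linter.unusedSectionVars false

namespace Crest.Agent.Tal

open Finset Crest.FinProb Crest.CombinatoricsR.RandomGraph

lemma pow_le_exp (z : ℝ) (hz : 0 ≤ z) (k : ℕ) : z ^ k ≤ Real.exp (k * z) := by
  rw [Real.exp_nat_mul]
  exact pow_le_pow_left₀ hz (by have := Real.add_one_le_exp z; linarith) k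

lemma exp_neg_one_le_half : Real.exp (-1) ≤ 1 / 2 := by
  have h2 := Real.exp_one_gt_d9
  rw [Real.exp_neg, inv_le_comm₀ (Real.exp_pos 1) (by norm_num)]
  linarith

lemma two_mul_pow_le_exp (z : ℝ) (hz : 1 ≤ z) (k t : ℕ) (ht : (t : ℝ) ≤ 3 * z) :
    (2 * z ^ k) ^ t ≤ Real.exp (3 * (k + 1) * z ^ 2) := by
  have h1 : 2 * z ^ k ≤ Real.exp ((k + 1) * z) := by
    rw [add_mul, one_mul, Real.exp_add, mul_comm]
    have := Real.add_one_le_exp z
    exact mul_le_mul (pow_le_exp z (by linarith) k) (by linarith) (by norm_num)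
      (Real.exp_pos _).le
  refine (pow_le_pow_left₀ (by positivity) h1 t).trans ?_
  rw [← Real.exp_nat_mul]
  apply Real.exp_le_exp.mpr
  have : (0 : ℝ) ≤ (k + 1) * z := by positivity
  nlinarith

lemma mul_pow_le_pow (z c : ℝ) (hz : 1 ≤ z) (hc : c ≤ z) (a b : ℕ) (hab : a + 1 ≤ b) :
    c * z ^ a ≤ z ^ b := by
  refine le_trans ?_ (pow_le_pow_right₀ hz hab)
  rw [pow_succ, mul_comm]
  exact mul_le_mul_of_nonneg_left hc (by positivity)

section Lo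

variable {W : Type*} [Fintype W] [DecidableEq W] {n : ℕ}

/-- The system of back-neighbourhoods `N` embeds in the outcome `ω`. -/
def Emb (N : W → Finset W) (ω : EdgeSlot n → Bool) : Prop :=
  ∃ ψ : W ↪ Fin n, ∀ v, ∀ u ∈ N v, coin ω (ψ u) (ψ v) = true

lemma emb_of_layers {q z : ℝ} (h0 : 0 ≤ q) (h1 : q ≤ 1) (hz : 2 ^ 20 ≤ z) (hn : (n : ℝ) = z ^ 40)
    (hW : Fintype.card W ≤ n) (N : W → Finset W) (V : Finset W) (hV : ∀ v, v ∉ V → N v = ∅)
    (ℓ : W → ℕ) (R : ℕ) (hRz : (R : ℝ) ≤ z ^ 4) (hR : ∀ v ∈ V, ℓ v < R)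
    (hN : ∀ v ∈ V, ∀ u ∈ N v, u ∈ V ∧ ℓ u < ℓ v) (y : ℕ → ℕ) (hy : ∑ j ∈ range R, y j ≤ n)
    (hy₀ : ∀ j < R, z ^ 30 ≤ y j) (t : ℕ) (ht : (t : ℝ) ≤ 3 * z)
    (hκ : ∀ b ∈ V, 1 / z ≤ q ^ (N b).card)
    (hHall : ∀ j < R, ∀ B' ⊆ V.filter (fun v => ℓ v = j), B'.Nonempty → ∃ B'' ⊆ B', B''.card ≤ t ∧
      2 * (B'.card : ℝ) ≤ y j * upP q (B''.image N)) :
    1 / 2 ≤ Pr q (fun ω : EdgeSlot n → Bool => Emb N ω) := by
  have hz1 : 1 ≤ z := by linarith
  have hn1 : 1 ≤ n := by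
    have : (1 : ℝ) ≤ n := by rw [hn]; exact one_le_pow₀ hz1
    exact_mod_cast this
  obtain ⟨lay, hlay⟩ := exists_lay n R y hy
  have hlay' : ∀ j < R, (y j : ℝ) ≤ (univ.filter fun a => lay a = j).card := fun j hj => by
    exact_mod_cast hlay j hj
  have h2 := layers h0 h1 hW hn1 N V ℓ R hR hN lay t (1 / z) (z ^ 30) (by positivity) hκ
    (fun j hj => (hy₀ j hj).trans (hlay' j hj)) (fun j hj B' hB' hne => by
      obtain ⟨B'', h3, h4, h5⟩ := hHall j hj B' hB' hne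
      exact ⟨B'', h3, h4, h5.trans
        (mul_le_mul_of_nonneg_right (hlay' j hj) (Pr_nonneg h0 h1 _))⟩)
  refine le_trans ?_ (h2.trans (Pr_mono h0 h1 ?_))
  · have h3 := two_mul_pow_le_exp z hz1 40 t ht
    rw [← hn] at h3
    have h4 := hRz.trans (pow_le_exp z (by linarith) 4)
    have h5 : (R : ℝ) * ((2 * n : ℝ) ^ t * Real.exp (-(1 / z * z ^ 30 / 8))) ≤
        Real.exp ((4 : ℕ) * z) * (Real.exp (3 * ((40 : ℕ) + 1) * z ^ 2) *
          Real.exp (-(1 / z * z ^ 30 / 8))) := by gcongr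
    rw [← Real.exp_add, ← Real.exp_add] at h5
    have h6 : 1 / z * z ^ 30 = z ^ 29 := by field_simp
    have h7 := mul_pow_le_pow z 2048 hz1 (by linarith) 2 29 (by norm_num)
    have h8 : ((4 : ℕ) * z + (3 * ((40 : ℕ) + 1) * z ^ 2 + -(1 / z * z ^ 30 / 8)) : ℝ) ≤ -1 := by
      rw [h6]; push_cast; nlinarith
    have h9 := (Real.exp_le_exp.mpr h8).trans exp_neg_one_le_half
    linarith
  · rintro ω ⟨φ, hφ1, hφ2⟩
    obtain ⟨ψ, hψ⟩ := exists_emb_extend hW V φ hφ1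
    refine ⟨ψ, fun v u hu => ?_⟩
    by_cases hv : v ∈ V
    · rw [hψ v hv, hψ u (hN v hv u hu).1]; exact hφ2 v hv u hu
    · rw [hV v hv] at hu; simp at hu

lemma upP_disjoint {q : ℝ} (h0 : 0 ≤ q) (h1 : q ≤ 1) (N : W → Finset W) (B : Finset W) (κ : ℝ)
    (hκ : ∀ b ∈ B, κ ≤ q ^ (N b).card)
    (hd : ∀ a ∈ B, ∀ b ∈ B, a ≠ b → Disjoint (N a) (N b)) :
    1 - Real.exp (-(B.card * κ)) ≤ upP q (B.image N) := by
  have h2 : ∀ X : W → Bool, ind (¬ ∃ S ∈ B.image N, ∀ x ∈ S, X x = true) =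
      ∏ b ∈ B, ind (¬ ∀ x ∈ N b, X x = true) := by
    intro X
    by_cases h : ∃ S ∈ B.image N, ∀ x ∈ S, X x = true
    · rw [ind_neg (not_not.mpr h)]
      obtain ⟨S, hS, h⟩ := h
      obtain ⟨b, hb, rfl⟩ := mem_image.mp hS
      exact (prod_eq_zero hb (ind_neg (not_not.mpr h))).symm
    · rw [ind_pos h, prod_eq_one]
      exact fun b hb => ind_pos fun h' => h ⟨N b, mem_image_of_mem _ hb, h'⟩
  have h3 := Pr_not q (fun X : W → Bool => ∃ S ∈ B.image N, ∀ x ∈ S, X x = true)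
  have h4 : Pr q (fun X : W → Bool => ¬ ∃ S ∈ B.image N, ∀ x ∈ S, X x = true) ≤
      Real.exp (-(B.card * κ)) := by
    unfold Pr
    simp_rw [h2]
    rw [Ex_prod_indep q B N _ (fun b _ X X' h =>
      ind_congr (not_congr (forall₂_congr fun x hx => by rw [h x hx]))) hd]
    calc _ ≤ ∏ _b ∈ B, Real.exp (-κ) := by
          refine prod_le_prod (fun b _ => Ex_nonneg h0 h1 fun _ => ind_nonneg _) fun b hb => ?_
          have h5 := Pr_not q (fun X : W → Bool => ∀ x ∈ N b, X x = true)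
          rw [Pr_all] at h5
          refine h5.le.trans ?_
          have := hκ b hb
          have := Real.add_one_le_exp (-κ)
          linarith
      _ = _ := by rw [prod_const, ← Real.exp_nat_mul]; congr 1; ring
  unfold upP
  linarith

theorem lo_piece {q z : ℝ} (h0 : 0 ≤ q) (h1 : q ≤ 1) (hz : 2 ^ 20 ≤ z) (hn : (n : ℝ) = z ^ 40)
    (hW : Fintype.card W ≤ n) (N : W → Finset W) (V : Finset W) (hV : ∀ v, v ∉ V → N v = ∅)
    (ℓ : W → ℕ) (R : ℕ) (hRz : (R : ℝ) ≤ z ^ 4) (hR : ∀ v ∈ V, ℓ v < R)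
    (hN : ∀ v ∈ V, ∀ u ∈ N v, u ∈ V ∧ ℓ u < ℓ v) (d Δ : ℕ) (hd : ∀ v, (N v).card ≤ d)
    (hdz : (d : ℝ) ≤ z) (hq : 1 / z ≤ q ^ d) (hΔ : ∀ u, (univ.filter (fun v => u ∈ N v)).card ≤ Δ)
    (hΔz : (Δ : ℝ) ≤ z ^ 23) (hVn : 8 * V.card ≤ n) :
    1 / 2 ≤ Pr q (fun ω : EdgeSlot n → Bool => Emb N ω) := by
  have hz1 : 1 ≤ z := by linarith
  have hz0 : 0 < z := by linarith
  have hκ : ∀ b, 1 / z ≤ q ^ (N b).card := fun b => hq.trans (pow_le_pow_of_le_one h0 h1 (hd b))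
  have hceil : (⌈z⌉₊ : ℝ) ≤ 2 * z := by have := Nat.ceil_lt_add_one hz0.le; linarith
  have hceil1 : 1 ≤ ⌈z⌉₊ := Nat.ceil_pos.mpr hz0
  refine emb_of_layers h0 h1 hz hn hW N V hV ℓ R hRz hR hN
    (fun j => 4 * (V.filter (fun v => ℓ v = j)).card + ⌈z ^ 30⌉₊) ?_ (fun j _ => ?_) ⌈z⌉₊
    (by linarith) (fun b _ => hκ b) ?_
  · rw [sum_add_distrib, ← mul_sum, ← card_eq_sum_card_fiberwise
      (fun v hv => mem_coe.mpr (mem_range.mpr (hR v hv))), sum_const, card_range, smul_eq_mul]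
    have h2 : (⌈z ^ 30⌉₊ : ℝ) ≤ 2 * z ^ 30 := by
      have := Nat.ceil_lt_add_one (by positivity : 0 ≤ z ^ 30)
      have := one_le_pow₀ (n := 30) hz1
      linarith
    have h3 : ((R * ⌈z ^ 30⌉₊ : ℕ) : ℝ) ≤ z ^ 4 * (2 * z ^ 30) := by push_cast; gcongr
    have h4 := mul_pow_le_pow z 4 hz1 (by linarith) 34 40 (by norm_num)
    have h5 : ((2 * (R * ⌈z ^ 30⌉₊) : ℕ) : ℝ) ≤ n := by
      rw [hn, Nat.cast_mul]; push_cast at h3 ⊢; nlinarith
    have h6 : 2 * (R * ⌈z ^ 30⌉₊) ≤ n := by exact_mod_cast h5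
    omega
  · push_cast
    have := Nat.le_ceil (z ^ 30)
    have : (0 : ℝ) ≤ (V.filter (fun v => ℓ v = j)).card := Nat.cast_nonneg _
    linarith
  · intro j _ B' hB' hne
    have hc : (B'.card : ℝ) ≤ (V.filter (fun v => ℓ v = j)).card := by
      exact_mod_cast card_le_card hB'
    have hc0 : (0 : ℝ) ≤ ⌈z ^ 30⌉₊ := Nat.cast_nonneg _
    have hc1 : (0 : ℝ) ≤ B'.card := Nat.cast_nonneg _
    push_cast
    by_cases hemp : ∃ b ∈ B', N b = ∅
    · obtain ⟨b, hb, hNb⟩ := hemp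
      refine ⟨{b}, singleton_subset_iff.mpr hb, by simpa using hceil1, ?_⟩
      have := pow_le_upP h0 h1 (mem_image_of_mem N (mem_singleton_self b))
      rw [hNb, card_empty, pow_zero] at this
      nlinarith
    push Not at hemp
    by_cases hbig : ⌈z⌉₊ * (d * Δ) < B'.card
    · obtain ⟨B'', h2, h3, h4⟩ := exists_disjoint_sub N B' d Δ ⌈z⌉₊ (fun b _ => hd b) hemp
        (fun u => (card_le_card (filter_subset_filter _ (subset_univ _))).trans (hΔ u)) hbig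
      refine ⟨B'', h2, h3.le, ?_⟩
      have h5 := upP_disjoint h0 h1 N B'' (1 / z) (fun b _ => hκ b) h4
      have h6 : Real.exp (-(B''.card * (1 / z))) ≤ 1 / 2 := by
        refine (Real.exp_le_exp.mpr ?_).trans exp_neg_one_le_half
        rw [h3, mul_one_div, neg_le_neg_iff, le_div_iff₀ hz0, one_mul]
        exact Nat.le_ceil z
      nlinarith
    · obtain ⟨b, hb⟩ := hne
      refine ⟨{b}, singleton_subset_iff.mpr hb, by simpa using hceil1, ?_⟩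
      have h2 := (hκ b).trans (pow_le_upP h0 h1 (mem_image_of_mem N (mem_singleton_self b)))
      have h3 : (B'.card : ℝ) ≤ (2 * z) * (z * z ^ 23) := by
        have : (B'.card : ℝ) ≤ ⌈z⌉₊ * (d * Δ) := by exact_mod_cast not_lt.mp hbig
        refine this.trans ?_
        gcongr
      have h4 := mul_pow_le_pow z 4 hz1 (by linarith) 25 29 (by norm_num)
      have h5 : z ^ 29 ≤ (⌈z ^ 30⌉₊ : ℝ) * upP q (image N {b}) := by
        calc z ^ 29 = z ^ 30 * (1 / z) := by field_simp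
          _ ≤ _ := mul_le_mul (Nat.le_ceil _) h2 (by positivity) hc0
      have h6 : 0 ≤ ((V.filter (fun v => ℓ v = j)).card : ℝ) * upP q (image N {b}) :=
        mul_nonneg (Nat.cast_nonneg _) (Pr_nonneg h0 h1 _)
      nlinarith

end Lo

end Crest.Agent.Tal
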